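import Vale.Agent.P277.H335.Jone

/-!
# P277, task TC: assembly of Theorem T1
-/

open scoped Manifold ContDiff Topology
open Vale.Agent.P272.K Vale.Agent.P285.H281.FD Vale.Agent.P267.H175 Set Filter

noncomputable section

namespace Vale.Agent.P277.H335

open Vale.Agent.P277

variable {Y : Type} [TopologicalSpace Y] [ChartedSpace (Cm 4) Y]

/-- the start of the tower -/
theorem Tw.base {N : Bd Y} (hN : ∀ c, IsOpen (N.U c)) (hNc : ∀ y, ∃ c, y ∈ N.U c) {X₀ : CSp}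
    [Nonempty X₀.pt] {v₀ : Y → X₀.pt} (hv₀ : IsOpenEmb X₀ univ v₀)
    (hsurj : Function.Surjective v₀) {L : Bd X₀.pt} {c : ℕ} (hc : 1 ≤ c)
    {t : L.ι → N.ι → Y → ℂ} (ht : IsIsoY univ v₀ L (N.pow c) t) {p : ℕ} (hp : 1 ≤ p)
    (hL : IsLBx X₀ (L.pow p)) :
    Tw v₀ N X₀ L ∅ univ v₀ p (c * p) (fun i j y => t i j y ^ p) := by
  have hdim : ∀ d, DimLe X₀ d (v₀ '' univ)ᶜ := by
    intro d
    rw [image_univ, hsurj.range_eq, compl_univ]
    exact dimLe_empty
  refine ⟨hv₀, hdim 2, hdim 2, hp, Nat.mul_pos hc hp, hL, ⟨?_, ?_⟩, empty_subset _, ?_⟩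
  · intro y hy i j e he hi hj
    have h1 := ht.holo y hy i j e he hi hj
    exact ⟨h1.1.pow p, pow_ne_zero _ h1.2⟩
  · intro y hy i i₁ j j₁ hi hi₁ hj hj₁
    have h1 : t i₁ j₁ y = L.g i i₁ (v₀ y) * t i j y * N.g j₁ j y ^ c :=
      ht.change y hy i i₁ j j₁ hi hi₁ hj hj₁
    show t i₁ j₁ y ^ p = L.g i i₁ (v₀ y) ^ p * t i j y ^ p * N.g j₁ j y ^ (c * p)
    rw [h1, mul_pow, mul_pow, ← pow_mul]
  · intro W w₀ γ' i hW hw₀ hw₀0 hγ' hd hi
    obtain ⟨y₀, -⟩ := hsurj (γ' w₀)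
    set I : X₀.pt → Y := hv₀.inv y₀ with hI
    have hIv : ∀ y, I (v₀ y) = y := fun y => hv₀.inv_apply _ (mem_univ y)
    have hvI : ∀ x, v₀ (I x) = x := by
      intro x
      obtain ⟨y, rfl⟩ := hsurj x
      rw [hIv]
    have hIc : ∀ x, ContinuousAt I x := by
      intro x
      rw [← hvI x]
      exact hv₀.inv_continuousAt _ (mem_univ _)
    have hcont : ∀ w ∈ W, ContinuousAt (fun w => I (γ' w)) w := fun w hw =>
      ContinuousAt.comp (g := I) (hIc _) (hγ' w hw).1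
    obtain ⟨j, hj⟩ := hNc (I (γ' w₀))
    set e : Chart 4 Y := chartAt (Cm 4) (I (γ' w₀)) with he
    have heat : e ∈ atlas (Cm 4) Y := chart_mem_atlas _ _
    have hW₁ : IsOpen (W ∩ (fun w => I (γ' w)) ⁻¹' (e.source ∩ N.U j)) := by
      have h1 : ContinuousOn (fun w => I (γ' w)) W := fun w hw => (hcont w hw).continuousWithinAt
      exact h1.isOpen_inter_preimage hW (e.open_source.inter (hN j))
    have hana : ∀ w ∈ W, I (γ' w) ∈ e.source → ∀ g : Y → ℂ,
        AnalyticAt ℂ (fun z => g (e.symm z)) (e (I (γ' w))) →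
        AnalyticAt ℂ (fun w => g (I (γ' w))) w := by
      intro w hw hws g hg
      have h1 : X₀.Hol (fun x => g (I x)) (v₀ (I (γ' w))) :=
        hv₀.hol_of_analyticAt y₀ (mem_univ _) ⟨heat, hws⟩ hg
      rw [hvI] at h1
      exact (hγ' w hw).analyticAt h1
    refine ⟨w₀, hw₀, hw₀0, _, fun w => I (γ' w), e, j, fun w => t i j (I (γ' w)) ^ p, 1, hW₁,
      ⟨hw₀, mem_chart_source _ _, hj⟩, inter_subset_left, le_refl 1, ?_, ?_, ?_, ?_, ?_⟩
    · rintro w ⟨hw, hws, hwj⟩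
      refine ⟨hcont w hw, ⟨heat, hws⟩, ?_, hwj, ?_⟩
      · rw [analyticAt_pi_iff]
        intro a
        refine hana w hw hws (fun y => e y a) ?_
        refine ((ContinuousLinearMap.proj (R := ℂ) (φ := fun _ : Fin 4 => ℂ) a).analyticAt _).congr
          ?_
        filter_upwards [e.open_target.mem_nhds (e.map_source hws)] with z hz
        simp [e.right_inv hz]
      · refine hana w hw hws (fun y => t i j y ^ p) ?_
        refine (ht.holo (I (γ' w)) (mem_univ _) i j e ⟨heat, hws⟩ ?_ hwj).1.pow p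
        rw [hvI]; exact hi w hw
    · intro w _ _; exact mem_univ _
    · intro w _ _; exact hvI _
    · intro w _ _; exact (pow_one _).symm
    · intro h0
      exact (h0 w₀ hw₀ hw₀0).elim

/-- **Theorem T1** from Theorem R and the discrepancy part. -/
theorem stT_of (hR : StR) (hD0 : StD0) (hTB : StTB) (s : Prop) (hX : StTX s) : StT s := by
  intro Y _ _ _ _ _ χ hχ M hM hnef m hm b a hspan N X Z v hv hsurj f f' A L hL0 hflip hs
  rcases Nat.eq_zero_or_pos N with rfl | hNpos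
  · exact Nat.zero_le _
  set NB : Bd Y := ((Bd.can 4 Y).pow m).mul M with hNB
  have hNo : ∀ c, IsOpen (NB.U c) := by
    rintro ⟨e, i⟩
    have h1 : IsOpen {x : Y | At e x} := by
      by_cases he : e ∈ atlas (Cm 4) Y
      · have h2 : {x : Y | At e x} = e.source := by
          ext x
          exact ⟨fun h => h.2, fun h => ⟨he, h⟩⟩
        rw [h2]; exact e.open_source
      · have h2 : {x : Y | At e x} = ∅ := by
          ext x
          exact ⟨fun h => (he h.1).elim, fun h => h.elim⟩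
        rw [h2]; exact isOpen_empty
    exact h1.inter (hM.isOpen i)
  have hNc : ∀ y, ∃ c, y ∈ NB.U c := by
    intro y
    obtain ⟨i, hi⟩ := hM.cover y
    exact ⟨(chartAt (Cm 4) y, i), ⟨chart_mem_atlas _ _, mem_chart_source _ _⟩, hi⟩
  have hch : ∀ j, ∃ p q : ℕ, j < N → (1 ≤ p ∧ 1 ≤ q ∧ IsFlip (X j) (Z j) (X (j + 1)) (f j) (f' j)
      (Amin (f j)) ((L j).pow p) ((L (j + 1)).pow q)) := by
    intro j
    by_cases hj : j < N
    · obtain ⟨p, q, hp, hq, h⟩ := hflip j hj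
      exact ⟨p, q, fun _ => ⟨hp, hq, (hD0 _ _ _ _ _ _ _ _ h).1⟩⟩
    · exact ⟨0, 0, fun h => (hj h).elim⟩
  choose p q hpq using hch
  have hne : Nonempty (X 0).pt := by
    have h1 := (hpq 0 hNpos).2.2.ninj
    rw [Function.Injective] at h1
    push Not at h1
    obtain ⟨x, -⟩ := h1
    exact ⟨x⟩
  have htower : ∀ j ≤ N, ∃ S O v' P Q T, Tw v NB (X j) (L j) S O v' P Q T := by
    intro j
    induction j with
    | zero =>
      intro _
      obtain ⟨c, hc, t, ht⟩ := hL0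
      exact ⟨_, _, _, _, _, _, Tw.base hNo hNc hv hsurj hc ht (hpq 0 hNpos).1
        (hpq 0 hNpos).2.2.lb⟩
    | succ j ih =>
      intro hj
      obtain ⟨S, O, v', P, Q, T, h⟩ := ih (by omega)
      obtain ⟨hp, hq, hf⟩ := hpq j (by omega)
      obtain ⟨O', v'', P', Q', T', h'⟩ := h.step hTB hNo hv hp hq hf rfl
      exact ⟨_, _, _, _, _, _, h'⟩
  have hdim : ∀ j < N, DimLe (X (j + 1)) 1 (f' j ⁻¹' Amin (f j)) := by
    intro j hj
    by_contra hcon
    obtain ⟨S, O, v₁, P, Q, T, h⟩ := htower j hj.le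
    obtain ⟨hp, hq, hf⟩ := hpq j hj
    obtain ⟨O', v', P', Q', T', h'⟩ := h.step hTB hNo hv hp hq hf rfl
    obtain ⟨W, w₀, φ, hW, hw₀, hw₀0, hφ, hφS, hφd, hfin⟩ := hX Y χ hχ M hM hnef m hm (X (j + 1))
      hf.normal' (fun hs' => hs hs' (j + 1) (by omega)) O' v' h'.emb h'.dim
      (f' j ⁻¹' Amin (f j)) (hf.small'.an.preimage (V := univ) fun x => hf.small'.holMap x) h'.sub
      hcon ((L (j + 1)).pow P') h'.lb Q' h'.hQ T' h'.iso
    obtain ⟨i, hi⟩ := h'.lb.cover (φ w₀)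
    have hW' : IsOpen (W ∩ φ ⁻¹' ((L (j + 1)).pow P').U i) := by
      have hc : ContinuousOn φ W := fun w hw => (hφ w hw).1.continuousWithinAt
      exact hc.isOpen_inter_preimage hW (h'.lb.isOpen i)
    obtain ⟨w₁, hw₁, hw₁0, W₁, γ₀, e, c, F, K, hW₁, hw₁', hW₁W, hK, hγ₀, hO1, hO2, hF, hF0⟩ :=
      h'.chain (W ∩ φ ⁻¹' ((L (j + 1)).pow P').U i) w₀ φ i hW' ⟨hw₀, hi⟩ hw₀0
        (fun w hw => hφ w hw.1)
        (subset_closure_of_open (D := {w | φ w ∈ v' '' O'}) hW' inter_subset_left hφd)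
        (fun w hw => hw.2)
    have hmem : ∀ᶠ w in 𝓝 w₁, w ∈ W₁ := hW₁.mem_nhds hw₁'
    obtain ⟨g1, g2, g3, g4, g5⟩ := hγ₀ w₁ hw₁'
    refine hfin w₁ (hw₁.1) hw₁0 γ₀ e F i c g1 g2 g3 ?_ hw₁.2 g4 g5 K hK ?_ ?_ ?_
    · filter_upwards [hmem] with w hw hwO
      exact ⟨hO1 w hw hwO, hO2 w hw (hO1 w hw hwO)⟩
    · filter_upwards [hmem] with w hw hwO
      exact hF w hw hwO
    · filter_upwards [hmem] with w hw hw0
      exact hF0 (fun z hz hz0 => hφS z hz.1 hz0) w hw hw0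
    · filter_upwards [hmem] with w hw hw0
      by_contra hdet
      obtain ⟨z, hz, hz0, hzO⟩ := exists_mem_of_det_ne_zero hv h'.dim0 hW₁ hw hw0
        (fun w hw => (hγ₀ w hw).2.1) (fun w hw => (hγ₀ w hw).2.2.1) hdet
      exact h'.sub (hφS z (hW₁W hz).1 hz0) ⟨γ₀ z, hzO, hO2 z hz hzO⟩
  refine hR Y b a hspan N X Z univ v hv ?_ f f' (fun j => Amin (f j)) (fun j => (L j).pow (p j))
    (fun j => (L (j + 1)).pow (q j)) (fun j hj => (hpq j hj).2.2) hdim
  rw [image_univ, hsurj.range_eq, compl_univ]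
  exact dimLe_empty

end Vale.Agent.P277.H335
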