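import Vale.Agent.P277.H335.COV4

/-!
# P277, TX-COV, part 5: existence of branched coverings
-/

open Set Filter Metric Topology
open scoped Manifold ContDiff
open Vale.Agent.P272.K Vale.Agent.P285.H281.FD Vale.Agent.P277.TX

noncomputable section

namespace Vale.Agent.P277.H335

section

variable {Y : Type} [TopologicalSpace Y] [ChartedSpace (Cm 4) Y] {X : CSp} {O : Set Y}
  {v : Y → X.pt} {V : Set X.pt} {G : X.pt → Cm 4}

/-- a section near a point with non-vanishing Jacobian -/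
theorem sec_of_jac (hv : IsOpenEmb X O v) (hV : IsOpen V)
    (hG : ∀ x ∈ V, ∀ i, X.Hol (fun y => G y i) x) {y : Y} (hy : y ∈ O) (hyV : v y ∈ V)
    {e : Chart 4 Y} (he : At e y) (hJ : Jac v (fun i x => G x i) e (e y) ≠ 0) :
    Sec X V G (v y) := by
  set F : Cm 4 → Cm 4 := fun z => G (v (e.symm z)) with hF
  set Ω : Set (Cm 4) := {z | z ∈ e.target ∧ e.symm z ∈ O ∧ v (e.symm z) ∈ V} with hΩ
  have hΩo : IsOpen Ω := by
    rw [isOpen_iff_mem_nhds]
    intro z hz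
    filter_upwards [e.open_target.mem_nhds hz.1,
      (e.continuousAt_symm hz.1).eventually (hv.isOpen.mem_nhds hz.2.1),
      (H622.emb_chart_continuousAt hv hz.1 hz.2.1).eventually (hV.mem_nhds hz.2.2)]
      with z' a b c using ⟨a, b, c⟩
  have hz : e y ∈ Ω := ⟨e.map_source he.2, by rw [e.left_inv he.2]; exact hy,
    by rw [e.left_inv he.2]; exact hyV⟩
  have hFi : ∀ z ∈ Ω, ∀ i, AnalyticAt ℂ (fun z => G (v (e.symm z)) i) z := fun z hz i =>
    H622.emb_analytic hv he.1 hz.1 hz.2.1 (hG _ hz.2.2 i)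
  have hFan : ∀ z ∈ Ω, AnalyticAt ℂ F z := fun z hz => by
    rw [hF, analyticAt_pi_iff]
    exact hFi z hz
  have hmat : LinearMap.toMatrix' (fderiv ℂ F (e y) : Cm 4 →ₗ[ℂ] Cm 4) =
      Matrix.of fun i j => fderiv ℂ (fun z => G (v (e.symm z)) i) (e y) (Pi.single j 1) := by
    ext i j
    rw [LinearMap.toMatrix'_apply]
    simp only [Matrix.of_apply]
    have h1 : fderiv ℂ F (e y) = ContinuousLinearMap.pi fun i =>
        fderiv ℂ (fun z => G (v (e.symm z)) i) (e y) :=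
      fderiv_pi fun i => (hFi _ hz i).differentiableAt
    rw [h1]
    rfl
  have hdet : LinearMap.det (fderiv ℂ F (e y) : Cm 4 →ₗ[ℂ] Cm 4) ≠ 0 := by
    rw [← LinearMap.det_toMatrix', hmat]
    exact hJ
  have hinj : Function.Injective (fderiv ℂ F (e y)) :=
    (LinearMap.equivOfDetNeZero (fderiv ℂ F (e y) : Cm 4 →ₗ[ℂ] Cm 4) hdet).injective
  obtain ⟨ε, hεF, hεs, -, hεt⟩ := H73.exists_localInv (hFan _ hz) hinj
  set S : Set (Cm 4) := ε.source ∩ Ω with hS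
  have hSo : IsOpen S := ε.open_source.inter hΩo
  have hSe : IsOpen (e.symm '' S) := e.isOpen_image_symm_of_subset_target hSo fun z hz => hz.2.1
  have hGx : ∀ z ∈ S, G (v (e.symm z)) = ε z := fun z hz => by rw [hεF]
  refine ⟨v '' (e.symm '' S), fun w => v (e.symm (ε.symm w)), hv.isOpenMap _ ?_ hSe,
    ⟨y, ⟨e y, ⟨hεs, hz⟩, e.left_inv he.2⟩, rfl⟩, ?_, ?_, ?_⟩
  · rintro _ ⟨z, hz, rfl⟩; exact hz.2.2.1
  · rintro _ ⟨_, ⟨z, hz, rfl⟩, rfl⟩; exact hz.2.2.2
  · have h1 : G '' (v '' (e.symm '' S)) = ε '' S := by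
      rw [image_image, image_image]
      exact image_congr hGx
    rw [h1]
    exact ε.isOpen_image_of_subset_source hSo inter_subset_left
  · rintro _ ⟨_, ⟨z, hz, rfl⟩, rfl⟩
    have h1 : ε.symm (G (v (e.symm z))) = z := by rw [hGx z hz, ε.left_inv hz.1]
    have h2 : v (e.symm (ε.symm (G (v (e.symm z))))) = v (e.symm z) := by rw [h1]
    have ht : G (v (e.symm z)) ∈ ε.target := by rw [hGx z hz]; exact ε.map_source hz.1
    refine ⟨h2, ?_, fun f hf => ?_⟩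
    · have h3 : ContinuousAt (fun z => v (e.symm z)) (ε.symm (G (v (e.symm z)))) := by
        rw [h1]
        exact H622.emb_chart_continuousAt hv hz.2.1 hz.2.2.1
      exact ContinuousAt.comp (g := fun z => v (e.symm z)) h3 (ε.continuousAt_symm ht)
    · have h4 : AnalyticAt ℂ (fun z => f (v (e.symm z))) (ε.symm (G (v (e.symm z)))) := by
        rw [h1]
        refine H622.emb_analytic hv he.1 hz.2.1 hz.2.2.1 ?_
        have hf' : X.Hol f (v (e.symm (ε.symm (G (v (e.symm z)))))) := hf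
        rwa [h2] at hf'
      exact AnalyticAt.fun_comp (g := fun z => f (v (e.symm z))) h4 (hεt _ ht)

end

/-- the image of the points without section is thin -/
theorem thin_of_nondeg {Y : Type} [TopologicalSpace Y] [T2Space Y] [CompactSpace Y]
    [ChartedSpace (Cm 4) Y] [IsManifold 𝓘(ℂ, Cm 4) ω Y] {X : CSp} {O : Set Y} {v : Y → X.pt}
    (hv : IsOpenEmb X O v) (hdim : DimLe X 2 (v '' O)ᶜ) {G : X.pt → Cm 4} {c : Cm 4} {r : ℝ}
    {V : Set X.pt} (hB : Base X V G c r)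
    (hnd : ∀ W : Set X.pt, IsOpen W → W ⊆ V → W.Nonempty → ∃ y ∈ O, v y ∈ W ∧
      ∀ e : Chart 4 Y, At e y → Jac v (fun i x => G x i) e (e y) ≠ 0) :
    Thin 3 (ball c r) (G '' {x | x ∈ V ∧ ¬ Sec X V G x}) := by
  classical
  constructor
  · -- closedness
    rw [isOpen_iff_mem_nhds]
    rintro z ⟨hz, hzE⟩
    obtain ⟨ρ, hρ, hρb⟩ : ∃ ρ > 0, closedBall z ρ ⊆ ball c r := by
      obtain ⟨ρ, hρ, h1⟩ := Metric.isOpen_iff.1 isOpen_ball z hz
      exact ⟨ρ / 2, by positivity, (closedBall_subset_ball (by linarith)).trans h1⟩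
    have hK : IsCompact {x | x ∈ V ∧ G x ∈ closedBall z ρ} :=
      hB.compact (isCompact_closedBall z ρ) hρb
    have hK1 := hK.diff (isOpen_sec (X := X) (V := V) (G := G))
    have hK2 : IsClosed (G '' ({x | x ∈ V ∧ G x ∈ closedBall z ρ} \ {x | Sec X V G x})) :=
      (hK1.image_of_continuousOn (hB.contOn.mono fun x hx => hx.1.1)).isClosed
    have hz2 : z ∉ G '' ({x | x ∈ V ∧ G x ∈ closedBall z ρ} \ {x | Sec X V G x}) := by
      rintro ⟨x, ⟨⟨hx, -⟩, hx'⟩, hxz⟩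
      exact hzE ⟨x, ⟨hx, hx'⟩, hxz⟩
    filter_upwards [hK2.isOpen_compl.mem_nhds hz2, closedBall_mem_nhds z hρ] with w hw hwρ
    refine ⟨hρb hwρ, ?_⟩
    rintro ⟨x, ⟨hx, hx'⟩, rfl⟩
    exact hw ⟨x, ⟨⟨hx, hwρ⟩, hx'⟩, rfl⟩
  · have hVo := hB.isOpen
    -- the first thin set: image of the complement of `v '' O`
    obtain ⟨Ω1, g1, hΩ1, hg1, hcov1⟩ := hdim
    let π : Cm 3 → Cm 2 := fun q => fun j => q (Fin.castSucc j)
    have hπ : ∀ q, AnalyticAt ℂ π q := fun q => by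
      rw [analyticAt_pi_iff]
      intro j
      exact (ContinuousLinearMap.proj (R := ℂ) (φ := fun _ : Fin 3 => ℂ) (Fin.castSucc j)).analyticAt q
    let W1 : ℕ → Set (Cm 3) := fun k => {q | π q ∈ Ω1 k ∧ g1 k (π q) ∈ V}
    let F1 : ℕ → Cm 3 → Cm 4 := fun k q => G (g1 k (π q))
    have hW1 : ∀ k, IsOpen (W1 k) := by
      intro k
      rw [isOpen_iff_mem_nhds]
      intro q hq
      have h1 : ∀ᶠ q' in 𝓝 q, π q' ∈ Ω1 k :=
        (hπ q).continuousAt.eventually ((hΩ1 k).mem_nhds hq.1)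
      have h2 : ContinuousAt (fun q => g1 k (π q)) q :=
        ContinuousAt.comp (hg1 k (π q) hq.1).1 (hπ q).continuousAt
      filter_upwards [h1, h2.eventually (hVo.mem_nhds hq.2)] with q' a b using ⟨a, b⟩
    have hF1 : ∀ k, ∀ q ∈ W1 k, AnalyticAt ℂ (F1 k) q := by
      intro k q hq
      rw [analyticAt_pi_iff]
      intro i
      have h1 : AnalyticAt ℂ ((fun y => G y i) ∘ g1 k) (π q) :=
        (hg1 k (π q) hq.1).2 (fun y => G y i) (hB.holo _ hq.2 i)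
      exact h1.comp_of_eq (hπ q) rfl
    -- the second thin set: image of the critical points
    obtain ⟨s, hs, hsU⟩ := countable_cover_nhds_of_sigmaCompact
      (fun y : Y => chart_source_mem_nhds (Cm 4) y)
    rcases s.eq_empty_or_nonempty with hse | hsne
    · -- `Y` is empty
      have hYe : ∀ y : Y, False := by
        intro y
        have h1 : y ∈ ⋃ y ∈ s, (chartAt (Cm 4) y).source := hsU ▸ mem_univ y
        simp [hse] at h1
      refine ⟨W1, F1, hW1, hF1, ?_⟩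
      rintro _ ⟨-, x, ⟨hxV, -⟩, rfl⟩
      have h2 := hcov1 (show x ∈ (v '' O)ᶜ from fun ⟨y, _⟩ => hYe y)
      simp only [mem_iUnion] at h2
      obtain ⟨k, p, hp, rfl⟩ := h2
      have h3 : π ![p 0, p 1, 0] = p := by
        funext j
        fin_cases j <;> rfl
      refine mem_iUnion.2 ⟨k, ![p 0, p 1, 0], ?_, ?_⟩
      · show π ![p 0, p 1, 0] ∈ Ω1 k ∧ g1 k (π ![p 0, p 1, 0]) ∈ V
        rw [h3]; exact ⟨hp, hxV⟩
      · show G (g1 k (π ![p 0, p 1, 0])) = _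
        rw [h3]
    obtain ⟨en, hen⟩ := hs.exists_eq_range hsne
    let e : ℕ → Chart 4 Y := fun n => chartAt (Cm 4) (en n)
    have he : ∀ n, e n ∈ atlas (Cm 4) Y := fun n => chart_mem_atlas _ _
    have hecov : ∀ y : Y, ∃ n, y ∈ (e n).source := by
      intro y
      have h1 : y ∈ ⋃ y ∈ s, (chartAt (Cm 4) y).source := hsU ▸ mem_univ y
      simp only [mem_iUnion] at h1
      obtain ⟨y', hy', hyy⟩ := h1
      rw [hen] at hy'
      obtain ⟨n, rfl⟩ := hy'
      exact ⟨n, hyy⟩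
    let Ωc : ℕ → Set (Cm 4) := fun n => {z | z ∈ (e n).target ∧ (e n).symm z ∈ O ∧
      v ((e n).symm z) ∈ V}
    have hΩc : ∀ n, IsOpen (Ωc n) := by
      intro n
      rw [isOpen_iff_mem_nhds]
      intro z hz
      filter_upwards [(e n).open_target.mem_nhds hz.1,
        ((e n).continuousAt_symm hz.1).eventually (hv.isOpen.mem_nhds hz.2.1),
        (H622.emb_chart_continuousAt hv hz.1 hz.2.1).eventually (hVo.mem_nhds hz.2.2)]
        with z' a b c using ⟨a, b, c⟩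
    have hJan : ∀ n, ∀ z ∈ Ωc n, AnalyticAt ℂ (Jac v (fun i x => G x i) (e n)) z := fun n z hz =>
      H622.analyticAt_Jac hv (he n) hz.1 hz.2.1 fun i => hB.holo _ hz.2.2 i
    have hJne : ∀ n, ∀ z ∈ Ωc n, ¬ Jac v (fun i x => G x i) (e n) =ᶠ[𝓝 z] 0 := by
      intro n z hz h0
      obtain ⟨N, hN, hNo, hzN⟩ := _root_.eventually_nhds_iff.1 (h0.and ((hΩc n).mem_nhds hz))
      have hNt : N ⊆ (e n).target := fun z' hz' => (hN z' hz').2.1
      have h2 : IsOpen ((e n).symm '' N) := (e n).isOpen_image_symm_of_subset_target hNo hNt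
      have h3 : (e n).symm '' N ⊆ O := by
        rintro _ ⟨z', hz', rfl⟩; exact (hN z' hz').2.2.1
      have h4 : IsOpen (v '' ((e n).symm '' N)) := hv.isOpenMap _ h3 h2
      have h5 : v '' ((e n).symm '' N) ⊆ V := by
        rintro _ ⟨_, ⟨z', hz', rfl⟩, rfl⟩; exact (hN z' hz').2.2.2
      obtain ⟨y, hyO, hyW, hyJ⟩ := hnd _ h4 h5 ⟨_, ⟨_, ⟨z, hzN, rfl⟩, rfl⟩⟩
      obtain ⟨y', ⟨z', hz', rfl⟩, hyy⟩ := hyW
      have h6 : (e n).symm z' = y := hv.inj (h3 ⟨z', hz', rfl⟩) hyO hyy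
      subst h6
      have h7 : At (e n) ((e n).symm z') := ⟨he n, (e n).map_target (hNt hz')⟩
      apply hyJ (e n) h7
      rw [(e n).right_inv (hNt hz')]
      exact (hN z' hz').1
    have hB1 := fun n => H622.stB1 3 (Ωc n) (Jac v (fun i x => G x i) (e n)) (hΩc n) (hJan n)
      (hJne n)
    choose W2 g2 hW2 hg2 hcov2 using hB1
    let F2 : ℕ → ℕ → Cm 3 → Cm 4 := fun n k q => G (v ((e n).symm (g2 n k q)))
    have hF2 : ∀ n k, ∀ q ∈ W2 n k, AnalyticAt ℂ (F2 n k) q := by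
      intro n k q hq
      rw [analyticAt_pi_iff]
      intro i
      have h1 := hg2 n k q hq
      have h2 : AnalyticAt ℂ (fun z => G (v ((e n).symm z)) i) (g2 n k q) :=
        H622.emb_analytic hv (he n) h1.2.1 h1.2.2.1 (hB.holo _ h1.2.2.2 i)
      exact h2.comp_of_eq h1.1 rfl
    -- the union of the two families
    refine ⟨fun k => if k % 2 = 0 then W1 (k / 2) else
      W2 (Nat.unpair (k / 2)).1 (Nat.unpair (k / 2)).2, fun k => if k % 2 = 0 then F1 (k / 2) else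
      F2 (Nat.unpair (k / 2)).1 (Nat.unpair (k / 2)).2, fun k => ?_, fun k p hp => ?_, ?_⟩
    · dsimp only
      split_ifs
      · exact hW1 _
      · exact hW2 _ _
    · dsimp only at hp ⊢
      split_ifs with hk
      · rw [if_pos hk] at hp; exact hF1 _ p hp
      · rw [if_neg hk] at hp; exact hF2 _ _ p hp
    · rintro _ ⟨-, x, ⟨hxV, hxS⟩, rfl⟩
      by_cases hxO : x ∈ v '' O
      · obtain ⟨y', hy', rfl⟩ := hxO
        obtain ⟨n, hn⟩ := hecov y'
        have hJ0 : Jac v (fun i x => G x i) (e n) (e n y') = 0 := by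
          by_contra hJ
          exact hxS (sec_of_jac hv hVo hB.holo hy' hxV ⟨he n, hn⟩ hJ)
        have h2 : e n y' ∈ {z | z ∈ Ωc n ∧ Jac v (fun i x => G x i) (e n) z = 0} := by
          refine ⟨⟨(e n).map_source hn, ?_, ?_⟩, hJ0⟩
          · rw [(e n).left_inv hn]; exact hy'
          · rw [(e n).left_inv hn]; exact hxV
        have h3 := hcov2 n h2
        simp only [mem_iUnion] at h3
        obtain ⟨k, q, hq, hqe⟩ := h3
        have h1 : ¬ ((2 * Nat.pair n k + 1) % 2 = 0) := by omega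
        have h4 : (2 * Nat.pair n k + 1) / 2 = Nat.pair n k := by omega
        refine mem_iUnion.2 ⟨2 * Nat.pair n k + 1, q, ?_, ?_⟩
        · simp only [if_neg h1, h4, Nat.unpair_pair]; exact hq
        · simp only [if_neg h1, h4, Nat.unpair_pair]
          show G (v ((e n).symm (g2 n k q))) = _
          rw [hqe, (e n).left_inv hn]
      · have h2 := hcov1 hxO
        simp only [mem_iUnion] at h2
        obtain ⟨k, p, hp, rfl⟩ := h2
        have h3 : π ![p 0, p 1, 0] = p := by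
          funext j
          fin_cases j <;> rfl
        have h4 : 2 * k % 2 = 0 := by omega
        have h5 : 2 * k / 2 = k := by omega
        refine mem_iUnion.2 ⟨2 * k, ![p 0, p 1, 0], ?_, ?_⟩
        · simp only [h4, if_true, h5]
          show π ![p 0, p 1, 0] ∈ Ω1 k ∧ g1 k (π ![p 0, p 1, 0]) ∈ V
          rw [h3]; exact ⟨hp, hxV⟩
        · simp only [h4, if_true, h5]
          show G (g1 k (π ![p 0, p 1, 0])) = _
          rw [h3]

/-- (TX-COV p) -/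
theorem stCovP : StCovP := by
  intro Y _ _ _ _ _ X _ O v hv hdim G c r hr V hV hVn hG hmaps hproper hnd n ζ hζ
  have hB : Base X V G c r := ⟨hV, hr, hG, hmaps, hproper⟩
  have hthin := thin_of_nondeg hv hdim hB hnd
  have hP : Pre X V G c r (G '' {x | x ∈ V ∧ ¬ Sec X V G x}) := by
    refine ⟨hB, hthin, fun x hx hxE => ?_, fun W hWV hW hWn => ?_⟩
    · by_contra hS
      exact hxE ⟨x, ⟨hx, hS⟩, rfl⟩
    · obtain ⟨y, hy, hyW, hJ⟩ := hnd W hW hWV hWn
      have hS := sec_of_jac hv hV hG hy (hWV hyW)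
        ⟨chart_mem_atlas (Cm 4) y, mem_chart_source (Cm 4) y⟩
        (hJ _ ⟨chart_mem_atlas (Cm 4) y, mem_chart_source (Cm 4) y⟩)
      obtain ⟨N, s, hN, hyN, hNW, hGN, hs⟩ := hS.shrink hW hyW
      have h1 := (thin_preconnected hr hthin).2 (hmaps _ (hWV hyW))
      rw [mem_closure_iff_nhds] at h1
      obtain ⟨w, ⟨x, hx, rfl⟩, hw⟩ := h1 _ (hGN.mem_nhds (mem_image_of_mem G hyN))
      exact ⟨x, (hNW hx).1, hw.2⟩
  exact hP.exists_cov hVn hζ

/-- first pass: a covering in a given neighbourhood -/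
theorem cov_first {Y : Type} [TopologicalSpace Y] [T2Space Y] [CompactSpace Y]
    [ChartedSpace (Cm 4) Y] [IsManifold 𝓘(ℂ, Cm 4) ω Y] {X : CSp} (hX : IsNormal 4 X) {O : Set Y}
    {v : Y → X.pt} (hv : IsOpenEmb X O v) (hdim : DimLe X 2 (v '' O)ᶜ) {G : X.pt → Cm 4} {p : X.pt}
    {V₀ : Set X.pt} (hV₀ : IsOpen V₀) (hp : p ∈ V₀) (hG : ∀ x ∈ V₀, ∀ i, X.Hol (fun y => G y i) x)
    (hnd : ∀ W : Set X.pt, IsOpen W → W ⊆ V₀ → W.Nonempty → ∃ y ∈ O, v y ∈ W ∧
      ∀ e : Chart 4 Y, At e y → Jac v (fun i x => G x i) e (e y) ≠ 0)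
    (hcount : {x | x ∈ V₀ ∧ G x = G p}.Countable) {N : Set X.pt} (hN : N ∈ 𝓝 p) :
    ∃ (V : Set X.pt) (r : ℝ) (d : ℕ) (lam : X.pt → ℂ) (θ : Cm 4 → ℂ),
      IsCov X V G (G p) r d lam θ ∧ p ∈ V ∧ V ⊆ N ∩ V₀ := by
  obtain ⟨n, Vc, ζ, hpc, hζ⟩ := exists_isCoord X p
  have hN1 : N ∩ V₀ ∩ Vc ∈ 𝓝 p :=
    inter_mem (inter_mem hN (hV₀.mem_nhds hp)) (hζ.isOpen.mem_nhds hpc)
  obtain ⟨U, ρ, r₀, hUo, hpU, hUN, hr₀, hρp, hρ, -, hcomp⟩ := H622.exists_exhaustion X hN1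
  -- a radius such that the sphere misses the fibre
  obtain ⟨t, ⟨ht0, htr⟩, htC⟩ := ((hcount.image ρ).dense_compl ℝ).inter_open_nonempty
    (Ioo 0 r₀) isOpen_Ioo ⟨r₀ / 2, by constructor <;> linarith⟩
  have hGcont : ∀ y ∈ V₀, ContinuousAt G y := fun y hy =>
    continuousAt_pi.2 fun i => hol_continuousAt (hG y hy i)
  have hUV : U ⊆ V₀ := fun y hy => (hUN hy).1.2
  set K : Set X.pt := {y | y ∈ U ∧ ρ y ≤ t} with hK
  have hKc : IsCompact K := hcomp t htr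
  have hGK : ContinuousOn G K := fun y hy => (hGcont y (hUV hy.1)).continuousWithinAt
  have hρK : ContinuousOn ρ K := fun y hy => (hρ y hy.1).1.continuousWithinAt
  have hSc : IsCompact {y | y ∈ K ∧ ρ y = t} := by
    have h1 : IsClosed (K ∩ ρ ⁻¹' {t}) :=
      hρK.preimage_isClosed_of_isClosed hKc.isClosed isClosed_singleton
    have h2 : {y | y ∈ K ∧ ρ y = t} = K ∩ (K ∩ ρ ⁻¹' {t}) := by
      ext y
      constructor
      · rintro ⟨a, b⟩; exact ⟨a, a, b⟩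
      · rintro ⟨a, -, b⟩; exact ⟨a, b⟩
    rw [h2]
    exact hKc.inter_right h1
  have hGS : IsClosed (G '' {y | y ∈ K ∧ ρ y = t}) :=
    (hSc.image_of_continuousOn (hGK.mono fun y hy => hy.1)).isClosed
  have hpS : G p ∉ G '' {y | y ∈ K ∧ ρ y = t} := by
    rintro ⟨y, ⟨hyK, hyt⟩, hyp⟩
    exact htC ⟨y, ⟨hUV hyK.1, hyp⟩, hyt⟩
  obtain ⟨ε, hε, hεS⟩ := Metric.isOpen_iff.1 hGS.isOpen_compl (G p) hpS
  set V : Set X.pt := {y | y ∈ U ∧ ρ y < t ∧ G y ∈ ball (G p) ε} with hV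
  have hVo : IsOpen V := by
    rw [isOpen_iff_mem_nhds]
    intro y hy
    filter_upwards [hUo.mem_nhds hy.1, (hρ y hy.1).1.eventually (Iio_mem_nhds hy.2.1),
      (hGcont y (hUV hy.1)).eventually (isOpen_ball.mem_nhds hy.2.2)] with z a b c
    exact ⟨a, b, c⟩
  have hpV : p ∈ V := ⟨hpU, by rw [hρp]; exact ht0, mem_ball_self hε⟩
  have hVU : V ⊆ U := fun y hy => hy.1
  have hproper : ∀ r' < ε, IsCompact {x | x ∈ V ∧ G x ∈ closedBall (G p) r'} := by
    intro r' hr'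
    have h1 : {x | x ∈ V ∧ G x ∈ closedBall (G p) r'} = K ∩ (K ∩ G ⁻¹' closedBall (G p) r') := by
      ext y
      constructor
      · rintro ⟨⟨a, b, -⟩, c⟩
        exact ⟨⟨a, b.le⟩, ⟨a, b.le⟩, c⟩
      · rintro ⟨hyK, -, c⟩
        have hyb : G y ∈ ball (G p) ε := closedBall_subset_ball hr' c
        refine ⟨⟨hyK.1, lt_of_le_of_ne hyK.2 fun h0 => ?_, hyb⟩, c⟩
        exact hεS hyb ⟨y, ⟨hyK, h0⟩, rfl⟩
    rw [h1]
    exact hKc.inter_right (hGK.preimage_isClosed_of_isClosed hKc.isClosed isClosed_closedBall)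
  obtain ⟨d, lam, θ, hcov⟩ := stCovP Y X hX O v hv hdim G (G p) ε hε V hVo ⟨p, hpV⟩
    (fun x hx => hG x (hUV (hVU hx))) (fun x hx => hx.2.2) hproper
    (fun W hW hWV hWn => hnd W hW (hWV.trans (hVU.trans hUV)) hWn) n ζ
    (hζ.mono hVo fun x hx => (hUN (hVU hx)).2)
  exact ⟨V, ε, d, lam, θ, hcov, hpV, fun x hx => (hUN (hVU hx)).1⟩

/-- (TX-COV a) -/
theorem stCov : StCov := by
  intro Y _ _ _ _ _ X hX O v hv hdim G p V₀ hV₀ hp hG hnd hcount N hN
  obtain ⟨V1, r1, d1, lam1, θ1, hcov1, hpV1, hV1⟩ :=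
    cov_first hX hv hdim hV₀ hp hG hnd hcount hN
  have hfin := (hcov1.finite (G p) (mem_ball_self hcov1.pos)).1
  have hN2 : V1 \ ({x | x ∈ V1 ∧ G x = G p} \ {p}) ∈ 𝓝 p := by
    refine (hcov1.isOpen.sdiff (hfin.subset sdiff_subset).isClosed).mem_nhds ?_
    exact ⟨hpV1, fun h => h.2 rfl⟩
  obtain ⟨V, r, d, lam, θ, hcov, hpV, hV⟩ := cov_first hX hv hdim hV₀ hp hG hnd hcount hN2
  refine ⟨V, r, d, lam, θ, hcov, hpV, fun x hx => ⟨(hV1 (hV hx).1.1).1, (hV hx).2⟩,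
    fun x hx hxp => ?_⟩
  by_contra hne
  exact (hV hx).1.2 ⟨⟨(hV hx).1.1, hxp⟩, hne⟩

end Vale.Agent.P277.H335
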