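import Vale.Agent.P268.Hol
import Vale.Agent.P277.Stmts

/-!
# P277, TX-RE: Riemann extension across thin sets
-/

open Set Filter Metric Topology MeasureTheory
open Vale.Agent.P272.K

noncomputable section

namespace Vale.Agent.P277.H335

/-- a set whose points are isolated is countable -/
theorem countable_of_isolated {n : ℕ} {S : Set (Cm n)}
    (h : ∀ x ∈ S, ∃ N ∈ 𝓝 x, ∀ y ∈ N, y ∈ S → y = x) : S.Countable := by
  have h1 : DiscreteTopology S := by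
    rw [discreteTopology_subtype_iff]
    intro x hx
    obtain ⟨N, hN, hNS⟩ := h x hx
    rw [← Filter.empty_mem_iff_bot, mem_inf_iff]
    refine ⟨N ∩ {x}ᶜ, inter_mem (mem_nhdsWithin_of_mem_nhds hN) self_mem_nhdsWithin, S,
      mem_principal_self S, ?_⟩
    ext y
    constructor
    · intro hy; exact hy.elim
    · rintro ⟨⟨h1, h2⟩, h3⟩
      exact h2 (hNS y h1 h3)
  have h2 : Countable S := countable_of_Lindelof_of_discrete
  exact h2

/-- almost all fibres of an analytic map `ℂⁿ → ℂⁿ` are countable -/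
theorem sard_countable {n : ℕ} {U : Set (Cm n)} {Φ : Cm n → Cm n}
    (hΦ : ∀ x ∈ U, AnalyticAt ℂ Φ x) :
    ∃ T : Set (Cm n), volume T = 0 ∧ ∀ v ∉ T, {x | x ∈ U ∧ Φ x = v}.Countable := by
  set C : Set (Cm n) := {x | x ∈ U ∧ (fderiv ℝ Φ x).det = 0} with hC
  refine ⟨Φ '' C, ?_, fun v hv => ?_⟩
  · refine addHaar_image_eq_zero_of_det_fderivWithin_eq_zero volume (f' := fderiv ℝ Φ)
      (fun x hx => ?_) fun x hx => hx.2
    exact ((hΦ x hx.1).differentiableAt.restrictScalars ℝ).hasFDerivAt.hasFDerivWithinAt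
  · refine countable_of_isolated fun x hx => ?_
    have hdet : (fderiv ℝ Φ x).det ≠ 0 := fun h0 => hv ⟨x, ⟨hx.1, h0⟩, hx.2⟩
    let L : Cm n ≃L[ℝ] Cm n :=
      (LinearMap.equivOfDetNeZero (fderiv ℝ Φ x : Cm n →ₗ[ℝ] Cm n) hdet).toContinuousLinearEquiv
    have hL : (L : Cm n →L[ℝ] Cm n) = fderiv ℝ Φ x := by
      ext v : 1
      rfl
    have hstrict : HasStrictFDerivAt Φ (L : Cm n →L[ℝ] Cm n) x := by
      rw [hL]
      exact ((hΦ x hx.1).contDiffAt.restrict_scalars ℝ).hasStrictFDerivAt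
        (by norm_num : (1 : WithTop ℕ∞) ≠ 0)
    have h1 := hstrict.eventually_left_inverse
    refine ⟨_, h1, fun y hy hyS => ?_⟩
    have h2 := h1.self_of_nhds
    have hy' : hstrict.localInverse Φ L x (Φ y) = y := hy
    rw [← hy', hyS.2, ← hx.2]
    exact h2

theorem dense_compl_of_null {m : ℕ} {T : Set (Cm m)} (hT : volume T = 0) : Dense Tᶜ := by
  have h1 : ∀ᵐ x ∂(volume : Measure (Cm m)), x ∈ Tᶜ := by
    rw [ae_iff]
    simpa using hT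
  exact Measure.dense_of_ae h1

section thin

variable {n : ℕ} {W : ℕ → Set (Cm n)} {g : ℕ → Cm n → Cm (n + 1)}

/-- the first `n` coordinates -/
def ini (n : ℕ) : Cm (n + 1) →L[ℂ] Cm n :=
  ContinuousLinearMap.pi fun i => ContinuousLinearMap.proj (R := ℂ) (φ := fun _ => ℂ) i.castSucc

theorem ini_snoc (q : Cm n) (ζ : ℂ) : ini n (Fin.snoc q ζ : Cm (n + 1)) = q := by
  ext i
  simp [ini]

/-- the last coordinate -/
def lst (n : ℕ) : Cm (n + 1) →L[ℂ] ℂ :=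
  ContinuousLinearMap.proj (R := ℂ) (φ := fun _ : Fin (n + 1) => ℂ) (Fin.last n)

theorem lst_snoc (q : Cm n) (ζ : ℂ) : lst n (Fin.snoc q ζ : Cm (n + 1)) = ζ := by
  simp [lst]

/-- almost all lines through `z0` meet a thin set in a countable set -/
theorem line_countable (hg : ∀ k, ∀ q ∈ W k, AnalyticAt ℂ (g k) q) (z0 : Cm (n + 1)) :
    ∃ T : Set (Cm (n + 1)), volume T = 0 ∧ ∀ v ∉ T,
      {ζ : ℂ | ζ ≠ 0 ∧ z0 + ζ • v ∈ ⋃ k, g k '' W k}.Countable := by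
  have h1 : ∀ k, ∃ T : Set (Cm (n + 1)), volume T = 0 ∧ ∀ v ∉ T,
      {x | x ∈ {w : Cm (n + 1) | ini n w ∈ W k ∧ lst n w ≠ 0} ∧
        (lst n x)⁻¹ • (g k (ini n x) - z0) = v}.Countable := by
    intro k
    refine sard_countable (Φ := fun x => (lst n x)⁻¹ • (g k (ini n x) - z0)) fun x hx => ?_
    have h2 : AnalyticAt ℂ (fun x => g k (ini n x)) x :=
      (hg k _ hx.1).comp_of_eq ((ini n).analyticAt x) rfl
    exact (((lst n).analyticAt x).inv hx.2).smul (h2.sub analyticAt_const)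
  choose T hT hTc using h1
  refine ⟨⋃ k, T k, by rw [measure_iUnion_null_iff]; exact hT, fun v hv => ?_⟩
  rw [mem_iUnion, not_exists] at hv
  refine (countable_iUnion fun k => (hTc k v (hv k)).image (lst n)).mono ?_
  rintro ζ ⟨hζ, hmem⟩
  obtain ⟨k, q, hq, hqe⟩ := mem_iUnion.1 hmem
  refine mem_iUnion.2 ⟨k, Fin.snoc q ζ, ⟨⟨?_, ?_⟩, ?_⟩, lst_snoc q ζ⟩
  · rw [ini_snoc]; exact hq
  · rw [lst_snoc]; exact hζ
  · rw [ini_snoc, lst_snoc, hqe, add_sub_cancel_left, smul_smul, inv_mul_cancel₀ hζ, one_smul]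

/-- almost all lines of a given direction meet a thin set in a countable set -/
theorem line_countable' (hg : ∀ k, ∀ q ∈ W k, AnalyticAt ℂ (g k) q) (v : Cm (n + 1)) :
    ∃ T : Set (Cm (n + 1)), volume T = 0 ∧ ∀ z ∉ T,
      {ζ : ℂ | z + ζ • v ∈ ⋃ k, g k '' W k}.Countable := by
  have h1 : ∀ k, ∃ T : Set (Cm (n + 1)), volume T = 0 ∧ ∀ z ∉ T,
      {x | x ∈ {w : Cm (n + 1) | ini n w ∈ W k} ∧ g k (ini n x) - lst n x • v = z}.Countable := by
    intro k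
    refine sard_countable (Φ := fun x => g k (ini n x) - lst n x • v) fun x hx => ?_
    have h2 : AnalyticAt ℂ (fun x => g k (ini n x)) x :=
      (hg k _ hx).comp_of_eq ((ini n).analyticAt x) rfl
    exact h2.sub (((lst n).analyticAt x).smul analyticAt_const)
  choose T hT hTc using h1
  refine ⟨⋃ k, T k, by rw [measure_iUnion_null_iff]; exact hT, fun z hz => ?_⟩
  rw [mem_iUnion, not_exists] at hz
  refine (countable_iUnion fun k => (hTc k z (hz k)).image (lst n)).mono ?_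
  rintro ζ hmem
  obtain ⟨k, q, hq, hqe⟩ := mem_iUnion.1 hmem
  refine mem_iUnion.2 ⟨k, Fin.snoc q ζ, ⟨?_, ?_⟩, lst_snoc q ζ⟩
  · show ini n _ ∈ W k
    rw [ini_snoc]; exact hq
  · rw [ini_snoc, lst_snoc, hqe, add_sub_cancel_right]

/-- thin sets have measure zero -/
theorem volume_thin (hg : ∀ k, ∀ q ∈ W k, AnalyticAt ℂ (g k) q) :
    volume (⋃ k, g k '' W k) = 0 := by
  rw [measure_iUnion_null_iff]
  intro k
  have h1 : g k '' W k ⊆ (fun x : Cm (n + 1) => g k (ini n x)) '' {x | ini n x ∈ W k} := by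
    rintro _ ⟨q, hq, rfl⟩
    refine ⟨Fin.snoc q 0, ?_, ?_⟩
    · show ini n _ ∈ W k
      rw [ini_snoc]; exact hq
    · simp only [ini_snoc]
  refine measure_mono_null h1 ?_
  have h2 : ∀ x ∈ {x : Cm (n + 1) | ini n x ∈ W k}, DifferentiableAt ℝ
      (fun x : Cm (n + 1) => g k (ini n x)) x := fun x hx =>
    (((hg k _ hx).comp_of_eq ((ini n).analyticAt x) rfl).differentiableAt.restrictScalars ℝ :)
  refine addHaar_image_eq_zero_of_det_fderivWithin_eq_zero volume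
    (f' := fderiv ℝ (fun x : Cm (n + 1) => g k (ini n x)))
    (fun x hx => (h2 x hx).hasFDerivAt.hasFDerivWithinAt) fun x hx => ?_
  -- the last coordinate direction is in the kernel
  by_contra hdet
  have hinj : Function.Injective (fderiv ℝ (fun x : Cm (n + 1) => g k (ini n x)) x) := by
    have := (LinearMap.equivOfDetNeZero
      (fderiv ℝ (fun x : Cm (n + 1) => g k (ini n x)) x : Cm (n + 1) →ₗ[ℝ] Cm (n + 1)) hdet).injective
    exact this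
  have h3 : fderiv ℝ (fun x : Cm (n + 1) => g k (ini n x)) x (Fin.snoc (0 : Cm n) 1) = 0 := by
    have h4 : HasFDerivAt (fun x : Cm (n + 1) => g k (ini n x))
        ((fderiv ℝ (g k) (ini n x)).comp ((ini n).restrictScalars ℝ)) x := by
      have h5 : HasFDerivAt (g k) (fderiv ℝ (g k) (ini n x)) (ini n x) :=
        ((hg k _ hx).differentiableAt.restrictScalars ℝ).hasFDerivAt
      exact h5.comp x ((ini n).restrictScalars ℝ).hasFDerivAt
    rw [h4.fderiv]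
    show (fderiv ℝ (g k) (ini n x)) (ini n (Fin.snoc (0 : Cm n) 1 : Cm (n + 1))) = 0
    rw [ini_snoc, map_zero]
  have h6 := hinj (h3.trans (map_zero _).symm)
  have h7 := congrFun h6 (Fin.last n)
  simp at h7

theorem dense_compl_thin (hg : ∀ k, ∀ q ∈ W k, AnalyticAt ℂ (g k) q) :
    Dense (⋃ k, g k '' W k)ᶜ := dense_compl_of_null (volume_thin hg)

end thin

/-- a bounded holomorphic function of one variable extends across a countable closed set -/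
theorem removable_countable {D K : Set ℂ} (hD : IsOpen D) (hDK : IsOpen (D \ K)) (hK : K.Countable)
    {h : ℂ → ℂ} (hh : DifferentiableOn ℂ h (D \ K)) {C : ℝ} (hb : ∀ z ∈ D \ K, ‖h z‖ ≤ C) :
    ∃ H : ℂ → ℂ, DifferentiableOn ℂ H D ∧ ∀ z ∈ D \ K, H z = h z := by
  set P : ℂ → Prop := fun x => ∃ N : Set ℂ, IsOpen N ∧ x ∈ N ∧ N ⊆ D ∧ ∃ g : ℂ → ℂ,
    DifferentiableOn ℂ g N ∧ ∀ z ∈ N \ K, g z = h z with hP
  set H : ℂ → ℂ := fun x => limUnder (𝓝[Kᶜ] x) h with hH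
  have hdense : Dense Kᶜ := hK.dense_compl ℝ
  have hne : ∀ x, (𝓝[Kᶜ] x).NeBot := fun x => mem_closure_iff_nhdsWithin_neBot.1 (hdense x)
  have hA : ∀ (N : Set ℂ) (g : ℂ → ℂ), IsOpen N → DifferentiableOn ℂ g N →
      (∀ z ∈ N \ K, g z = h z) → ∀ y ∈ N, Tendsto h (𝓝[Kᶜ] y) (𝓝 (g y)) := by
    intro N g hN hg hgh y hy
    have h1 : Tendsto g (𝓝[Kᶜ] y) (𝓝 (g y)) :=
      (hg.differentiableAt (hN.mem_nhds hy)).continuousAt.mono_left nhdsWithin_le_nhds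
    refine h1.congr' ?_
    filter_upwards [mem_nhdsWithin_of_mem_nhds (hN.mem_nhds hy), self_mem_nhdsWithin] with z a b
    exact hgh z ⟨a, b⟩
  have hA' : ∀ (N : Set ℂ) (g : ℂ → ℂ), IsOpen N → DifferentiableOn ℂ g N →
      (∀ z ∈ N \ K, g z = h z) → ∀ y ∈ N, H y = g y := by
    intro N g hN hg hgh y hy
    have := hne y
    exact (hA N g hN hg hgh y hy).limUnder_eq
  have hdiff : ∀ D' : Set ℂ, IsOpen D' → (∀ x ∈ D', P x) → DifferentiableOn ℂ H D' := by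
    intro D' hD' hx x hxD
    obtain ⟨N, hN, hxN, -, g, hg, hgh⟩ := hx x hxD
    have h1 : H =ᶠ[𝓝 x] g := by
      filter_upwards [hN.mem_nhds hxN] with y hy using hA' N g hN hg hgh y hy
    exact ((hg.differentiableAt (hN.mem_nhds hxN)).congr_of_eventuallyEq h1).differentiableWithinAt
  have hPDK : ∀ x ∈ D \ K, P x := fun x hx =>
    ⟨D \ K, hDK, hx, sdiff_subset, h, hh, fun z _ => rfl⟩
  have hHh : ∀ z ∈ D \ K, H z = h z := fun z hz =>
    hA' (D \ K) h hDK hh (fun z _ => rfl) z hz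
  have hPopen : IsOpen {x | P x} := by
    rw [isOpen_iff_mem_nhds]
    rintro x ⟨N, hN, hxN, hND, g, hg, hgh⟩
    exact mem_of_superset (hN.mem_nhds hxN) fun y hy => ⟨N, hN, hy, hND, g, hg, hgh⟩
  suffices hall : ∀ x ∈ D, P x from ⟨H, hdiff D hD hall, hHh⟩
  by_contra hcon
  push Not at hcon
  obtain ⟨p, hpD, hpP⟩ := hcon
  -- a circle around `p` which misses `K`
  obtain ⟨s₀, hs₀, hsD⟩ := Metric.isOpen_iff.1 hD p hpD
  obtain ⟨s, ⟨hs0, hss⟩, hsK⟩ := ((hK.image fun z => dist z p).dense_compl ℝ).inter_open_nonempty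
    (Ioo 0 s₀) isOpen_Ioo ⟨s₀ / 2, by constructor <;> linarith⟩
  have hcb : closedBall p s ⊆ D := (closedBall_subset_ball hss).trans hsD
  set C0 : Set ℂ := closedBall p s \ {x | P x} with hC0
  have hC0cl : IsClosed C0 := isClosed_closedBall.sdiff hPopen
  have hC0K : C0 ⊆ K := by
    intro x hx
    by_contra hxK
    exact hx.2 (hPDK x ⟨hcb hx.1, hxK⟩)
  have hC0ne : C0.Nonempty := ⟨p, mem_closedBall_self hs0.le, hpP⟩
  have hacc : ∃ x ∈ C0, ¬ AccPt x (𝓟 C0) := by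
    by_contra hcon
    push Not at hcon
    obtain ⟨f, hf, -, hfi⟩ := Perfect.exists_nat_bool_injection ⟨hC0cl, hcon⟩ hC0ne
    have h1 : (range f).Countable := hK.mono (hf.trans hC0K)
    have h2 : (univ : Set (ℕ → Bool)).Countable := by
      have h3 := h1.preimage_of_injOn (f := f) hfi.injOn
      rwa [preimage_range] at h3
    obtain ⟨e, he⟩ := (countable_univ_iff.1 h2).exists_injective_nat'
    have h4 : Function.Injective fun s : Set ℕ => e fun n => by classical exact decide (n ∈ s) := by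
      intro s t hst
      have h5 := he hst
      ext n
      have h6 := congrFun h5 n
      simpa using h6
    exact Function.cantor_injective _ h4
  obtain ⟨x, hx, hxacc⟩ := hacc
  have hxb : x ∈ ball p s := by
    rw [mem_ball]
    refine lt_of_le_of_ne (mem_closedBall.1 hx.1) fun h0 => hsK ⟨x, hC0K hx, h0⟩
  have h1 : ∀ᶠ y in 𝓝[≠] x, y ∉ C0 := by
    rw [accPt_iff_frequently_nhdsNE] at hxacc
    exact not_frequently.1 hxacc
  rw [eventually_nhdsWithin_iff] at h1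
  obtain ⟨t, ht, htb⟩ := Metric.eventually_nhds_iff_ball.1 (h1.and (isOpen_ball.mem_nhds hxb))
  have h2 : ∀ y ∈ ball x t \ {x}, P y := by
    intro y hy
    by_contra hyP
    exact (htb y hy.1).1 hy.2 ⟨ball_subset_closedBall (htb y hy.1).2, hyP⟩
  have h3 : DifferentiableOn ℂ H (ball x t \ {x}) :=
    hdiff _ (isOpen_ball.sdiff isClosed_singleton) h2
  have h4 : ∀ y ∈ ball x t \ {x}, ‖H y‖ ≤ C := by
    intro y hy
    obtain ⟨N, hN, hyN, hND, g, hg, hgh⟩ := h2 y hy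
    have := hne y
    have h5 : Tendsto h (𝓝[Kᶜ] y) (𝓝 (H y)) := by
      rw [hA' N g hN hg hgh y hyN]
      exact hA N g hN hg hgh y hyN
    refine le_of_tendsto h5.norm ?_
    filter_upwards [mem_nhdsWithin_of_mem_nhds (hN.mem_nhds hyN), self_mem_nhdsWithin] with z a b
    exact hb z ⟨hND a, b⟩
  have h5 := Complex.differentiableOn_update_limUnder_of_bddAbove (ball_mem_nhds x ht) h3 (by
    refine ⟨C, ?_⟩
    rintro _ ⟨y, hy, rfl⟩
    exact h4 y hy)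
  refine hx.2 ⟨ball x t, isOpen_ball, mem_ball_self ht, fun y hy =>
    hcb (ball_subset_closedBall (htb y hy).2), _, h5, fun z hz => ?_⟩
  have hzx : z ≠ x := by
    rintro rfl
    exact hz.2 (hC0K hx)
  rw [Function.update_of_ne hzx]
  exact hHh z ⟨hcb (ball_subset_closedBall (htb z hz.1).2), hz.2⟩

/-- the Cauchy formula at the centre, with countably many singularities inside the circle -/
theorem cauchy_countable {D K : Set ℂ} (hD : IsOpen D) (hDK : IsOpen (D \ K)) (hK : K.Countable)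
    {h : ℂ → ℂ} (hh : DifferentiableOn ℂ h (D \ K)) {C : ℝ} (hb : ∀ z ∈ D \ K, ‖h z‖ ≤ C)
    {ρ : ℝ} (hρ : 0 < ρ) (hcb : closedBall 0 ρ ⊆ D) (hs : ∀ z ∈ sphere 0 ρ, z ∉ K) (h0 : 0 ∉ K) :
    (2 * Real.pi * Complex.I : ℂ)⁻¹ * ∮ ζ in C(0, ρ), (ζ - 0)⁻¹ • h ζ = h 0 := by
  obtain ⟨H, hH, hHf⟩ := removable_countable hD hDK hK hh hb
  have hcirc : (∮ ζ in C(0, ρ), (ζ - 0)⁻¹ • h ζ) = ∮ ζ in C(0, ρ), (ζ - 0)⁻¹ • H ζ := by
    refine circleIntegral.integral_congr hρ.le fun ζ hζ => ?_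
    rw [hHf ζ ⟨hcb (sphere_subset_closedBall hζ), hs ζ hζ⟩]
  have hcauchy := Complex.circleIntegral_sub_inv_smul_of_differentiable_on_off_countable
    (s := ∅) countable_empty (mem_ball_self hρ) (c := (0 : ℂ)) (R := ρ) (f := H)
    (hH.continuousOn.mono hcb) (fun ζ hζ =>
      hH.differentiableAt (hD.mem_nhds (hcb (ball_subset_closedBall hζ.1))))
  rw [hcirc, hcauchy, smul_eq_mul, ← mul_assoc, inv_mul_cancel₀ Complex.two_pi_I_ne_zero,
    one_mul, hHf 0 ⟨hcb (mem_closedBall_self hρ.le), h0⟩]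

/-- the Cauchy formula on a line -/
theorem line_value {m : ℕ} {E E0 : Set (Cm m)} {z v : Cm m} {C : ℝ} {z0 : Cm m} {R : ℝ}
    (hΩE : IsOpen (ball z0 R \ E)) (hcount : {ζ : ℂ | z + ζ • v ∈ E0}.Countable)
    (hE : ball z0 R ∩ E ⊆ E0) {f : Cm m → ℂ} (hf : ∀ z ∈ ball z0 R \ E, DifferentiableAt ℂ f z)
    (hb : ∀ z ∈ ball z0 R \ E, ‖f z‖ ≤ C) {ρ : ℝ} (hρ : 0 < ρ)
    (hcb : ∀ ζ ∈ closedBall (0 : ℂ) ρ, z + ζ • v ∈ ball z0 R)
    (hs : ∀ ζ ∈ sphere (0 : ℂ) ρ, z + ζ • v ∉ E) (h0 : z ∉ E) :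
    (2 * Real.pi * Complex.I : ℂ)⁻¹ * ∮ ζ in C(0, ρ), (ζ - 0)⁻¹ • f (z + ζ • v) = f z := by
  have hl : Continuous fun ζ : ℂ => z + ζ • v := by fun_prop
  have hd : (fun ζ : ℂ => z + ζ • v) ⁻¹' ball z0 R \ (fun ζ : ℂ => z + ζ • v) ⁻¹' (ball z0 R ∩ E)
      = (fun ζ : ℂ => z + ζ • v) ⁻¹' (ball z0 R \ E) := by
    ext ζ
    constructor
    · rintro ⟨h1, h2⟩
      exact ⟨h1, fun h3 => h2 ⟨h1, h3⟩⟩
    · rintro ⟨h1, h2⟩
      exact ⟨h1, fun h3 => h2 h3.2⟩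
  have hc : ((fun ζ : ℂ => z + ζ • v) ⁻¹' E0).Countable := hcount
  have hc' : ((fun ζ : ℂ => z + ζ • v) ⁻¹' (ball z0 R ∩ E)).Countable := hc.mono (preimage_mono hE)
  have hdf : DifferentiableOn ℂ (fun ζ => f (z + ζ • v))
      ((fun ζ : ℂ => z + ζ • v) ⁻¹' (ball z0 R \ E)) := by
    intro ζ hζ
    have h3 : DifferentiableAt ℂ (fun ζ : ℂ => z + ζ • v) ζ := by fun_prop
    have h4 : DifferentiableAt ℂ f (z + ζ • v) := hf (z + ζ • v) hζ
    exact (DifferentiableAt.comp (g := f) ζ h4 h3).differentiableWithinAt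
  have hbd : ∀ ζ ∈ (fun ζ : ℂ => z + ζ • v) ⁻¹' (ball z0 R \ E), ‖f (z + ζ • v)‖ ≤ C :=
    fun ζ hζ => hb (z + ζ • v) hζ
  have hs' : ∀ ζ ∈ sphere (0 : ℂ) ρ, ζ ∉ (fun ζ : ℂ => z + ζ • v) ⁻¹' (ball z0 R ∩ E) :=
    fun ζ hζ hK => hs ζ hζ hK.2
  have h0' : (0 : ℂ) ∉ (fun ζ : ℂ => z + ζ • v) ⁻¹' (ball z0 R ∩ E) := by
    rintro ⟨-, h4⟩
    apply h0
    have h5 : z + (0 : ℂ) • v = z := by rw [zero_smul, add_zero]
    have h6 : z + (0 : ℂ) • v ∈ E := h4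
    rwa [h5] at h6
  have hcb' : closedBall (0 : ℂ) ρ ⊆ (fun ζ : ℂ => z + ζ • v) ⁻¹' ball z0 R := hcb
  rw [← hd] at hdf hbd
  have h1 := cauchy_countable (isOpen_ball.preimage hl) (by rw [hd]; exact hΩE.preimage hl)
    hc' hdf hbd hρ hcb' hs' h0'
  rw [h1, zero_smul, add_zero]

/-- The Riemann extension theorem, locally. -/
theorem riemann_ext_loc {n : ℕ} {E E0 : Set (Cm (n + 1))} {z0 : Cm (n + 1)} {R C : ℝ}
    (hR : 0 < R) (hΩE : IsOpen (ball z0 R \ E)) (hE : ball z0 R ∩ E ⊆ E0)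
    (hlc : ∃ T : Set (Cm (n + 1)), volume T = 0 ∧ ∀ v ∉ T, {ζ : ℂ | ζ ≠ 0 ∧ z0 + ζ • v ∈ E0}.Countable)
    (hlc' : ∀ v, ∃ T : Set (Cm (n + 1)), volume T = 0 ∧ ∀ z ∉ T, {ζ : ℂ | z + ζ • v ∈ E0}.Countable)
    {f : Cm (n + 1) → ℂ} (hf : ∀ z ∈ ball z0 R \ E, DifferentiableAt ℂ f z)
    (hb : ∀ z ∈ ball z0 R \ E, ‖f z‖ ≤ C) :
    ∃ U : Set (Cm (n + 1)), IsOpen U ∧ z0 ∈ U ∧ U ⊆ ball z0 R ∧
      ∃ (F : Cm (n + 1) → ℂ) (T : Set (Cm (n + 1))), volume T = 0 ∧ DifferentiableOn ℂ F U ∧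
        ∀ z ∈ U \ E, z ∉ T → F z = f z := by
  obtain ⟨T, hT, hTc⟩ := hlc
  obtain ⟨v, hvR, hvT⟩ := (dense_compl_of_null hT).inter_open_nonempty (ball 0 R) isOpen_ball
    ⟨0, mem_ball_self hR⟩
  have hcount := hTc v hvT
  obtain ⟨ρ, ⟨hρ0, hρ1⟩, hρ⟩ := ((hcount.image fun ζ => ‖ζ‖).dense_compl ℝ).inter_open_nonempty
    (Ioo 0 1) isOpen_Ioo ⟨1 / 2, by constructor <;> norm_num⟩
  have hlin : Continuous fun p : Cm (n + 1) × ℂ => p.1 + p.2 • v := by fun_prop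
  -- the disc
  have hO1 : IsOpen {p : Cm (n + 1) × ℂ | p.1 + p.2 • v ∈ ball z0 R} :=
    isOpen_ball.preimage hlin
  have hdisc : ∀ ζ : ℂ, ‖ζ‖ ≤ ρ → z0 + ζ • v ∈ ball z0 R := by
    intro ζ hζ
    rw [mem_ball_iff_norm, add_sub_cancel_left, norm_smul]
    rw [mem_ball_zero_iff] at hvR
    have h1 : ‖ζ‖ * ‖v‖ ≤ 1 * ‖v‖ := mul_le_mul_of_nonneg_right (hζ.trans hρ1.le) (norm_nonneg v)
    linarith
  obtain ⟨U1, W1, hU1, hW1, hzU1, hW1s, hUW1⟩ := generalized_tube_lemma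
    (s := {z0}) (t := closedBall (0 : ℂ) ρ) isCompact_singleton (isCompact_closedBall 0 ρ) hO1 (by
      rintro ⟨z, ζ⟩ ⟨hz, hζ⟩
      simp only [mem_singleton_iff] at hz
      subst hz
      exact hdisc ζ (by simpa using hζ))
  -- the circle
  have hO2 : IsOpen {p : Cm (n + 1) × ℂ | p.1 + p.2 • v ∈ ball z0 R \ E} := hΩE.preimage hlin
  obtain ⟨U2, W2, hU2, hW2, hzU2, hW2s, hUW2⟩ := generalized_tube_lemma
    (s := {z0}) (t := sphere (0 : ℂ) ρ) isCompact_singleton (isCompact_sphere 0 ρ) hO2 (by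
      rintro ⟨z, ζ⟩ ⟨hz, hζ⟩
      simp only [mem_singleton_iff] at hz
      subst hz
      have hζ' : ‖ζ‖ = ρ := by simpa using hζ
      refine ⟨hdisc ζ hζ'.le, fun hE' => hρ ⟨ζ, ⟨?_, hE ⟨hdisc ζ hζ'.le, hE'⟩⟩, hζ'⟩⟩
      rintro rfl
      rw [norm_zero] at hζ'
      exact hρ0.ne hζ')
  have hUo : IsOpen (U1 ∩ U2) := hU1.inter hU2
  have hz0U : z0 ∈ U1 ∩ U2 := ⟨hzU1 rfl, hzU2 rfl⟩
  have h0W1 : (0 : ℂ) ∈ W1 := hW1s (mem_closedBall_self hρ0.le)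
  have hUΩ : ∀ z ∈ U1 ∩ U2, z ∈ ball z0 R := by
    intro z hz
    have h1 := hUW1 (show (z, (0 : ℂ)) ∈ U1 ×ˢ W1 from ⟨hz.1, h0W1⟩)
    simpa using h1
  obtain ⟨T', hT', hTc'⟩ := hlc' v
  refine ⟨U1 ∩ U2, hUo, hz0U, hUΩ, fun z => (2 * Real.pi * Complex.I : ℂ)⁻¹ *
    ∮ ζ in C(0, ρ), (ζ - 0)⁻¹ • f (z + ζ • v), T', hT', ?_, ?_⟩
  · refine DifferentiableOn.const_mul ?_ _
    refine Vale.Agent.P268.differentiableOn_circleIntegral
      (G := fun p : Cm (n + 1) × ℂ => (p.2 - 0)⁻¹ • f (p.1 + p.2 • v))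
      hρ0.le hUo (W := W2 \ {0}) (hW2.sdiff isClosed_singleton) ?_ ?_
    · intro ζ hζ
      refine ⟨hW2s hζ, ?_⟩
      rintro rfl
      rw [mem_sphere_iff_norm] at hζ
      simp only [sub_self, norm_zero] at hζ
      exact hρ0.ne hζ
    · rintro ⟨z, ζ⟩ ⟨hz, hζ⟩
      have h0 : (z, ζ) ∈ U2 ×ˢ W2 := ⟨hz.2, hζ.1⟩
      have h1 := hUW2 h0
      rw [mem_ofPred_eq] at h1
      have h2 : DifferentiableAt ℂ f (z + ζ • v) := hf (z + ζ • v) h1
      have h3 : DifferentiableAt ℂ (fun p : Cm (n + 1) × ℂ => p.1 + p.2 • v) (z, ζ) := by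
        fun_prop
      have h4 : (ζ - 0 : ℂ) ≠ 0 := by rw [sub_zero]; exact hζ.2
      have h5 : DifferentiableAt ℂ (fun p : Cm (n + 1) × ℂ => (p.2 - 0)⁻¹) (z, ζ) :=
        DifferentiableAt.fun_inv (by fun_prop) h4
      have h6 : DifferentiableAt ℂ (fun p : Cm (n + 1) × ℂ => f (p.1 + p.2 • v)) (z, ζ) :=
        DifferentiableAt.comp (g := f) (f := fun p : Cm (n + 1) × ℂ => p.1 + p.2 • v) (z, ζ) h2 h3
      exact (h5.smul h6).differentiableWithinAt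
  · intro z hz hzT
    have h1 : ∀ ζ ∈ closedBall (0 : ℂ) ρ, z + ζ • v ∈ ball z0 R := by
      intro ζ hζ
      have h3 : (z, ζ) ∈ U1 ×ˢ W1 := ⟨hz.1.1, hW1s hζ⟩
      have h4 := hUW1 h3
      rwa [mem_ofPred_eq] at h4
    have h2 : ∀ ζ ∈ sphere (0 : ℂ) ρ, z + ζ • v ∉ E := by
      intro ζ hζ
      have h3 : (z, ζ) ∈ U2 ×ˢ W2 := ⟨hz.1.2, hW2s hζ⟩
      have h4 := hUW2 h3
      rw [mem_ofPred_eq] at h4
      exact h4.2
    exact line_value hΩE (hTc' z hzT) hE hf hb hρ0 h1 h2 hz.2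

/-- **Riemann extension**: a locally bounded holomorphic function on the complement of a (relatively
closed) thin set extends. -/
theorem riemann_ext {n : ℕ} {Ω E : Set (Cm (n + 1))} {W : ℕ → Set (Cm n)}
    {g : ℕ → Cm n → Cm (n + 1)} (hΩ : IsOpen Ω) (hΩE : IsOpen (Ω \ E))
    (hg : ∀ k, ∀ q ∈ W k, AnalyticAt ℂ (g k) q) (hE : Ω ∩ E ⊆ ⋃ k, g k '' W k)
    {f : Cm (n + 1) → ℂ} (hf : ∀ z ∈ Ω \ E, AnalyticAt ℂ f z)
    (hb : ∀ z ∈ Ω, ∃ C, ∀ᶠ w in 𝓝 z, w ∉ E → ‖f w‖ ≤ C) :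
    ∃ F : Cm (n + 1) → ℂ, (∀ z ∈ Ω, AnalyticAt ℂ F z) ∧ ∀ z ∈ Ω \ E, F z = f z := by
  have hdense : ∀ U : Set (Cm (n + 1)), IsOpen U → U ⊆ Ω → U ⊆ closure (U \ E) := by
    intro U hU hUΩ
    have h1 := (dense_compl_thin hg).open_subset_closure_inter hU
    refine h1.trans (closure_mono ?_)
    rintro z ⟨hz, hz'⟩
    exact ⟨hz, fun hzE => hz' (hE ⟨hUΩ hz, hzE⟩)⟩
  -- the local statement
  have hloc : ∀ z0 ∈ Ω, ∃ U : Set (Cm (n + 1)), IsOpen U ∧ z0 ∈ U ∧ U ⊆ Ω ∧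
      ∃ F : Cm (n + 1) → ℂ, DifferentiableOn ℂ F U ∧ ∀ z ∈ U \ E, F z = f z := by
    intro z0 hz0
    obtain ⟨C, hC⟩ := hb z0 hz0
    obtain ⟨R, hR, hRb⟩ := Metric.eventually_nhds_iff_ball.1 (hC.and (hΩ.mem_nhds hz0))
    have hΩE' : IsOpen (ball z0 R \ E) := by
      have h1 : ball z0 R \ E = ball z0 R ∩ (Ω \ E) := by
        ext z
        constructor
        · rintro ⟨h1, h2⟩; exact ⟨h1, (hRb z h1).2, h2⟩
        · rintro ⟨h1, h2, h3⟩; exact ⟨h1, h3⟩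
      rw [h1]
      exact isOpen_ball.inter hΩE
    obtain ⟨U, hU, hzU, hUR, F, T, hT, hF, hFf⟩ := riemann_ext_loc (E := E)
      (E0 := ⋃ k, g k '' W k) (z0 := z0) (C := C) (f := f) hR hΩE'
      (fun z hz => hE ⟨(hRb z hz.1).2, hz.2⟩) (line_countable hg z0) (line_countable' hg)
      (fun z hz => (hf z ⟨(hRb z hz.1).2, hz.2⟩).differentiableAt)
      (fun z hz => (hRb z hz.1).1 hz.2)
    have hUΩ : U ⊆ Ω := fun z hz => (hRb z (hUR hz)).2
    refine ⟨U, hU, hzU, hUΩ, F, hF, fun z hz => ?_⟩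
    -- continuity and density
    have hUE : IsOpen (U \ E) := by
      have h1 : U \ E = U ∩ (Ω \ E) := by
        ext z
        constructor
        · rintro ⟨h1, h2⟩; exact ⟨h1, hUΩ h1, h2⟩
        · rintro ⟨h1, h2, h3⟩; exact ⟨h1, h3⟩
      rw [h1]
      exact hU.inter hΩE
    have h1 : z ∈ closure ((U \ E) ∩ Tᶜ) :=
      (dense_compl_of_null hT).open_subset_closure_inter hUE hz
    have h2 : (𝓝[(U \ E) ∩ Tᶜ] z).NeBot := mem_closure_iff_nhdsWithin_neBot.1 h1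
    have h3 : Tendsto F (𝓝[(U \ E) ∩ Tᶜ] z) (𝓝 (F z)) :=
      (hF.differentiableAt (hU.mem_nhds hz.1)).continuousAt.mono_left nhdsWithin_le_nhds
    have h4 : Tendsto f (𝓝[(U \ E) ∩ Tᶜ] z) (𝓝 (f z)) :=
      (hf z ⟨hUΩ hz.1, hz.2⟩).continuousAt.mono_left nhdsWithin_le_nhds
    refine tendsto_nhds_unique (h3.congr' ?_) h4
    filter_upwards [self_mem_nhdsWithin] with w hw using hFf w hw.1 hw.2
  -- glueing
  set G : Cm (n + 1) → ℂ := fun x => limUnder (𝓝[Eᶜ] x) f with hG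
  have hA : ∀ (U : Set (Cm (n + 1))) (F : Cm (n + 1) → ℂ), IsOpen U → U ⊆ Ω →
      DifferentiableOn ℂ F U → (∀ z ∈ U \ E, F z = f z) → ∀ y ∈ U, G y = F y := by
    intro U F hU hUΩ hF hFf y hy
    have h0 : (𝓝[Eᶜ] y).NeBot := by
      rw [← mem_closure_iff_nhdsWithin_neBot]
      exact closure_mono (fun z hz => hz.2) (hdense U hU hUΩ hy)
    have h1 : Tendsto F (𝓝[Eᶜ] y) (𝓝 (F y)) :=
      (hF.differentiableAt (hU.mem_nhds hy)).continuousAt.mono_left nhdsWithin_le_nhds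
    refine Tendsto.limUnder_eq (h1.congr' ?_)
    filter_upwards [mem_nhdsWithin_of_mem_nhds (hU.mem_nhds hy), self_mem_nhdsWithin] with z a b
    exact hFf z ⟨a, b⟩
  refine ⟨G, fun z hz => ?_, fun z hz => ?_⟩
  · obtain ⟨U, hU, hzU, hUΩ, F, hF, hFf⟩ := hloc z hz
    have h1 : G =ᶠ[𝓝 z] F := by
      filter_upwards [hU.mem_nhds hzU] with y hy using hA U F hU hUΩ hF hFf y hy
    exact (Vale.Agent.P268.analyticAt_of_differentiableOn hU hF hzU).congr h1.symm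
  · obtain ⟨U, hU, hzU, hUΩ, F, hF, hFf⟩ := hloc z hz.1
    rw [hA U F hU hUΩ hF hFf z hzU, hFf z ⟨hzU, hz.2⟩]

end Vale.Agent.P277.H335
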