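import Vale.Agent.P277.H335.Pos2
import Vale.Agent.P277.H619.StFfin

/-!
# P277: `StE8`
-/

set_option maxSynthPendingDepth 3

open scoped Manifold ContDiff Topology
open Vale.Agent.P272.K Vale.Agent.P285.H281.FD Vale.Agent.P267.H175 Set
open Vale.Agent.P267.H928.Int ContinuousAlternatingMap

noncomputable section

namespace Vale.Agent.P277.H335

theorem e8_eq619 {E : Type} [NormedAddCommGroup E] [NormedSpace ℝ E] (l : Fin 4 → E →L[ℝ] ℂ) :
    H619.e8 l = e8 l := rfl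

theorem e8_stdB_gen' (l : Fin 4 → Cm 4 →L[ℂ] ℂ) (L : Fin 4 → Cm 4 →L[ℝ] ℂ)
    (hL : ∀ i, L i = (l i).restrictScalars ℝ) : H619.e8 L stdB =
    ‖(Matrix.of fun i j => l i (Pi.single j 1)).det‖ ^ 2 := by
  rw [e8_eq619]
  exact e8_stdB_gen l L hL

theorem stE8 : H619.StE8 := fun l => e8_stdB_gen' l _ fun _ => rfl

end Vale.Agent.P277.H335
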