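import Vale.Agent.P277.H335.Hyp
import Vale.Agent.P277.H615.TBr
import Vale.Agent.P277.H615.D0

/-!
# P277, T3: maps from threefolds lift through flips outside sets of dimension one (GL)
-/

open scoped Manifold ContDiff Topology
open Vale.Agent.P272.K Vale.Agent.P285.H281.FD Vale.Agent.P267.H175 Set Metric Filter
open Vale.Agent.P277.PH

noncomputable section

namespace Vale.Agent.P277.H335.GL

open Vale.Agent.P277.T3 Vale.Agent.P277.H762 Vale.Agent.P277.H335.HY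

section
variable {n : ℕ} {H : Type} [TopologicalSpace H] [ChartedSpace (Cm n) H] {X Z : CSp}

/-- `q : H → X` is holomorphic near `y`. -/
def QHol (n : ℕ) [ChartedSpace (Cm n) H] (X : CSp) (q : H → X.pt) (y : H) : Prop :=
  ContinuousAt q y ∧ ∀ g : X.pt → ℂ, X.Hol g (q y) → HolF n (fun y => g (q y)) y

theorem QHol.congr {q q' : H → X.pt} {y : H} (h : QHol n X q y) (he : q' =ᶠ[𝓝 y] q) :
    QHol n X q' y := by
  refine ⟨h.1.congr he.symm, fun g hg => (h.2 g (by rwa [← he.self_of_nhds])).congr ?_⟩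
  filter_upwards [he] with z hz
  rw [hz]

theorem QHol.comp {q : H → X.pt} {y : H} {f : X.pt → Z.pt} (h : QHol n X q y)
    (hf : HolMap X Z f (q y)) : QHol n Z (fun y => f (q y)) y :=
  ⟨hf.1.comp_of_eq h.1 rfl, fun g hg => h.2 (g ∘ f) (hf.2 g hg)⟩

theorem QHol.holAt {q : H → X.pt} {y : H} (h : QHol n X q y) {e : Chart n H} (he : At e y) :
    HolAt X (fun z => q (e.symm z)) (e y) := by
  refine ⟨?_, fun g hg => ?_⟩
  · have h1 : ContinuousAt e.symm (e y) := e.continuousAt_symm (e.map_source he.2)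
    exact ContinuousAt.comp_of_eq (g := q) h.1 h1 (e.left_inv he.2)
  · have hg' : X.Hol g (q y) := by
      have h1 : X.Hol g (q (e.symm (e y))) := hg
      rwa [e.left_inv he.2] at h1
    exact h.2 g hg' e he

theorem qHol_of_holAt [IsManifold 𝓘(ℂ, Cm n) ω H] {q : H → X.pt} {y : H} {e : Chart n H}
    (he : At e y) (h : HolAt X (fun z => q (e.symm z)) (e y)) : QHol n X q y := by
  refine ⟨?_, fun g hg => holF_of he ?_⟩
  · have h1 : ContinuousAt (fun y' => q (e.symm (e y'))) y :=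
      ContinuousAt.comp (g := fun z => q (e.symm z)) (f := e) h.1 (e.continuousAt he.2)
    refine h1.congr ?_
    filter_upwards [e.open_source.mem_nhds he.2] with y' hy'
    rw [e.left_inv hy']
  · have h1 := h.2 g (by simpa only [e.left_inv he.2] using hg)
    exact h1

theorem QHol.eventually [IsManifold 𝓘(ℂ, Cm n) ω H] {q : H → X.pt} {y : H} (h : QHol n X q y) :
    ∀ᶠ y' in 𝓝 y, QHol n X q y' := by
  have hAt := at_chartAt (n := n) y
  set e := chartAt (Cm n) y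
  have h1 := (h.holAt hAt).eventually
  filter_upwards [(e.continuousAt hAt.2).eventually h1, e.open_source.mem_nhds hAt.2]
    with y' h2 h3
  exact qHol_of_holAt ⟨hAt.1, h3⟩ h2

theorem eventually_analyticAt_proj {m k : ℕ} (s : Fin k → Fin m) (w : Cm m) :
    AnalyticAt ℂ (fun w : Cm m => (fun j => w (s j) : Cm k)) w := by
  rw [analyticAt_pi_iff]
  intro j
  exact (ContinuousLinearMap.proj (R := ℂ) (φ := fun _ : Fin m => ℂ) (s j)).analyticAt w

end

section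
variable {H : Type} [TopologicalSpace H] [ChartedSpace (Cm 3) H] [IsManifold 𝓘(ℂ, Cm 3) ω H]
  {X Z X' : CSp} {f : X.pt → Z.pt} {f' : X'.pt → Z.pt} {A : Set Z.pt}

/-- `q` lifts near `y` through `f'`. -/
def Lft (X' : CSp) (f : X.pt → Z.pt) (f' : X'.pt → Z.pt) (q : H → X.pt) (y : H) : Prop :=
  ∃ q₁ : H → X'.pt, QHol 3 X' q₁ y ∧ ∀ᶠ y' in 𝓝 y, f' (q₁ y') = f (q y')

theorem Lft.eventually {q : H → X.pt} {y : H} (h : Lft X' f f' q y) :
    ∀ᶠ y' in 𝓝 y, Lft X' f f' q y' := by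
  obtain ⟨q₁, h1, h2⟩ := h
  filter_upwards [h1.eventually, h2.eventually_nhds] with y' h3 h4 using ⟨q₁, h3, h4⟩

theorem lft_unique (hf' : IsSmall X' Z f' A) {q : H → X.pt} {D : Set H}
    (hD : Dense {y | y ∈ D ∧ f (q y) ∉ A}) {q₁ q₂ : H → X'.pt} {y : H}
    (h1 : ContinuousAt q₁ y) (h2 : ContinuousAt q₂ y) (h1' : ∀ᶠ y' in 𝓝 y, f' (q₁ y') = f (q y'))
    (h2' : ∀ᶠ y' in 𝓝 y, f' (q₂ y') = f (q y')) : q₁ y = q₂ y := by
  by_contra hne
  obtain ⟨U, V, hU, hV, hyU, hyV, hUV⟩ := t2_separation hne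
  obtain ⟨y', ⟨⟨h3, h4⟩, h5, h6⟩, h7⟩ := mem_closure_iff_nhds.1 (hD y) _
    (((h1.eventually (hU.mem_nhds hyU)).and (h2.eventually (hV.mem_nhds hyV))).and (h1'.and h2'))
  have h8 : q₁ y' = q₂ y' := hf'.inj _ _ (by rw [h6]; exact h7.2) (by rw [h5, h6])
  exact disjoint_left.1 hUV h3 (by rw [h8]; exact h4)

theorem lft_of_notMem (hf : IsSmall X Z f A) (hf' : IsSmall X' Z f' A) {q : H → X.pt} {y : H}
    (hq : QHol 3 X q y) (hy : f (q y) ∉ A) : Lft X' f f' q y :=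
  ⟨fun y => hf'.sec (f (q y)), (hq.comp (hf.holMap _)).comp (hf'.holMap_sec hy),
    Eventually.of_forall fun y' => hf'.sec_eq _⟩

/-- the projection to the first three coordinates -/
def pr3 (w : Cm 4) : Cm 3 := fun j => w (Fin.castSucc j)

/-- the section with last coordinate `c` -/
def sc3 (c : ℂ) (u : Cm 3) : Cm 4 := ![u 0, u 1, u 2, c]

theorem pr3_sc3 (c : ℂ) (u : Cm 3) : pr3 (sc3 c u) = u := by
  funext j
  fin_cases j <;> rfl

theorem sc3_pr3 (w : Cm 4) : sc3 (w 3) (pr3 w) = w := by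
  funext j
  fin_cases j <;> rfl

theorem analyticAt_pr3 (w : Cm 4) : AnalyticAt ℂ pr3 w := eventually_analyticAt_proj _ w

theorem analyticAt_sc3 (c : ℂ) (u : Cm 3) : AnalyticAt ℂ (sc3 c) u := by
  rw [analyticAt_pi_iff]
  intro j
  fin_cases j
  · exact (ContinuousLinearMap.proj (R := ℂ) (φ := fun _ : Fin 3 => ℂ) 0).analyticAt u
  · exact (ContinuousLinearMap.proj (R := ℂ) (φ := fun _ : Fin 3 => ℂ) 1).analyticAt u
  · exact (ContinuousLinearMap.proj (R := ℂ) (φ := fun _ : Fin 3 => ℂ) 2).analyticAt u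
  · exact analyticAt_const

theorem sc3_mem_ball {p : Cm 3} {r : ℝ} {c : ℂ} (hc : ‖c‖ < r) {u : Cm 3} :
    sc3 c u ∈ ball (sc3 0 p) r ↔ u ∈ ball p r := by
  have hr : 0 < r := (norm_nonneg _).trans_lt hc
  rw [mem_ball, mem_ball, dist_pi_lt_iff hr, dist_pi_lt_iff hr]
  constructor
  · intro h j
    have h1 := h (Fin.castSucc j)
    fin_cases j <;> exact h1
  · intro h j
    fin_cases j
    · exact h 0
    · exact h 1
    · exact h 2
    · show dist c 0 < r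
      rwa [dist_zero_right]

theorem norm_lt_of_mem {p : Cm 3} {r : ℝ} {w : Cm 4} (h : w ∈ ball (sc3 0 p) r) : ‖w 3‖ < r := by
  have hr : 0 < r := dist_nonneg.trans_lt (mem_ball.1 h)
  rw [mem_ball, dist_pi_lt_iff hr] at h
  have h1 := h 3
  rwa [show sc3 0 p 3 = 0 from rfl, dist_zero_right] at h1

/-- near a generic point of the hypersurface `f ∘ q ∈ A` -/
theorem lft_local {L : Bd X.pt} {L' : Bd X'.pt} (hF : IsFlip X Z X' f f' A L L')
    {Θ : Set H} {q : H → X.pt} (hq : QMap X Θ q) {y : H} (hy : y ∉ Θ)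
    (hyp : IsHypAt 3 {y | f (q y) ∈ A} y) :
    ∃ N ∈ 𝓝 y, ThinM 3 1 (N ∩ {y | y ∉ Θ ∧ ¬ Lft X' f f' q y}) := by
  have : Nonempty H := ⟨y⟩
  obtain ⟨e, hAt, g, hg, hg0, hgd, hE⟩ := hyp
  obtain ⟨e₂, hp₂, he₂, he₂', hz⟩ := exists_straight hg hgd
  set p := e₂ (e y) with hp
  have hp0 : p 0 = 0 := by rw [hp, hz]; exact hg0
  -- a ball around `p`
  have hqh : ∀ y ∉ Θ, QHol 3 X q y := fun y hy => ⟨hq.cont y hy, hq.holo y hy⟩
  have hc₂ : ContinuousAt e₂.symm p := e₂.continuousAt_symm (e₂.map_source hp₂)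
  have hsp : e₂.symm p = e y := e₂.left_inv hp₂
  have hev : ∀ᶠ u in 𝓝 p, u ∈ e₂.target ∧ e₂.symm u ∈ e.target ∧ e.symm (e₂.symm u) ∉ Θ ∧
      (f (q (e.symm (e₂.symm u))) ∈ A ↔ u 0 = 0) := by
    have h1 : ∀ᶠ z in 𝓝 (e y), z ∈ e.target ∧ e.symm z ∉ Θ ∧
        (f (q (e.symm z)) ∈ A ↔ g z = 0) := by
      refine (e.open_target.eventually_mem (e.map_source hAt.2)).and
        ((ev_symm hAt.2 (hq.closed.isOpen_compl.eventually_mem hy)).and ?_)
      filter_upwards [ev_symm hAt.2 hE, e.open_target.eventually_mem (e.map_source hAt.2)]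
        with z h1 h2
      rw [e.right_inv h2] at h1
      exact h1
    have h2 : ∀ᶠ u in 𝓝 p, e₂.symm u ∈ e.target ∧ e.symm (e₂.symm u) ∉ Θ ∧
        (f (q (e.symm (e₂.symm u))) ∈ A ↔ g (e₂.symm u) = 0) := by
      have h3 : Tendsto e₂.symm (𝓝 p) (𝓝 (e y)) := by
        have := hc₂
        rwa [ContinuousAt, hsp] at this
      exact h3.eventually h1
    filter_upwards [h2, e₂.open_target.eventually_mem (e₂.map_source hp₂)] with u h3 h4
    refine ⟨h4, h3.1, h3.2.1, ?_⟩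
    rw [h3.2.2, ← hz, e₂.right_inv h4]
  obtain ⟨r₀, hr₀, hball⟩ := Metric.eventually_nhds_iff_ball.1 hev
  -- the wedge
  set ψ : Cm 3 → H := fun u => e.symm (e₂.symm u) with hψ
  set W : Set (Cm 4) := pr3 ⁻¹' ball p r₀ with hW
  have hpc : Continuous pr3 := continuous_pi fun j => continuous_apply _
  have hWo : IsOpen W := isOpen_ball.preimage hpc
  have hw₀W : sc3 0 p ∈ W := by
    show pr3 (sc3 0 p) ∈ ball p r₀
    rw [pr3_sc3]
    exact mem_ball_self hr₀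
  have hγ : ∀ w ∈ W, HolAt X (fun w => q (ψ (pr3 w))) w := by
    intro w hw
    obtain ⟨h1, h2, h3, -⟩ := hball (pr3 w) hw
    have h4 : At e (ψ (pr3 w)) := ⟨hAt.1, e.map_target h2⟩
    have h5 := (hqh _ h3).holAt h4
    rw [show e (e.symm (e₂.symm (pr3 w))) = e₂.symm (pr3 w) from e.right_inv h2] at h5
    exact (h5.comp (he₂' _ h1)).comp (analyticAt_pr3 w)
  have hdense : W ⊆ closure {w | w ∈ W ∧ f (q (ψ (pr3 w))) ∉ Amin f'} := by
    intro w hw
    rw [mem_closure_iff_nhds]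
    intro T hT
    -- move the coordinate `w 0`
    have h1 : ∀ᶠ w' in 𝓝 w, w' ∈ T ∧ w' ∈ W :=
      (show ∀ᶠ w' in 𝓝 w, w' ∈ T from hT).and (hWo.eventually_mem hw)
    have h2 : Tendsto (fun t : ℂ => Function.update w 0 t) (𝓝 (w 0)) (𝓝 w) := by
      have h3 : Continuous fun t : ℂ => Function.update w 0 t :=
        continuous_const.update 0 continuous_id
      have := h3.tendsto (w 0)
      rwa [Function.update_eq_self] at this
    have h3 : ∀ᶠ t in 𝓝[≠] (w 0), Function.update w 0 t ∈ T ∧ Function.update w 0 t ∈ W :=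
      (h2.eventually h1).filter_mono nhdsWithin_le_nhds
    have h4 : ∀ᶠ t in 𝓝[≠] (w 0), t ≠ 0 := by
      rcases eq_or_ne (w 0) 0 with h | h
      · rw [h]
        exact eventually_mem_nhdsWithin
      · exact (eventually_ne_nhds h).filter_mono nhdsWithin_le_nhds
    obtain ⟨t, ⟨ht1, ht2⟩, ht3⟩ := (h3.and h4).exists
    refine ⟨Function.update w 0 t, ht1, ht2, fun hcon => ?_⟩
    have h5 := (hball _ ht2).2.2.2.1 (H615.amin_sub_A hF.small' hcon)
    have h6 : pr3 (Function.update w 0 t) 0 = t := by simp [pr3]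
    rw [h6] at h5
    exact ht3 h5
  -- the lift
  obtain ⟨hF₀, hAA, hAsub⟩ := H615.stD0 X Z X' f f' A L L' hF
  rw [hAA] at hF₀
  obtain ⟨t, ht⟩ := hF₀.iso
  have hiso' := H615.IsIso.inv (H615.IsIso.symm hF₀.lb hF₀.lb' ht)
  obtain ⟨r, G, hr, hsub, hG, ⟨w₁, hw₁, hw₁0, hGw₁⟩, hgood⟩ := H615.stTBr X' Z X f' f (Amin f') _ _
    (H615.IsFlip.symm hF₀) rfl _ hiso' W hWo (sc3 0 p) hw₀W (by
      show p 0 = 0
      exact hp0) (fun w => q (ψ (pr3 w))) hγ hdense
  set c := w₁ 3 with hc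
  have hcr : ‖c‖ < r := norm_lt_of_mem hw₁
  have hK : ∀ u ∈ ball p r, AnalyticAt ℂ (fun u => G (sc3 c u)) u := fun u hu =>
    AnalyticAt.fun_comp (hG _ ((sc3_mem_ball hcr).2 hu)) (analyticAt_sc3 c u)
  have hw₁' : sc3 c (pr3 w₁) = w₁ := sc3_pr3 w₁
  have hcv := cv_slice (n := 1) hp0 hK (w₁ := pr3 w₁)
    ((sc3_mem_ball hcr).1 (by rw [hw₁']; exact hw₁)) hw₁0 (by
      show G (sc3 c (pr3 w₁)) ≠ 0
      rw [hw₁']; exact hGw₁)
  have hsub' : ∀ u ∈ ball p r, u ∈ ball p r₀ := fun u hu => by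
    have h1 : pr3 (sc3 c u) ∈ ball p r₀ := hsub ((sc3_mem_ball hcr).2 hu)
    rwa [pr3_sc3] at h1
  have hcv' := (hcv.image isOpen_ball (fun u hu => hu.1) (F := e₂.symm)
    fun u hu => he₂' u (hball u (hsub' u hu)).1)
  have hthin := thinM_of_cv (M := H) hAt.1 hcv' (by
    rintro _ ⟨u, hu, rfl⟩
    exact (hball u (hsub' u hu.1)).2.1)
  -- the neighbourhood
  have hN : ∀ᶠ y' in 𝓝 y, y' ∈ e.source ∧ e y' ∈ e₂.source ∧ e₂ (e y') ∈ ball p r := by
    have h1 : ∀ᶠ z in 𝓝 (e y), z ∈ e₂.source ∧ e₂ z ∈ ball p r :=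
      (e₂.open_source.eventually_mem hp₂).and
        ((e₂.continuousAt hp₂).eventually (ball_mem_nhds _ hr))
    exact (e.open_source.eventually_mem hAt.2).and ((e.continuousAt hAt.2).eventually h1)
  refine ⟨_, hN, hthin.mono ?_⟩
  rintro y' ⟨⟨hy1, hy2, hy3⟩, hy'Θ, hy'⟩
  set u := e₂ (e y') with hu
  have hu₀ := hsub' u hy3
  have hψu : ψ u = y' := by
    show e.symm (e₂.symm (e₂ (e y'))) = y'
    rw [e₂.left_inv hy2, e.left_inv hy1]
  refine ⟨e₂.symm u, ⟨u, ⟨hy3, ?_, ?_⟩, rfl⟩, hψu⟩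
  · by_contra hu0
    refine hy' (lft_of_notMem hF.small hF.small' (hqh _ hy'Θ) fun hcon => hu0 ?_)
    have h1 := (hball u hu₀).2.2.2.1
    rw [show e.symm (e₂.symm u) = y' from hψu] at h1
    exact h1 hcon
  · by_contra hGu
    have hu0 : u 0 = 0 := by
      by_contra hu0
      refine hy' (lft_of_notMem hF.small hF.small' (hqh _ hy'Θ) fun hcon => hu0 ?_)
      have h1 := (hball u hu₀).2.2.2.1
      rw [show e.symm (e₂.symm u) = y' from hψu] at h1
      exact h1 hcon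
    obtain ⟨W₁, γ', k, hW₁, huW₁, hW₁W, hγ', -, -⟩ := hgood (sc3 c u)
      ((sc3_mem_ball hcr).2 hy3) hu0 hGu
    refine hy' ⟨fun y => γ' (sc3 c (e₂ (e y))), qHol_of_holAt ⟨hAt.1, hy1⟩ ?_, ?_⟩
    · have h1 : HolAt X' (fun z => γ' (sc3 c (e₂ z))) (e y') := by
        have h2 : HolAt X' γ' (sc3 c (e₂ (e y'))) := (hγ' _ huW₁).1
        have h3 : AnalyticAt ℂ (fun z => sc3 c (e₂ z)) (e y') :=
          AnalyticAt.fun_comp (analyticAt_sc3 c _) (he₂ _ hy2)
        exact HolAt.comp (g := γ') (γ := fun z => sc3 c (e₂ z)) h2 h3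
      refine h1.congr ?_
      filter_upwards [e.open_target.mem_nhds (e.map_source hy1)] with z hz
      simp only [e.right_inv hz]
    · have h3 : ContinuousAt (fun y => sc3 c (e₂ (e y))) y' := by
        have h4 : ContinuousAt (fun z => sc3 c (e₂ z)) (e y') :=
          (AnalyticAt.fun_comp (analyticAt_sc3 c _) (he₂ _ hy2)).continuousAt
        exact ContinuousAt.comp (g := fun z => sc3 c (e₂ z)) h4 (e.continuousAt hy1)
      have h5 : ∀ᶠ y'' in 𝓝 y', y'' ∈ e.source ∧ e y'' ∈ e₂.source := by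
        refine (e.open_source.eventually_mem hy1).and ?_
        exact (e.continuousAt hy1).eventually (e₂.open_source.eventually_mem hy2)
      filter_upwards [h3.eventually (hW₁.mem_nhds huW₁), h5] with y'' h6 h7
      have h8 := (hγ' _ h6).2
      rw [h8, pr3_sc3]
      show f (q (e.symm (e₂.symm (e₂ (e y''))))) = _
      rw [e₂.left_inv h7.2, e.left_inv h7.1]

end

/-- (GL) -/
theorem stLift : StLift := by
  intro H _ _ _ _ _ X Z X' f f' A L L' hF Θ q hq hdense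
  have : Nonempty H := hq.thin.nonempty
  have hqh : ∀ y ∉ Θ, QHol 3 X q y := fun y hy => ⟨hq.cont y hy, hq.holo y hy⟩
  set 𝒢 : Set H := {y | y ∉ Θ ∧ Lft X' f f' q y} with h𝒢
  have hopen : IsOpen 𝒢 := by
    rw [isOpen_iff_eventually]
    rintro y ⟨hy, hl⟩
    exact (hq.closed.isOpen_compl.eventually_mem hy).and hl.eventually
  have hD : Dense {y | y ∈ Θᶜ ∧ f (q y) ∉ A} := hdense
  classical
  have : Nonempty X'.pt := ⟨hF.small'.sec (f (q (Classical.arbitrary H)))⟩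
  choose! φ hφ using fun (y : H) (hy : y ∈ 𝒢) => hy.2
  -- the lift
  set q' : H → X'.pt := fun y => φ y y with hq'
  have hloc : ∀ y ∈ 𝒢, q' =ᶠ[𝓝 y] φ y := by
    intro y hy
    filter_upwards [hopen.mem_nhds hy, (hφ y hy).1.eventually, (hφ y hy).2.eventually_nhds]
      with y' h1 h2 h3
    exact lft_unique (q₁ := φ y') (q₂ := φ y) hF.small' hD (hφ y' h1).1.1 h2.1 (hφ y' h1).2 h3
  have hyp := stHyp H Θᶜ {y | f (q y) ∈ A} hq.closed.isOpen_compl (by
    intro y hy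
    obtain ⟨k, h, hh, hev⟩ := hF.small.an (f (q y)) (mem_univ _)
    have h1 := (hqh y hy).comp (hF.small.holMap _)
    exact ⟨k, fun i y => h i (f (q y)), fun i => h1.2 _ (hh i), h1.1.eventually hev⟩)
    (fun y _ => hdense.mono (fun y' h => h.2) y)
  refine ⟨𝒢ᶜ, q', ⟨hopen.isClosed_compl, ?_, fun y hy => ?_, fun y hy g hg => ?_⟩,
    fun y hy hy' => hy'.1 hy, fun y hy => ?_, fun y hy hA hy' => ?_⟩
  · have h1 : ThinM 3 1 {y | y ∉ Θ ∧ ¬ Lft X' f f' q y ∧ IsHypAt 3 {y | f (q y) ∈ A} y} := by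
      refine thinM_of_local fun y hy => ?_
      obtain ⟨N, hN, hN'⟩ := lft_local hF hq hy.1 hy.2.2
      exact ⟨N, hN, hN'.mono fun y' h => ⟨h.1, h.2.1, h.2.2.1⟩⟩
    refine ((hq.thin.union hyp).union h1).mono ?_
    intro y hy
    by_cases hyΘ : y ∈ Θ
    · exact Or.inl (Or.inl hyΘ)
    have h2 : ¬ Lft X' f f' q y := fun h => hy ⟨hyΘ, h⟩
    by_cases h3 : IsHypAt 3 {y | f (q y) ∈ A} y
    · exact Or.inr ⟨hyΘ, h2, h3⟩
    · refine Or.inl (Or.inr ⟨hyΘ, ?_, h3⟩)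
      by_contra h4
      exact h2 (lft_of_notMem hF.small hF.small' (hqh y hyΘ) h4)
  · have hy : y ∈ 𝒢 := not_not.1 hy
    exact ((hφ y hy).1.congr (hloc y hy)).1
  · have hy : y ∈ 𝒢 := not_not.1 hy
    exact ((hφ y hy).1.congr (hloc y hy)).2 g hg
  · have hy : y ∈ 𝒢 := not_not.1 hy
    exact (hφ y hy).2.self_of_nhds
  · exact hy' ⟨hy, lft_of_notMem hF.small hF.small' (hqh y hy) hA⟩

end Vale.Agent.P277.H335.GL
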