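import Vale.Agent.P277.Stmts9
import Vale.Agent.P277.H762.L1a
import Vale.Agent.P277.H622.B1
import Vale.Agent.P277.H884.Div
import Vale.Agent.P277.H73.IFT
import Vale.Agent.P277.H29.PH.Basic

/-!
# P277, T3: generic smoothness of hypersurfaces (HYP)
-/

open scoped Manifold ContDiff Topology
open Vale.Agent.P272.K Vale.Agent.P285.H281.FD Vale.Agent.P267.H175 Set Metric Filter
open Vale.Agent.P277.PH

noncomputable section

namespace Vale.Agent.P277.H335.HY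

open Vale.Agent.P277.T3 Vale.Agent.P277.H762

/-- `A` is near `z` a smooth hypersurface through `z`. -/
def HypPt {n : ℕ} (A : Set (Cm n)) (z : Cm n) : Prop :=
  ∃ g : Cm n → ℂ, AnalyticAt ℂ g z ∧ g z = 0 ∧ fderiv ℂ g z ≠ 0 ∧ ∀ᶠ z' in 𝓝 z, z' ∈ A ↔ g z' = 0

/-- Local coordinates with a given first coordinate. -/
theorem exists_straight {n : ℕ} {g : Cm (n + 1) → ℂ} {p : Cm (n + 1)} (hg : AnalyticAt ℂ g p)
    (h : fderiv ℂ g p ≠ 0) :
    ∃ e : OpenPartialHomeomorph (Cm (n + 1)) (Cm (n + 1)), p ∈ e.source ∧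
      (∀ q ∈ e.source, AnalyticAt ℂ e q) ∧ (∀ z ∈ e.target, AnalyticAt ℂ e.symm z) ∧
      ∀ q, e q 0 = g q := by
  obtain ⟨i, hi⟩ : ∃ i, fderiv ℂ g p (Pi.single i 1) ≠ 0 := by
    by_contra hcon
    push Not at hcon
    apply h
    ext v
    have h2 : v = ∑ j, v j • (Pi.single j (1 : ℂ) : Cm (n + 1)) := by
      funext k
      simp [Finset.sum_apply, Pi.single_apply]
    rw [h2]
    simp [map_sum, map_smul, hcon]
  have hΦ : AnalyticAt ℂ (H622.sliceMap g i) p := by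
    rw [analyticAt_pi_iff]
    intro j
    refine Fin.cases ?_ (fun j => ?_) j
    · simpa [H622.sliceMap] using hg
    · simp only [H622.sliceMap, Fin.cons_succ]
      exact (ContinuousLinearMap.proj (R := ℂ) (φ := fun _ : Fin (n + 1) => ℂ)
        (i.succAbove j)).analyticAt p
  have hΦ' : HasFDerivAt (H622.sliceMap g i) (H622.sliceLin (fderiv ℂ g p) i) p := by
    rw [hasFDerivAt_pi']
    intro j
    refine Fin.cases ?_ (fun j => ?_) j
    · simp only [H622.sliceMap, Fin.cons_zero]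
      have : (ContinuousLinearMap.proj (R := ℂ) (φ := fun _ : Fin (n + 1) => ℂ) 0).comp
          (H622.sliceLin (fderiv ℂ g p) i) = fderiv ℂ g p := by
        ext v; simp [H622.sliceLin]
      rw [this]
      exact hg.differentiableAt.hasFDerivAt
    · simp only [H622.sliceMap, Fin.cons_succ]
      have : (ContinuousLinearMap.proj (R := ℂ) (φ := fun _ : Fin (n + 1) => ℂ) j.succ).comp
          (H622.sliceLin (fderiv ℂ g p) i) = ContinuousLinearMap.proj (i.succAbove j) := by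
        ext v; simp [H622.sliceLin]
      rw [this]
      exact (ContinuousLinearMap.proj (R := ℂ) (φ := fun _ : Fin (n + 1) => ℂ)
        (i.succAbove j)).hasFDerivAt
  obtain ⟨e, he, hp, h1, h2⟩ := H73.exists_localInv hΦ (by
    rw [hΦ'.fderiv]
    exact H622.sliceLin_injective hi)
  refine ⟨e, hp, fun q hq => ?_, h2, fun q => ?_⟩
  · rw [he]
    exact h1 q hq
  · rw [he]
    simp [H622.sliceMap]

/-- inclusion of the hyperplane `{w 0 = 0}` -/
def ins {n : ℕ} (u : Cm n) : Cm (n + 1) := Fin.cons 0 u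

theorem ins_zero {n : ℕ} (u : Cm n) : ins u 0 = 0 := rfl

theorem analyticAt_ins {n : ℕ} (u : Cm n) : AnalyticAt ℂ (ins (n := n)) u := by
  rw [analyticAt_pi_iff]
  intro j
  refine Fin.cases ?_ (fun j => ?_) j
  · exact analyticAt_const
  · exact (ContinuousLinearMap.proj (R := ℂ) (φ := fun _ : Fin n => ℂ) j).analyticAt u

theorem ins_tail {n : ℕ} {w : Cm (n + 1)} (h : w 0 = 0) : ins (fun j => w j.succ) = w := by
  funext j
  refine Fin.cases ?_ (fun j => ?_) j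
  · rw [ins_zero, h]
  · rfl

theorem ins_mem_ball {n : ℕ} {c : Cm (n + 1)} {r : ℝ} (hc : c 0 = 0) {u : Cm n} :
    ins u ∈ ball c r ↔ u ∈ ball (fun j => c j.succ) r := by
  rcases le_or_gt r 0 with hr | hr
  · rw [ball_eq_empty.2 hr, ball_eq_empty.2 hr]
    simp
  rw [mem_ball, mem_ball, dist_pi_lt_iff hr, dist_pi_lt_iff hr]
  constructor
  · intro h j
    exact h j.succ
  · intro h j
    refine Fin.cases ?_ (fun j => ?_) j
    · rw [ins_zero, hc, dist_self]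
      exact hr
    · exact h j

/-- Zeros of a holomorphic function on the hyperplane `{w 0 = 0}`. -/
theorem cv_slice {n : ℕ} {c : Cm (n + 2)} {r : ℝ} (hc : c 0 = 0) {K : Cm (n + 2) → ℂ}
    (hK : ∀ w ∈ ball c r, AnalyticAt ℂ K w) {w₁ : Cm (n + 2)} (hw₁ : w₁ ∈ ball c r)
    (h0 : w₁ 0 = 0) (hne : K w₁ ≠ 0) : Cv n {w | w ∈ ball c r ∧ w 0 = 0 ∧ K w = 0} := by
  set D : Set (Cm (n + 1)) := ball (fun j => c j.succ) r with hD
  have hJ : ∀ u ∈ D, AnalyticAt ℂ (fun u => K (ins u)) u := fun u hu =>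
    AnalyticAt.fun_comp (hK _ ((ins_mem_ball hc).2 hu)) (analyticAt_ins u)
  have h1 : ∀ u ∈ D, ¬ (fun u => K (ins u)) =ᶠ[𝓝 u] 0 := by
    intro u hu h
    have h2 : AnalyticOnNhd ℂ (fun u => K (ins u)) D := hJ
    have h4 : (fun j => w₁ j.succ) ∈ D := by
      have h5 : ins (fun j => w₁ j.succ) ∈ ball c r := by rw [ins_tail h0]; exact hw₁
      exact (ins_mem_ball hc).1 h5
    have hpre : IsPreconnected D := by
      have h6 : Convex ℝ (ball (fun j => c j.succ : Cm (n + 1)) r) := convex_ball _ _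
      exact h6.isPreconnected
    have h3 : K (ins (fun j => w₁ j.succ)) = 0 :=
      h2.eqOn_zero_of_preconnected_of_eventuallyEq_zero hpre hu h h4
    apply hne
    rwa [ins_tail h0] at h3
  obtain ⟨W, g, hW, hg, hcov⟩ := H622.stB1 n D _ isOpen_ball hJ h1
  refine ⟨W, fun l p => ins (g l p), hW, fun l p hp =>
    AnalyticAt.comp (analyticAt_ins _) (hg l p hp).1, ?_⟩
  rintro w ⟨hw, hw0, hKw⟩
  have h5 : ins (fun j => w j.succ) ∈ ball c r := by rw [ins_tail hw0]; exact hw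
  have h6 : K (ins (fun j => w j.succ)) = 0 := by rw [ins_tail hw0]; exact hKw
  have h2 : (fun j => w j.succ) ∈ ⋃ k, g k '' W k := hcov ⟨(ins_mem_ball hc).1 h5, h6⟩
  obtain ⟨l, p, hp, hpw⟩ := mem_iUnion.1 h2
  refine mem_iUnion.2 ⟨l, p, hp, ?_⟩
  simp only [hpw]
  exact ins_tail hw0

/-- HYP in `ℂ^(n+2)` -/
theorem hyp_local {n k : ℕ} {B A : Set (Cm (n + 2))} (hB : IsOpen B) (F : Fin k → Cm (n + 2) → ℂ)
    (hF : ∀ i, ∀ z ∈ B, AnalyticAt ℂ (F i) z) (i₀ : Fin k) (h0 : ∀ z ∈ B, ¬ F i₀ =ᶠ[𝓝 z] 0)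
    (hA : ∀ z ∈ B, z ∈ A ↔ ∀ i, F i z = 0) : Cv n {z | z ∈ B ∧ z ∈ A ∧ ¬ HypPt A z} := by
  set Bad : Set (Cm (n + 2)) := {z | z ∈ B ∧ z ∈ A ∧ ¬ HypPt A z} with hBad
  set G : ℕ × ℕ → Cm (n + 2) → ℂ := fun c =>
    H622.dirD (F i₀) (TopologicalSpace.denseSeq (Cm (n + 2)) c.1) c.2 with hG
  have hGa : ∀ c, ∀ z ∈ B, AnalyticAt ℂ (G c) z := fun c z hz =>
    H622.analyticAt_dirD (hF i₀ z hz) _ _
  suffices h : ∀ c, Cv n {z | z ∈ Bad ∧ G c z = 0 ∧ fderiv ℂ (G c) z ≠ 0} by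
    refine (cv_iUnion h).mono fun z hz => ?_
    obtain ⟨l, m, h1, h2⟩ := H622.exists_dirD hB (hF i₀) hz.1 (h0 z hz.1) ((hA z hz.1).1 hz.2.1 i₀)
    exact mem_iUnion.2 ⟨(l, m), hz, h1, h2⟩
  intro c
  refine cv_of_local fun p hp => ?_
  obtain ⟨⟨hpB, hpA, -⟩, hp0, hpd⟩ := hp
  obtain ⟨e, hpe, he, he', hz⟩ := exists_straight (hGa c p hpB) hpd
  have hev : ∀ᶠ w in 𝓝 (e p), w ∈ e.target ∧ e.symm w ∈ B := by
    refine (e.open_target.eventually_mem (e.map_source hpe)).and ?_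
    refine (e.continuousAt_symm (e.map_source hpe)).eventually (hB.mem_nhds ?_)
    rwa [e.left_inv hpe]
  obtain ⟨r, hr, hball⟩ := Metric.eventually_nhds_iff_ball.1 hev
  have hc0 : e p 0 = 0 := by rw [hz]; exact hp0
  have hcp : e p ∈ ball (e p) r := mem_ball_self hr
  set N : Set (Cm (n + 2)) := e.source ∩ e ⁻¹' ball (e p) r with hN
  have hNo : IsOpen N := e.isOpen_inter_preimage isOpen_ball
  have hpN : p ∈ N := ⟨hpe, hcp⟩
  have hFe : ∀ i, ∀ w ∈ ball (e p) r, AnalyticAt ℂ (fun w => F i (e.symm w)) w := fun i w hw =>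
    AnalyticAt.fun_comp (hF i _ (hball w hw).2) (he' w (hball w hw).1)
  obtain ⟨w', hw', hw'ne⟩ : ∃ w' ∈ ball (e p) r, F i₀ (e.symm w') ≠ 0 := by
    by_contra hcon
    push Not at hcon
    refine h0 p hpB ?_
    filter_upwards [hNo.mem_nhds hpN] with z hz
    have h1 := hcon _ hz.2
    rwa [e.left_inv hz.1] at h1
  obtain ⟨κ, Q, hQ, hFQ, i, w₁, hw₁, hw₁0, hQw₁⟩ := H884.exists_div hc0 (ι := Unit)
    (fun _ w => F i₀ (e.symm w))
    (fun _ w hw => (hFe i₀ w hw).differentiableAt.differentiableWithinAt) (i₀ := ()) hw' hw'ne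
  have hQa : ∀ w ∈ ball (e p) r, AnalyticAt ℂ (Q i) w := fun w hw =>
    P268.analyticAt_of_differentiableOn Metric.isOpen_ball (hQ i) hw
  -- it is enough to find a function vanishing on the bad part
  suffices hK : ∃ K : Cm (n + 2) → ℂ, (∀ w ∈ ball (e p) r, AnalyticAt ℂ K w) ∧
      (∃ w₁ ∈ ball (e p) r, w₁ 0 = 0 ∧ K w₁ ≠ 0) ∧
      ∀ z ∈ N, z ∈ Bad → G c z = 0 → fderiv ℂ (G c) z ≠ 0 → K (e z) = 0 by
    obtain ⟨K, hKa, ⟨w₂, hw₂, hw₂0, hKw₂⟩, hKz⟩ := hK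
    refine ⟨N, hNo.mem_nhds hpN, ?_⟩
    have h1 := (cv_slice hc0 hKa hw₂ hw₂0 hKw₂).image isOpen_ball (fun w hw => hw.1)
      (F := e.symm) fun w hw => he' w (hball w hw).1
    refine h1.mono ?_
    rintro z ⟨hzN, hzB, hz1, hz2⟩
    exact ⟨e z, ⟨hzN.2, by rw [hz]; exact hz1, hKz z hzN hzB hz1 hz2⟩, e.left_inv hzN.1⟩
  by_cases hall : ∀ i, ∀ w ∈ ball (e p) r, w 0 = 0 → F i (e.symm w) = 0
  · refine ⟨Q i, hQa, ⟨w₁, hw₁, hw₁0, hQw₁⟩, ?_⟩
    intro z hzN hzB hz1 hz2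
    by_contra hQz
    refine hzB.2.2 ⟨G c, hGa c z hzB.1, hz1, hz2, ?_⟩
    have e1 : ∀ᶠ z' in 𝓝 z, Q i (e z') ≠ 0 :=
      (AnalyticAt.comp (hQa _ hzN.2) (he z hzN.1)).continuousAt.eventually_ne hQz
    filter_upwards [hNo.mem_nhds hzN, e1] with z' hz'N hz'Q
    have hz'B : z' ∈ B := by
      have := (hball _ hz'N.2).2
      rwa [e.left_inv hz'N.1] at this
    rw [hA z' hz'B, ← hz z']
    constructor
    · intro h
      have h1 := hFQ i (e z') hz'N.2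
      simp only [e.left_inv hz'N.1, h i₀] at h1
      rcases mul_eq_zero.1 h1.symm with h2 | h2
      · exact eq_zero_of_pow_eq_zero h2
      · exact absurd h2 hz'Q
    · intro h i
      have := hall i _ hz'N.2 h
      rwa [e.left_inv hz'N.1] at this
  · push Not at hall
    obtain ⟨i, w₂, hw₂, hw₂0, hne⟩ := hall
    refine ⟨fun w => F i (e.symm w), hFe i, ⟨w₂, hw₂, hw₂0, hne⟩, ?_⟩
    intro z hzN hzB _ _
    simp only [e.left_inv hzN.1]
    exact (hA z hzB.1).1 hzB.2.1 i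

/-! ### thin sets of manifolds -/

section thin
variable {n k : ℕ} {M : Type} [TopologicalSpace M] [ChartedSpace (Cm n) M] {S S' : Set M}

theorem _root_.Vale.Agent.P277.T3.ThinM.mono (h : ThinM n k S) (hS : S' ⊆ S) : ThinM n k S' := by
  obtain ⟨Ω, g, h1, h2, h3⟩ := h
  exact ⟨Ω, g, h1, h2, hS.trans h3⟩

theorem thinM_of_family [Nonempty M] {κ : Type*} [Countable κ] (Ω : κ → Set (Cm k))
    (g : κ → Cm k → M) (h1 : ∀ l, IsOpen (Ω l)) (h2 : ∀ l, ∀ p ∈ Ω l, ContinuousAt (g l) p ∧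
      ∀ e : Chart n M, At e (g l p) → AnalyticAt ℂ (fun p => e (g l p)) p)
    (h3 : S ⊆ ⋃ l, g l '' Ω l) : ThinM n k S := by
  rcases isEmpty_or_nonempty κ with hκ | hκ
  · refine ⟨fun _ => ∅, fun _ _ => Classical.arbitrary M, fun _ => isOpen_empty,
      fun _ _ h => h.elim, fun x hx => ?_⟩
    obtain ⟨k, -⟩ := mem_iUnion.1 (h3 hx)
    exact (hκ.false k).elim
  · obtain ⟨e, he⟩ := exists_surjective_nat κ
    refine ⟨fun n => Ω (e n), fun n => g (e n), fun n => h1 _, fun n => h2 _, fun x hx => ?_⟩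
    obtain ⟨k, hk⟩ := mem_iUnion.1 (h3 hx)
    obtain ⟨n, rfl⟩ := he k
    exact mem_iUnion.2 ⟨n, hk⟩

theorem thinM_iUnion [Nonempty M] {κ : Type*} [Countable κ] {T : κ → Set M}
    (h : ∀ i, ThinM n k (T i)) : ThinM n k (⋃ i, T i) := by
  choose Ω g h1 h2 h3 using h
  refine thinM_of_family (κ := κ × ℕ) (fun i => Ω i.1 i.2) (fun i => g i.1 i.2) (fun i => h1 _ _)
    (fun i => h2 _ _) ?_
  refine iUnion_subset fun i x hx => ?_
  obtain ⟨m, hm⟩ := mem_iUnion.1 (h3 i hx)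
  exact mem_iUnion.2 ⟨(i, m), hm⟩

theorem thinM_biUnion [Nonempty M] {κ : Type*} {I : Set κ} (hI : I.Countable) {T : κ → Set M}
    (h : ∀ i ∈ I, ThinM n k (T i)) : ThinM n k (⋃ i ∈ I, T i) := by
  have : Countable I := hI
  rw [biUnion_eq_iUnion]
  exact thinM_iUnion fun i => h i.1 i.2

theorem _root_.Vale.Agent.P277.T3.ThinM.nonempty (h : ThinM n k S) : Nonempty M := by
  obtain ⟨-, g, -⟩ := h
  exact ⟨g 0 0⟩

theorem _root_.Vale.Agent.P277.T3.ThinM.union (h : ThinM n k S) (h' : ThinM n k S') :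
    ThinM n k (S ∪ S') := by
  have := h.nonempty
  rw [union_eq_iUnion]
  exact thinM_iUnion fun b => by cases b <;> assumption

/-- the notion is local -/
theorem thinM_of_local [Nonempty M] [SecondCountableTopology M]
    (h : ∀ x ∈ S, ∃ N ∈ 𝓝 x, ThinM n k (N ∩ S)) : ThinM n k S := by
  choose! N hN hd using h
  obtain ⟨t, htT, htc, ht⟩ := TopologicalSpace.countable_cover_nhdsWithin
    (f := N) (s := S) fun p hp => mem_nhdsWithin_of_mem_nhds (hN p hp)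
  refine (thinM_biUnion htc fun p hp => hd p (htT hp)).mono fun x hx => ?_
  obtain ⟨p, hp, hxp⟩ := mem_iUnion₂.1 (ht hx)
  exact mem_iUnion₂.2 ⟨p, hp, hxp, hx⟩

theorem thinM_of_cv [IsManifold 𝓘(ℂ, Cm n) ω M] {e : Chart n M} (he : e ∈ atlas (Cm n) M)
    {T : Set (Cm n)} (hT : Cv k T) (hTe : T ⊆ e.target) [Nonempty M] :
    ThinM n k (e.symm '' T) := by
  obtain ⟨Ω, g, h1, h2, h3⟩ := hT
  refine ⟨fun l => {p | p ∈ Ω l ∧ g l p ∈ e.target}, fun l p => e.symm (g l p), fun l => ?_,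
    fun l p hp => ⟨?_, fun e' he' => ?_⟩, ?_⟩
  · rw [isOpen_iff_mem_nhds]
    intro p hp
    filter_upwards [(h1 l).mem_nhds hp.1,
      (h2 l p hp.1).continuousAt.eventually (e.open_target.mem_nhds hp.2)] with q hq hq'
      using ⟨hq, hq'⟩
  · exact ContinuousAt.comp (g := e.symm) (f := g l) (e.continuousAt_symm hp.2)
      (h2 l p hp.1).continuousAt
  · have h4 : At e (e.symm (g l p)) := ⟨he, e.map_target hp.2⟩
    have h5 := chg_analyticAt he' h4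
    rw [e.right_inv hp.2] at h5
    exact AnalyticAt.fun_comp (g := fun z => e' (e.symm z)) (f := g l) h5 (h2 l p hp.1)
  · rintro _ ⟨x, hx, rfl⟩
    obtain ⟨l, p, hp, hpx⟩ := mem_iUnion.1 (h3 hx)
    exact mem_iUnion.2 ⟨l, p, ⟨hp, by rw [hpx]; exact hTe hx⟩, by simp only [hpx]⟩

end thin

/-- (HYP) -/
theorem stHyp : StHyp := by
  intro H _ _ _ _ _ _ U E hU hE hcl
  refine thinM_of_local fun y hy => ?_
  obtain ⟨hyU, hyE, -⟩ := hy
  obtain ⟨k, h, hh, hev⟩ := hE y hyU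
  set e := chartAt (Cm 3) y with he
  have hAt : At e y := at_chartAt y
  -- a small ball in the chart
  have h1 : ∀ᶠ z in 𝓝 (e y), z ∈ e.target ∧ e.symm z ∈ U ∧
      (e.symm z ∈ E ↔ ∀ i, h i (e.symm z) = 0) ∧
      ∀ i, AnalyticAt ℂ (fun z => h i (e.symm z)) z := by
    refine (e.open_target.eventually_mem (e.map_source hAt.2)).and
      ((ev_symm hAt.2 (hU.eventually_mem hyU)).and ((ev_symm hAt.2 hev).and ?_))
    exact eventually_all.2 fun i => (hh i e hAt).eventually_analyticAt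
  obtain ⟨r, hr, hball⟩ := Metric.eventually_nhds_iff_ball.1 h1
  set B := ball (e y) r with hB
  have hyB : e y ∈ B := mem_ball_self hr
  set N : Set H := e.source ∩ e ⁻¹' B with hN
  have hNo : IsOpen N := e.isOpen_inter_preimage isOpen_ball
  have hyN : y ∈ N := ⟨hAt.2, hyB⟩
  -- one of the functions is not zero
  obtain ⟨i₀, z₀, hz₀, hne⟩ : ∃ i₀, ∃ z₀ ∈ B, h i₀ (e.symm z₀) ≠ 0 := by
    obtain ⟨y', hy'N, hy'E⟩ := mem_closure_iff_nhds.1 (hcl hyU) N (hNo.mem_nhds hyN)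
    have h2 := (hball (e y') hy'N.2).2.2.1
    rw [e.left_inv hy'N.1] at h2
    have h3 : ¬ ∀ i, h i y' = 0 := fun h => hy'E (h2.2 h)
    push Not at h3
    obtain ⟨i, hi⟩ := h3
    exact ⟨i, e y', hy'N.2, by rwa [e.left_inv hy'N.1]⟩
  have h0 : ∀ z ∈ B, ¬ (fun z => h i₀ (e.symm z)) =ᶠ[𝓝 z] 0 := by
    intro z hz hcon
    have h2 : AnalyticOnNhd ℂ (fun z => h i₀ (e.symm z)) B := fun z hz => (hball z hz).2.2.2 i₀
    exact hne (h2.eqOn_zero_of_preconnected_of_eventuallyEq_zero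
      (convex_ball (e y) r).isPreconnected hz hcon hz₀)
  have key := hyp_local (n := 1) (A := e.symm ⁻¹' E) isOpen_ball
    (fun i z => h i (e.symm z)) (fun i z hz => (hball z hz).2.2.2 i) i₀ h0
    fun z hz => (hball z hz).2.2.1
  refine ⟨N, hNo.mem_nhds hyN, (thinM_of_cv hAt.1 key fun z hz => (hball z hz.1).1).mono ?_⟩
  rintro y' ⟨hy'N, hy'U, hy'E, hy'⟩
  refine ⟨e y', ⟨hy'N.2, ?_, fun hcon => hy' ?_⟩, e.left_inv hy'N.1⟩
  · show e.symm (e y') ∈ E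
    rwa [e.left_inv hy'N.1]
  · obtain ⟨g, hg1, hg2, hg3, hg4⟩ := hcon
    refine ⟨e, ⟨hAt.1, hy'N.1⟩, g, hg1, hg2, hg3, ?_⟩
    filter_upwards [(e.continuousAt hy'N.1).eventually hg4, e.open_source.mem_nhds hy'N.1]
      with y'' h2 h3
    rw [← h2]
    show _ ↔ e.symm (e y'') ∈ E
    rw [e.left_inv h3]

end Vale.Agent.P277.H335.HY
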