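import Vale.Agent.P277.H335.Hyp
import Vale.Agent.P277.H615.TBr
import Vale.Agent.P277.H615.D0
import Vale.Agent.P277.H884.L0

/-!
# P277, T3: wedges lift to `Y` outside thin sets (LIFTS 0, LIFTS 1)
-/

open scoped Manifold ContDiff Topology
open Vale.Agent.P272.K Vale.Agent.P285.H281.FD Set Filter Metric

noncomputable section

namespace Vale.Agent.P277.H335.LI

open Vale.Agent.P277.T3 Vale.Agent.P277.H762 Vale.Agent.P277.H335.HY Vale.Agent.P277.H884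

/-- (L0) with control of the bad set -/
theorem l0r {Y : Type} [TopologicalSpace Y] [ChartedSpace (Cm 4) Y] {W X : CSp}
    (hX : IsNormal 4 X) {r : ℕ} {v : Y → W.pt}
    {p : W.pt → X.pt} {P : Bd W.pt} {Gd : Fin r → Set Y} (hp : T2.IsRes v p P Gd)
    {B₀ : Set (Cm 4)} (hB₀ : IsOpen B₀) {w₀ : Cm 4} (hw₀ : w₀ ∈ B₀) (hw00 : w₀ 0 = 0)
    {γ : Cm 4 → X.pt} (hγ : ∀ w ∈ B₀, HolAt X γ w)
    (hdense : B₀ ⊆ closure {w | w ∈ B₀ ∧ γ w ∈ (fun y => p (v y)) '' (⋃ l, Gd l)ᶜ}) :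
    ∃ (ρ : ℝ) (g : Cm 4 → ℂ), 0 < ρ ∧ ball w₀ ρ ⊆ B₀ ∧ (∀ w ∈ ball w₀ ρ, AnalyticAt ℂ g w) ∧
      (∃ w₁ ∈ ball w₀ ρ, w₁ 0 = 0 ∧ g w₁ ≠ 0) ∧
      ∀ w₁ ∈ ball w₀ ρ, g w₁ ≠ 0 → ∃ (B₁ : Set (Cm 4)) (γ₀ : Cm 4 → Y), IsOpen B₁ ∧ w₁ ∈ B₁ ∧
      B₁ ⊆ B₀ ∧ ∀ w ∈ B₁, ContinuousAt γ₀ w ∧ p (v (γ₀ w)) = γ w ∧
        ∀ e : Chart 4 Y, At e (γ₀ w) → AnalyticAt ℂ (fun w => e (γ₀ w)) w := by
  set L := Bd.inv P with hLdef
  have hL : IsLBx W L := isLBx_inv hp.lb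
  obtain ⟨V₁, k, N, s, hV₁, hzV₁, hk, hs, hsnz, hssep, hsemb⟩ := hp.ample (γ w₀)
  obtain ⟨V₂, τ, hV₂, hzV₂, hτ, hτne⟩ := hp.eff (γ w₀)
  set V := V₁ ∩ V₂ with hVdef
  have hV : IsOpen V := hV₁.inter hV₂
  have hAmp : Amp W X p L V k N s :=
    (⟨fun l => isSecx_inv_inv (hs l), hsnz, hssep, hsemb⟩ : Amp W X p L V₁ k N s).mono
      inter_subset_left
  have hev : ∀ᶠ w in 𝓝 w₀, w ∈ B₀ ∧ γ w ∈ V :=
    (hB₀.eventually_mem hw₀).and ((hγ w₀ hw₀).1.eventually (hV.mem_nhds ⟨hzV₁, hzV₂⟩))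
  obtain ⟨ρ, hρ, hball⟩ := Metric.eventually_nhds_iff_ball.1 hev
  set B := Metric.ball w₀ ρ with hB
  set R : Set X.pt := (fun y => p (v y)) '' (⋃ l, Gd l)ᶜ with hR
  obtain ⟨w', hw'B, hw'W, hw'R⟩ : ∃ w', w' ∈ B ∧ w' ∈ B₀ ∧ γ w' ∈ R := by
    obtain ⟨v, hv, hv'⟩ := mem_closure_iff_nhds.1 (hdense hw₀) B (Metric.ball_mem_nhds _ hρ)
    exact ⟨v, hv, hv'.1, hv'.2⟩
  -- the functions
  have hfun : ∀ l, ∃ F : W.pt → ℂ, (∀ x ∈ p ⁻¹' V, W.Hol F x) ∧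
      ∀ a x, x ∈ p ⁻¹' V → x ∈ L.U a → F x = s l a x * τ a x ^ k := by
    intro l
    refine glue hL (hV.preimage hp.cont) (fun a x => s l a x * τ a x ^ k) (fun a x hx ha => ?_) ?_
    · exact hol_mul ((hAmp.sec l).holo a x hx ha) (hol_pow (hτ.holo a x hx.2 ha) k)
    · intro a b x hx ha hb
      have h1 : s l a x = (L.g a b x)⁻¹ ^ k * s l b x := (hAmp.sec l).change a b x hx ha hb
      have h2 : τ a x = L.g a b x * τ b x := hτ.change a b x hx.2 ha hb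
      have h3 : L.g a b x ≠ 0 := hL.ne_zero a b x ha hb
      rw [h1, h2, mul_pow, inv_pow]
      field_simp
  choose F hF hF' using hfun
  choose h hh hh' using fun l => descend_res hX hp hV (F := F l) fun x hx => hF l x hx
  set H : Fin (N + 1) → Cm 4 → ℂ := fun l w => h l (γ w) with hHdef
  have hH : ∀ l, ∀ w ∈ B, AnalyticAt ℂ (H l) w := fun l w hw =>
    (hγ w (hball w hw).1).analyticAt (hh l _ (hball w hw).2)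
  have hval : ∀ w ∈ B, ∀ y ∉ ⋃ l, Gd l, p (v y) = γ w → ∀ a, v y ∈ L.U a →
      τ a (v y) ≠ 0 ∧ ∀ l, H l w = s l a (v y) * τ a (v y) ^ k := by
    intro w hw y hy hyw a ha
    have hyV : p (v y) ∈ V := by rw [hyw]; exact (hball w hw).2
    refine ⟨hτne y a hyV.2 hy ha, fun l => ?_⟩
    show h l (γ w) = _
    rw [← hyw, hh' l y hy hyV, hF' l a _ hyV ha]
  obtain ⟨y', hy', hyw'⟩ := hw'R
  obtain ⟨a', ha'⟩ := hL.cover (v y')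
  obtain ⟨m, hm⟩ := hAmp.nz (v y') a' (by
    have h1 : p (v y') = γ w' := hyw'
    rw [h1]; exact (hball w' hw'B).2) ha'
  have hHm : H m w' ≠ 0 := by
    obtain ⟨h1, h2⟩ := hval w' hw'B y' hy' hyw' a' ha'
    rw [h2 m]
    exact mul_ne_zero hm (pow_ne_zero _ h1)
  obtain ⟨κ, G, hG, hHG, i₁, w₁, hw₁B, hw₁0, hGw₁⟩ := exists_div hw00 H
    (fun l w hw => (hH l w hw).differentiableAt.differentiableWithinAt) hw'B hHm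
  have hGan : ∀ l, ∀ w ∈ B, AnalyticAt ℂ (G l) w := fun l w hw =>
    P268.analyticAt_of_differentiableOn Metric.isOpen_ball (hG l) hw
  set W₁ : Set (Cm 4) := B ∩ G i₁ ⁻¹' {0}ᶜ with hW₁def
  have hW₁ : IsOpen W₁ :=
    (hG i₁).continuousOn.isOpen_inter_preimage Metric.isOpen_ball isOpen_compl_singleton
  set D : Set (Cm 4) := {w | γ w ∈ R ∧ H m w ≠ 0} with hDdef
  have hD : W₁ ⊆ closure D := by
    intro w hw
    rw [mem_closure_iff_nhds]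
    intro T hT
    by_contra hno
    rw [not_nonempty_iff_eq_empty] at hno
    have hz : H m =ᶠ[𝓝 w] 0 := by
      have hT' : ∀ᶠ v in 𝓝 w, v ∈ T ∧ v ∈ B := inter_mem hT (Metric.isOpen_ball.mem_nhds hw.1)
      filter_upwards [hT'.eventually_nhds] with v hv
      by_contra hHv
      have e1 : ∀ᶠ u in 𝓝 v, H m u ≠ 0 :=
        (hH m v hv.self_of_nhds.2).continuousAt.eventually_ne hHv
      obtain ⟨u, ⟨hu1, hu2⟩, hu3⟩ := mem_closure_iff_nhds.1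
        (hdense (hball v hv.self_of_nhds.2).1) _ (hv.and e1)
      have hu4 : u ∈ T ∩ D := ⟨hu1.1, hu3.2, hu2⟩
      rw [hno] at hu4
      exact hu4
    have h1 : AnalyticOnNhd ℂ (H m) B := hH m
    exact hHm (h1.eqOn_zero_of_preconnected_of_eventuallyEq_zero
      (convex_ball w₀ ρ).isPreconnected hw.1 hz hw'B)
  have hDL : ∀ w ∈ W₁, w ∈ D → ∃ x, Lies p L s γ G i₁ w x := by
    rintro w ⟨hwB, hwG⟩ ⟨⟨y, hy, hyw⟩, hwH⟩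
    refine ⟨v y, hyw, fun a ha i => ?_⟩
    obtain ⟨hτ0, hHv⟩ := hval w hwB y hy hyw a ha
    set x := v y with hx
    have e : ∀ i, w 0 ^ κ * G i w = s i a x * τ a x ^ k := fun i => by
      rw [← hHG i w hwB, hHv i]
    have h0 : w 0 ^ κ ≠ 0 := by
      have h1 : w 0 ^ κ * G m w ≠ 0 := by rw [← hHG m w hwB]; exact hwH
      exact left_ne_zero_of_mul h1
    have hc : τ a x ^ k ≠ 0 := pow_ne_zero _ hτ0
    refine mul_right_cancel₀ (mul_ne_zero h0 hc) ?_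
    calc s i a x * G i₁ w * (w 0 ^ κ * τ a x ^ k)
        = (s i a x * τ a x ^ k) * (w 0 ^ κ * G i₁ w) := by ring
      _ = (w 0 ^ κ * G i w) * (s i₁ a x * τ a x ^ k) := by rw [e i, e i₁]
      _ = _ := by ring
  have : Nonempty W.pt := ⟨v y'⟩
  obtain ⟨ξ, hξ⟩ := exists_lift hAmp hp.cont hL hW₁ (fun w hw => hγ w (hball w hw.1).1)
    (fun w hw => (hball w hw.1).2) (fun l w hw => hGan l w hw.1) (fun w hw => hw.2) hD hDL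
  have hvinv : ∀ x, v (hp.emb.inv y' x) = x := fun x => by
    obtain ⟨y, rfl⟩ := hp.surj x
    exact hp.emb.apply_inv y' ⟨y, mem_univ y, rfl⟩
  refine ⟨ρ, G i₁, hρ, fun w hw => (hball w hw).1, fun w hw => hGan i₁ w hw,
    ⟨w₁, hw₁B, hw₁0, hGw₁⟩, fun w₂ hw₂ hGw₂ => ⟨W₁, fun w => hp.emb.inv y' (ξ w), hW₁,
    ⟨hw₂, hGw₂⟩, fun w hw => (hball w hw.1).1, fun w hw => ⟨?_, ?_, fun e he => ?_⟩⟩⟩
  · obtain ⟨y, hy⟩ := hp.surj (ξ w)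
    have h1 := hp.emb.inv_continuousAt y' (mem_univ y)
    rw [hy] at h1
    exact ContinuousAt.comp (g := hp.emb.inv y') h1 (hξ w hw).1.1
  · show p (v (hp.emb.inv y' (ξ w))) = γ w
    rw [hvinv]
    exact (hξ w hw).2.1
  · refine AnalyticAt.pi fun i => ?_
    have h1 := hp.emb.hol_chart y' (mem_univ _) he i
    have h2 : v (hp.emb.inv y' (ξ w)) = ξ w := hvinv _
    rw [h2] at h1
    exact (hξ w hw).1.analyticAt h1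

/-- (LIFTS 0) -/
theorem stLifts0 : StLifts0 := by
  intro Y _ _ _ _ _ W X hX r v p P G hp B hB γ hγ hdense
  suffices h : Cv 2 {w | w ∈ B ∧ w 0 = 0 ∧ ¬ LiftAt (⋃ l, G l)ᶜ (fun y => p (v y)) γ w} from h
  have hvinj : Function.Injective v := injOn_univ.1 hp.emb.inj
  refine cv_of_local fun w₀ hw₀ => ?_
  obtain ⟨ρ, g, hρ, hsub, hg, ⟨w₁, hw₁, hw₁0, hgw₁⟩, hgood⟩ := l0r hX hp hB hw₀.1 hw₀.2.1 hγ hdense
  refine ⟨ball w₀ ρ, ball_mem_nhds _ hρ, (cv_slice (n := 2) hw₀.2.1 hg hw₁ hw₁0 hgw₁).mono ?_⟩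
  rintro w ⟨hw, hwB, hw0, hwL⟩
  refine ⟨hw, hw0, ?_⟩
  by_contra hgw
  obtain ⟨B₁, γ₀, hB₁, hwB₁, -, hγ₀⟩ := hgood w hw hgw
  refine hwL ⟨γ₀, (hγ₀ w hwB₁).1, (hγ₀ w hwB₁).2.2, ?_⟩
  filter_upwards [hB₁.mem_nhds hwB₁] with w' hw'
  rintro ⟨y, hy, hyw⟩
  have h1 : p (v (γ₀ w')) = p (v y) := by
    rw [(hγ₀ w' hw').2.1]
    exact hyw.symm
  have h2 : γ₀ w' = y := hvinj (hp.inj y _ hy h1)
  exact ⟨by rw [h2]; exact hy, (hγ₀ w' hw').2.1⟩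

/-- (LIFTS 1) -/
theorem stLifts1 : StLifts1 := by
  intro Y _ _ _ _ _ X Z X' f f' A L L' hF O v hv hdim hL O' v' hv' hO' hff W hW γ' hγ' hdense
  suffices h : Cv 2 {w | w ∈ W ∧ w 0 = 0 ∧ ¬ LiftAt O' v' γ' w} from h
  have hkey : ∀ y ∈ O', ∀ x, f x = f' (v' y) → y ∈ O ∧ x = v y := by
    intro y hy x hx
    have h1 : y ∈ O \ v ⁻¹' (f ⁻¹' A) := by rw [← hO']; exact hy
    refine ⟨h1.1, hF.small.inj _ _ h1.2 ?_⟩
    rw [hx, hff y hy]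
  have hdense' : ∀ W₁ ⊆ W, IsOpen W₁ → ∀ P : Cm 4 → Prop, (∀ w ∈ W₁, γ' w ∈ v' '' O' → P w) →
      W₁ ⊆ closure {w | w ∈ W₁ ∧ P w} := by
    intro W₁ hW₁ hW₁o P hP w hw
    rw [mem_closure_iff_nhds]
    intro T hT
    obtain ⟨w', ⟨h1, h2⟩, h3, h4⟩ := mem_closure_iff_nhds.1 (hdense (hW₁ hw)) (T ∩ W₁)
      (inter_mem hT (hW₁o.mem_nhds hw))
    exact ⟨w', h1, h2, hP w' h2 h4⟩
  obtain ⟨hF₀, hAA, hAsub⟩ := H615.stD0 X Z X' f f' A L L' hF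
  obtain ⟨t, ht⟩ := hF₀.iso
  refine cv_of_local fun w₀ hw₀ => ?_
  obtain ⟨r, g, hr, hsub, hg, ⟨w₁, hw₁, hw₁0, hgw₁⟩, hgood⟩ := H615.stTBr X Z X' f f' (Amin f) _ _
    hF₀ rfl t ht W hW w₀ hw₀.1 hw₀.2.1 γ' hγ' (hdense' W Subset.rfl hW _ (by
      rintro w hw ⟨y, hy, hyw⟩ hcon
      have h1 : y ∈ O \ v ⁻¹' (f ⁻¹' A) := by rw [← hO']; exact hy
      refine h1.2 (hAsub ?_)
      rw [← hff y hy, hyw]
      exact hcon))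
  refine ⟨ball w₀ r, ball_mem_nhds _ hr, ?_⟩
  have h1 := cv_slice (n := 2) hw₀.2.1 hg hw₁ hw₁0 hgw₁
  have h2 : Cv 2 {w | w ∈ ball w₀ r ∧ w 0 = 0 ∧ g w ≠ 0 ∧ ¬ LiftAt O' v' γ' w} := by
    refine cv_of_local fun w₂ hw₂ => ?_
    obtain ⟨W₁, γ, k, hW₁, hw₂W₁, hW₁W, hγ, -, -⟩ := hgood w₂ hw₂.1 hw₂.2.1 hw₂.2.2.1
    refine ⟨W₁, hW₁.mem_nhds hw₂W₁, ?_⟩
    have h3 : ∀ w ∈ W₁, γ' w ∈ v' '' O' → γ w ∈ v '' O := by
      rintro w hw ⟨y, hy, hyw⟩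
      obtain ⟨h4, h5⟩ := hkey y hy (γ w) (by rw [(hγ w hw).2, hyw])
      exact ⟨y, h4, h5.symm⟩
    have h4 : Cv 2 {w | w ∈ W₁ ∧ w 0 = 0 ∧ ¬ LiftAt O v γ w} :=
      hL W₁ hW₁ γ (fun w hw => (hγ w hw).1) (hdense' W₁ hW₁W hW₁ _ h3)
    refine h4.mono ?_
    rintro w ⟨hw, -, hw0, -, hwL⟩
    refine ⟨hw, hw0, ?_⟩
    rintro ⟨γ₀, h5, h6, h7⟩
    refine hwL ⟨γ₀, h5, h6, ?_⟩
    filter_upwards [h7, hW₁.mem_nhds hw] with w' h8 h9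
    rintro ⟨y, hy, hyw⟩
    obtain ⟨h10, h11⟩ := hkey y hy (γ w') (by rw [(hγ w' h9).2, hyw])
    obtain ⟨h12, h13⟩ := h8 ⟨y, h10, h11.symm⟩
    have h14 : γ₀ w' = y := hv.inj h12 h10 (by rw [h13, h11])
    rw [h14]
    exact ⟨hy, hyw⟩
  refine (h1.union h2).mono ?_
  rintro w ⟨hw, hwW, hw0, hwL⟩
  by_cases hgw : g w = 0
  · exact Or.inl ⟨hw, hw0, hgw⟩
  · exact Or.inr ⟨hw, hw0, hgw, hwL⟩

end Vale.Agent.P277.H335.LI
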