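import Vale.Agent.P277.H335.RegN
import Vale.Agent.P277.H371.N.TowerN
import Vale.Agent.P277.H29.ClosN

/-!
# P277, T4: (REGN)
-/

open scoped Manifold ContDiff Topology
open Vale.Agent.P272.K Vale.Agent.P285.H281.FD Vale.Agent.P267.H175 Set Metric Filter

noncomputable section

namespace Vale.Agent.P277.H335.RR

open Vale.Agent.P277 Vale.Agent.P277.T2 Vale.Agent.P277.H335 Vale.Agent.P277.H615

/-- (REG core) for wedges outside the closed set `Nc` -/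
theorem regCoreN {Y : Type} [TopologicalSpace Y] [T2Space Y] [CompactSpace Y]
    [ChartedSpace (Cm 4) Y] [IsManifold 𝓘(ℂ, Cm 4) ω Y]
    {χ : Chart 4 Y → Cm 4 → Matrix (Fin 4) (Fin 4) ℂ}
    (hχ : IsKahler χ) {k : ℕ} {M : Fin k → Bd Y} (hM : ∀ e, IsLB 4 (M e)) (hNef : ∀ e, Nef χ (M e))
    {m : Fin k → ℕ} (hm : ∀ e, 1 ≤ m e) {ρ : Fin k → ℝ} (hρ : ∀ e, 0 < ρ e)
    (hρm : ∑ e, ρ e * m e = 1)
    {X : CSp} (hX : IsNormal 4 X) {O : Set Y} {v : Y → X.pt} (hv : IsOpenEmb X O v)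
    (hO : DimLe X 2 (v '' O)ᶜ) {L : Fin k → Bd X.pt} (hL : ∀ e, IsLBx X (L e)) {Q : Fin k → ℕ}
    (hQ : ∀ e, 1 ≤ Q e)
    {T : ∀ e, (L e).ι → ((((Bd.can 4 Y).pow (m e)).mul (M e)).pow (Q e)).ι → Y → ℂ}
    (hT : ∀ e, IsIsoY O v (L e) ((((Bd.can 4 Y).pow (m e)).mul (M e)).pow (Q e)) (T e))
    {S : Set X.pt} (hSan : IsAn X univ S) (hSO : S ⊆ (v '' O)ᶜ) {Nc : Set X.pt}
    (hNc : IsClosed Nc) (hSN : DimLe X 1 (S ∩ Nc))
    (hlifts : ∀ (W : Set (Cm 4)) (w₀ : Cm 4) (φ : Cm 4 → X.pt), IsOpen W → w₀ ∈ W → w₀ 0 = 0 →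
      (∀ w ∈ W, HolAt X φ w) → (∀ w ∈ W, w 0 = 0 → φ w ∈ S) → (∀ w ∈ W, φ w ∉ Nc) →
      W ⊆ closure {w | w ∈ W ∧ φ w ∈ v '' O} →
      ∃ w₁ ∈ W, w₁ 0 = 0 ∧ LiftV O v L M m Q T ρ φ w₁) :
    DimLe X 1 {x | x ∈ S ∧ ¬ IsReg 4 X x} := by
  have hS2 : DimLe X 2 S := hO.mono hSO
  refine H371.sing_global hX hv hO hSan hS2 fun U₀ hU₀ hS1 => ?_
  have hS1' : ¬ DimLe X 1 (S ∩ (U₀ ∩ Ncᶜ)) := fun h => hS1 ((h.union hSN).mono (by
    intro x hx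
    by_cases hxN : x ∈ Nc
    · exact Or.inr ⟨hx.1, hxN⟩
    · exact Or.inl ⟨hx.1, hx.2, hxN⟩))
  obtain ⟨V', G, c, r, d, lam, θ, n, ζ, hVU, hg, hζ⟩ := TX.stMinLoc_final Y X hX O v hv
    hO S hSan (U₀ ∩ Ncᶜ) (hU₀.inter hNc.isOpen_compl) (fun x hx => hSO hx.1) hS1'
  have hd : d = 1 := RC.sharpV hX hχ hM hNef hm hρ hρm hv hO hSan hS2 hL hQ hT hg hζ
    fun W w₀ φ hW hw₀ h0 hφ hS hcl hV =>
      hlifts W w₀ φ hW hw₀ h0 hφ hS (fun w hw => (hVU (hV w hw)).2) hcl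
  subst hd
  have hc := hg.toIsCov
  obtain ⟨x, hxV, hxc⟩ := (hc.finite c (mem_ball_self hc.pos)).2
  have hxS : x ∈ S := (hg.memS x hxV).2 (by rw [hxc]; exact ⟨hg.c0, hg.c1⟩)
  obtain ⟨s, hs1, hs2⟩ := (H335.IsCov.toPre hc).sec_of_one (fun a ha b hb hab hθ => by
    obtain ⟨y, hy⟩ := hc.enum (G a) (hc.maps a ha) hθ
    obtain ⟨k, hk⟩ := (hy.2 a).2 ⟨ha, rfl⟩
    obtain ⟨l, hl⟩ := (hy.2 b).2 ⟨hb, hab.symm⟩
    rw [← hk, ← hl, Subsingleton.elim k l]) ⟨x, hxV⟩ hζ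
  exact ⟨x, ⟨hxS, (hVU hxV).1⟩, H371.isReg_of_sec hc.holo ⟨V', s, hc.isOpen, hxV, Subset.rfl,
    hc.openMap _ Subset.rfl hc.isOpen, fun y hy => ⟨hs2 y hy, (hs1 _ (hc.maps y hy)).2.2⟩⟩⟩

/-- (REGN) -/
theorem stRegN : T3.StRegN := by
  intro Y _ _ _ _ _ χ k s M m ρ H _ _ _ _ _ _ ι sg W X Z r v₀ p P G f f' A L c σ n t I I' N h j
  have hNc := T3.IsPN.isClosed h
  have hsum : ∑ e : Fin k, ρ (Fin.castAdd s e) * m (Fin.castAdd s e) = 1 := by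
    have h1 := h.sum
    rw [Fin.sum_univ_add] at h1
    simpa only [h.m0, Nat.cast_zero, mul_zero, Finset.sum_const_zero, add_zero] using h1
  have hk : 1 ≤ k := by
    rcases Nat.eq_zero_or_pos k with rfl | h1
    · simp at hsum
    · exact h1
  have hNB := fun e => ctBd (Y := Y) (h.lb e) (m e)
  have hsec : ∀ i : Fin s, SecRel (L 0 (Fin.natAdd k i))
      (((Bd.can 4 Y).pow (m (Fin.natAdd k i))).mul (M (Fin.natAdd k i))) (⋃ l, G l)ᶜ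
      (fun y => p (v₀ y)) 1 (c 0 (Fin.natAdd k i)) (t (Fin.natAdd k i))
      (fun b y => sg i b.2 y) := by
    intro i
    have h1 := (h.flip 0).sec i
    refine ⟨σ 0 i, ⟨fun a x hx ha => h1.holo a x hx ha, fun a b x hx ha hb => ?_⟩, ?_⟩
    · show σ 0 i a x = (L 0 (Fin.natAdd k i)).g a b x ^ 1 * σ 0 i b x
      rw [pow_one]
      exact h1.change a b x hx ha hb
    · rintro y hy a ⟨ch, b⟩ ha ⟨hb1, hb2⟩
      rw [mul_comm]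
      exact h.corr i a ch b y hy ha hb1 hb2
  have hn : ∀ l, 0 ≤ ∑ e, ρ e * n e l / c 0 e ∨ G l ⊆ T3.bad ι G I I' := by
    intro l
    by_cases hl : l ∈ I
    · exact Or.inr fun y hy => Or.inl (mem_iUnion₂.2 ⟨l, hl, hy⟩)
    · exact Or.inl (h.canon l hl)
  obtain ⟨O, v', P', Q', T, hTw, hsub, hS⟩ := H371.N.exists_towerN H884.stL0 (k := k + s) (by omega)
    (NB := fun e => ((Bd.can 4 Y).pow (m e)).mul (M e)) (fun e => (hNB e).isOpen)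
    (fun e => (hNB e).cover) (β := Fin.natAdd k) (h.flip 0).flip.normal h.res h.c1 h.cmp hn
    hsec (fun j => (h.flip j).flip) h.N0 h.Nsucc j
  obtain ⟨pp, qq, s', d, a, hd, hcpq, hf, hda⟩ := exists_flipD (h.flip j).flip (h.c1 j)
  have hdn : ∀ i, range (ι i) ⊆ closure (range (ι i) ∩ O) := by
    intro i
    have hne : Nonempty Y := ⟨ι i (Classical.arbitrary (H i))⟩
    exact (hyp_dense h.res.emb h.res.hyp h.res.closed (isHyp_of_bd (h.lb _) (h.bd i))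
      (isPreconnected_range (h.bd i).sub.cont)
      (fun l hl => h.ne i (hl.trans (subset_iUnion G l)))
      (hTw.tw ⟨0, by omega⟩).emb.isOpen (hTw.tw ⟨0, by omega⟩).thin).2.1
  have hlt : ∀ i : Fin s, ρ (Fin.natAdd k i) < 1 ∨ range (ι i) ⊆ T3.bad ι G I I' := by
    intro i
    by_cases hi : i ∈ I'
    · exact Or.inr fun y hy => Or.inr (mem_iUnion₂.2 ⟨i, hi, hy⟩)
    · exact Or.inl (h.lt i hi)
  refine regCoreN h.kahler (M := fun e => M (Fin.castAdd s e)) (fun e => h.lb _) h.nef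
    (m := fun e => m (Fin.castAdd s e)) h.pos (ρ := fun e => ρ (Fin.castAdd s e))
    (fun e => h.rho _) hsum
    hf.normal' (hTw.tw ⟨0, by omega⟩).emb (hTw.tw ⟨0, by omega⟩).dim
    (L := fun e => (L (j + 1) (Fin.castAdd s e)).pow (P' (Fin.castAdd s e)))
    (fun e => (hTw.tw _).lb) (Q := fun e => Q' (Fin.castAdd s e)) (fun e => (hTw.tw _).hQ)
    (T := fun e => T (Fin.castAdd s e)) (fun e => (hTw.tw _).iso)
    (IsAn.preimage (fun x => hf.small'.holMap x) hf.small'.an) hsub (hNc (j + 1))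
    ((h.N1 j).mono fun x hx => ⟨hx.2, hx.1⟩) ?_
  intro B w₀ φ hB hw₀ h0 hφ hSc hN hcl
  refine liftV_of_chainN (S := f' j ⁻¹' Amin (f j)) (Nc := N (j + 1)) (N := T3.bad ι G I I')
    h.lb hTw.tw hTw.lb ?_ h.rho hlt h.bd h.disj hdn hS hsub hB hw₀ h0 hφ hSc hN hcl
  intro W w₀ γ' i hW hw₀ h0 hγ hcl hi hSN
  obtain ⟨w₁, hw₁, hw₁0, W₁, γ₀, ch, cc, q, g1, g2, g3, g4, g5, g6, g7, -, g8⟩ :=
    hTw.chain W w₀ γ' i hW hw₀ h0 hγ hcl hi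
  obtain ⟨g9, g10⟩ := g8 hSN
  exact ⟨w₁, hw₁, hw₁0, W₁, γ₀, ch, cc, q, g1, g2, g3, g4, g5, g6, g7, g9, g10⟩

end Vale.Agent.P277.H335.RR
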