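import Vale.Agent.P277.H335.RegB

/-!
# P277, T3: (REGB)
-/

open scoped Manifold ContDiff Topology
open Vale.Agent.P272.K Vale.Agent.P285.H281.FD Vale.Agent.P267.H175 Set Metric Filter

noncomputable section

namespace Vale.Agent.P277.H335.RR

open Vale.Agent.P277 Vale.Agent.P277.T2 Vale.Agent.P277.H335 Vale.Agent.P277.H615

/-- (REGB) -/
theorem stRegB : T3.StRegB := by
  intro Y _ _ _ _ _ χ k s M m ρ H _ _ _ _ _ _ ι sg W X Z r v₀ p P G f f' A L c σ n t h j
  have hsum : ∑ e : Fin k, ρ (Fin.castAdd s e) * m (Fin.castAdd s e) = 1 := by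
    have h1 := h.sum
    rw [Fin.sum_univ_add] at h1
    simpa only [h.m0, Nat.cast_zero, mul_zero, Finset.sum_const_zero, add_zero] using h1
  have hk : 1 ≤ k := by
    rcases Nat.eq_zero_or_pos k with rfl | h1
    · simp at hsum
    · exact h1
  have hNB := fun e => ctBd (Y := Y) (h.lb e) (m e)
  have hsec : ∀ i : Fin s, SecRel (L 0 (Fin.natAdd k i))
      (((Bd.can 4 Y).pow (m (Fin.natAdd k i))).mul (M (Fin.natAdd k i))) (⋃ l, G l)ᶜ
      (fun y => p (v₀ y)) 1 (c 0 (Fin.natAdd k i)) (t (Fin.natAdd k i))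
      (fun b y => sg i b.2 y) := by
    intro i
    have h1 := (h.flip 0).sec i
    refine ⟨σ 0 i, ⟨fun a x hx ha => h1.holo a x hx ha, fun a b x hx ha hb => ?_⟩, ?_⟩
    · show σ 0 i a x = (L 0 (Fin.natAdd k i)).g a b x ^ 1 * σ 0 i b x
      rw [pow_one]
      exact h1.change a b x hx ha hb
    · rintro y hy a ⟨ch, b⟩ ha ⟨hb1, hb2⟩
      rw [mul_comm]
      exact h.corr i a ch b y hy ha hb1 hb2
  obtain ⟨O, v', P', Q', T, hTw, hsub, hS⟩ := exists_towerB H884.stL0 (k := k + s) (by omega)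
    (NB := fun e => ((Bd.can 4 Y).pow (m e)).mul (M e)) (fun e => (hNB e).isOpen)
    (fun e => (hNB e).cover) (β := Fin.natAdd k) (h.flip 0).flip.normal h.res h.c1 h.cmp h.canon
    hsec (fun j => (h.flip j).flip) j
  obtain ⟨pp, qq, s', d, a, hd, hcpq, hf, hda⟩ := exists_flipD (h.flip j).flip (h.c1 j)
  have hdn : ∀ i, range (ι i) ⊆ closure (range (ι i) ∩ O) := by
    intro i
    have hne : Nonempty Y := ⟨ι i (Classical.arbitrary (H i))⟩
    exact (hyp_dense h.res.emb h.res.hyp h.res.closed (isHyp_of_bd (h.lb _) (h.bd i))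
      (isPreconnected_range (h.bd i).sub.cont)
      (fun l hl => h.ne i (hl.trans (subset_iUnion G l)))
      (hTw.tw ⟨0, by omega⟩).emb.isOpen (hTw.tw ⟨0, by omega⟩).thin).2.1
  refine RC.stRegCore Y χ h.kahler k (fun e => M (Fin.castAdd s e)) (fun e => h.lb _) h.nef
    (fun e => m (Fin.castAdd s e)) h.pos (fun e => ρ (Fin.castAdd s e)) (fun e => h.rho _) hsum
    (X (j + 1)) hf.normal' O v' (hTw.tw ⟨0, by omega⟩).emb (hTw.tw ⟨0, by omega⟩).dim
    (fun e => (L (j + 1) (Fin.castAdd s e)).pow (P' (Fin.castAdd s e))) (fun e => (hTw.tw _).lb)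
    (fun e => Q' (Fin.castAdd s e)) (fun e => (hTw.tw _).hQ) (fun e => T (Fin.castAdd s e))
    (fun e => (hTw.tw _).iso)
    (f' j ⁻¹' Amin (f j)) (IsAn.preimage (fun x => hf.small'.holMap x) hf.small'.an) hsub ?_
  intro B w₀ φ hB hw₀ h0 hφ hSc hcl
  exact liftV_of_chainB h.lb hTw h.rho h.lt h.bd h.disj hdn hS hsub hB hw₀ h0 hφ hSc hcl

end Vale.Agent.P277.H335.RR
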