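import Vale.Agent.P277.H335.RegCore1
import Vale.Agent.P277.H615.Regc

/-!
# P277, REG core: real coefficients and boundary
-/

open scoped Manifold ContDiff ComplexOrder Topology
open Vale.Agent.P272.K Vale.Agent.P285.H281.FD Vale.Agent.P267.H175 Set Metric Filter

noncomputable section

namespace Vale.Agent.P277.H335.RC

open Vale.Agent.P277.TX Vale.Agent.P277.H19 Vale.Agent.P277.H371 Vale.Agent.P277.T2

section
variable {Y : Type} [TopologicalSpace Y] [ChartedSpace (Cm 4) Y] {X : CSp} {O : Set Y}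
  {v : Y → X.pt} {k : ℕ} {L : Fin k → Bd X.pt} {M : Fin k → Bd Y} {m Q : Fin k → ℕ}
  {T : ∀ e, (L e).ι → ((((Bd.can 4 Y).pow (m e)).mul (M e)).pow (Q e)).ι → Y → ℂ}
  {ρ : Fin k → ℝ}

theorem liftV_eventually (hM : ∀ e, IsLB 4 (M e)) (hL : ∀ e, IsLBx X (L e)) {φ : Cm 4 → X.pt}
    {w₁ : Cm 4} (hφ : ContinuousAt φ w₁) (h : LiftV O v L M m Q T ρ φ w₁) :
    ∀ᶠ w in 𝓝 w₁, LiftV O v L M m Q T ρ φ w := by
  obtain ⟨γ, ch, μ, i, K, ν, Φ, J, C, hK, h1, h2, h3, h4, h5, h6, h7, h8, h9, h10⟩ := h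
  have c1 : ∀ᶠ w in 𝓝 w₁, At ch (γ w) := by
    filter_upwards [h1.eventually_mem (ch.open_source.mem_nhds h2.2)] with w hw
    exact ⟨h2.1, hw⟩
  have c3 : ∀ᶠ w in 𝓝 w₁, ∀ e, γ w ∈ (M e).U (μ e) :=
    eventually_all.2 fun e => h1.eventually_mem (((hM e).isOpen (μ e)).mem_nhds (h3 e))
  have c6 : ∀ᶠ w in 𝓝 w₁, ∀ e, φ w ∈ (L e).U (i e) :=
    eventually_all.2 fun e => hφ.eventually_mem (((hL e).isOpen (i e)).mem_nhds (h6 e))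
  have c7 : ∀ᶠ w in 𝓝 w₁, ∀ e, AnalyticAt ℂ (Φ e) w ∧ Φ e w ≠ 0 :=
    eventually_all.2 fun e => (h7 e).1.eventually_analyticAt.and
      ((h7 e).1.continuousAt.eventually_ne (h7 e).2)
  have c8 : ∀ᶠ w in 𝓝 w₁, ∀ e, ∀ᶠ w in 𝓝 w, γ w ∈ O → w 0 ≠ 0 →
      T e (i e) (ch, μ e) (γ w) ^ K = w 0 ^ ν e * Φ e w :=
    eventually_all.2 fun e => (h8 e).eventually_nhds
  filter_upwards [c1.eventually_nhds, c3, h4.eventually_analyticAt, h5.eventually_nhds, c6, c7, c8,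
    h9.eventually_nhds] with w d1 d2 d3 d4 d5 d6 d7 d8
  exact ⟨γ, ch, μ, i, K, ν, Φ, J, C, hK, continuousAt_of_chart d1 d3.continuousAt,
    d1.self_of_nhds, d2, d3, d4, d5, d6, d7, d8, h10⟩

/-- normalised lifts -/
structure VL (O : Set Y) (v : Y → X.pt) (L : Fin k → Bd X.pt) (M : Fin k → Bd Y)
    (m Q : Fin k → ℕ)
    (T : ∀ e, (L e).ι → ((((Bd.can 4 Y).pow (m e)).mul (M e)).pow (Q e)).ι → Y → ℂ)
    (ρ : Fin k → ℝ) (φ : Cm 4 → X.pt) (w₁ : Cm 4) (i₀ : ∀ e, (L e).ι) (γ : Cm 4 → Y)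
    (ch : Chart 4 Y) (μ : ∀ e, (M e).ι) (τ : Fin k → ℝ) (J : ℕ) : Prop where
  cont : ContinuousAt γ w₁
  at' : At ch (γ w₁)
  mem : ∀ e, γ w₁ ∈ (M e).U (μ e)
  an : AnalyticAt ℂ (fun w => ch (γ w)) w₁
  lift : ∀ᶠ w in 𝓝 w₁, φ w ∈ v '' O → γ w ∈ O ∧ v (γ w) = φ w
  bdT : ∀ e, ∃ C : ℝ, ∀ᶠ w in 𝓝 w₁, w 0 ≠ 0 → φ w ∈ v '' O →
    ‖T e (i₀ e) (ch, μ e) (γ w)‖ ≤ C * ‖w 0‖ ^ τ e
  bdJ : ∃ C : ℝ, ∀ᶠ w in 𝓝 w₁, ‖(fderiv ℂ (fun w => ch (γ w)) w).det‖ ≤ C * ‖w 0‖ ^ J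
  pos : 0 < ∑ e, ρ e * (τ e / Q e) + J

theorem le_root {a C t : ℝ} {K : ℕ} {ν : ℤ} (hK : 1 ≤ K) (hC : 0 ≤ C) (ht : 0 < t)
    (h : a ^ K ≤ C * t ^ ν) (ha : 0 ≤ a) :
    a ≤ C ^ ((K : ℝ)⁻¹) * t ^ ((ν : ℝ) / K) := by
  have hK0 : K ≠ 0 := by omega
  have hK' : (K : ℝ) ≠ 0 := by exact_mod_cast hK0
  have hB : 0 ≤ C ^ ((K : ℝ)⁻¹) * t ^ ((ν : ℝ) / K) := by positivity
  refine (pow_le_pow_iff_left₀ ha hB hK0).1 (h.trans (le_of_eq ?_))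
  rw [mul_pow, Real.rpow_inv_natCast_pow hC hK0, ← Real.rpow_natCast (t ^ ((ν : ℝ) / K)) K,
    ← Real.rpow_mul ht.le, div_mul_cancel₀ _ hK', Real.rpow_intCast]

theorem liftV_vl (hM : ∀ e, IsLB 4 (M e)) (hL : ∀ e, IsLBx X (L e))
    (hT : ∀ e, IsIsoY O v (L e) ((((Bd.can 4 Y).pow (m e)).mul (M e)).pow (Q e)) (T e))
    {φ : Cm 4 → X.pt} {w₁ : Cm 4} (hφ : HolAt X φ w₁) {i₀ : ∀ e, (L e).ι}
    (hi₀ : ∀ e, φ w₁ ∈ (L e).U (i₀ e)) (h : LiftV O v L M m Q T ρ φ w₁) :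
    ∃ (γ : Cm 4 → Y) (ch : Chart 4 Y) (μ : ∀ e, (M e).ι) (τ : Fin k → ℝ) (J : ℕ),
      VL O v L M m Q T ρ φ w₁ i₀ γ ch μ τ J := by
  obtain ⟨γ, ch, μ, i, K, ν, Φ, J, C, hK, h1, h2, h3, h4, h5, h6, h7, h8, h9, h10⟩ := h
  refine ⟨γ, ch, μ, fun e => ν e / K, J, h1, h2, h3, h4, h5, fun e => ?_, ⟨C, h9⟩, ?_⟩
  · have c1 : ∀ᶠ w in 𝓝 w₁, At ch (γ w) := by
      filter_upwards [h1.eventually_mem (ch.open_source.mem_nhds h2.2)] with w hw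
      exact ⟨h2.1, hw⟩
    have c2 : ∀ᶠ w in 𝓝 w₁, ‖Φ e w‖ < ‖Φ e w₁‖ + 1 :=
      (h7 e).1.continuousAt.norm.eventually_lt_const (lt_add_one _)
    have c3 : ∀ᶠ w in 𝓝 w₁, ‖(L e).g (i e) (i₀ e) (φ w)‖ < ‖(L e).g (i e) (i₀ e) (φ w₁)‖ + 1 :=
      (hφ.analyticAt ((hL e).holo _ _ _ (h6 e) (hi₀ e))).continuousAt.norm.eventually_lt_const
        (lt_add_one _)
    refine ⟨(‖(L e).g (i e) (i₀ e) (φ w₁)‖ + 1) * (‖Φ e w₁‖ + 1) ^ ((K : ℝ)⁻¹), ?_⟩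
    filter_upwards [c1, c2, c3, h1.eventually_mem (((hM e).isOpen (μ e)).mem_nhds (h3 e)), h5, h8 e,
      hφ.1.eventually_mem (((hL e).isOpen (i e)).mem_nhds (h6 e)),
      hφ.1.eventually_mem (((hL e).isOpen (i₀ e)).mem_nhds (hi₀ e))]
      with w d1 d2 d3 d4 d5 d6 d7 d8 hw0 hw
    obtain ⟨g1, g2⟩ := d5 hw
    have h11 := isoY_frame (hL e) (hT e) g1 (i := i e) (i₀ := i₀ e) (by rw [g2]; exact d7)
      (by rw [g2]; exact d8) d1 d4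
    have ht : 0 < ‖w 0‖ := norm_pos_iff.2 hw0
    have h12 : ‖T e (i e) (ch, μ e) (γ w)‖ ^ K ≤ (‖Φ e w₁‖ + 1) * ‖w 0‖ ^ ν e := by
      rw [← norm_pow, d6 g1 hw0, norm_mul, norm_zpow, mul_comm]
      exact mul_le_mul_of_nonneg_right d2.le (zpow_nonneg (norm_nonneg _) _)
    have h13 := le_root hK (by positivity) ht h12 (norm_nonneg _)
    rw [h11, norm_mul, g2, mul_assoc]
    exact mul_le_mul d3.le h13 (norm_nonneg _) (by positivity)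
  · refine lt_of_lt_of_eq h10 ?_
    congr 1
    refine Finset.sum_congr rfl fun e _ => ?_
    rw [div_div, mul_comm (K : ℝ) (Q e : ℝ), mul_div_assoc]

end

section
variable {Y : Type} [TopologicalSpace Y] [T2Space Y] [CompactSpace Y] [ChartedSpace (Cm 4) Y]
  [IsManifold 𝓘(ℂ, Cm 4) ω Y] {X : CSp} {S V : Set X.pt} {G : X.pt → Cm 4} {c : Cm 4} {r : ℝ}
  {d : ℕ} {lam : X.pt → ℂ} {θ : Cm 4 → ℂ} {O : Set Y}
  {v : Y → X.pt} {k : ℕ} {L : Fin k → Bd X.pt} {M : Fin k → Bd Y} {m Q : Fin k → ℕ}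
  {T : ∀ e, (L e).ι → ((((Bd.can 4 Y).pow (m e)).mul (M e)).pow (Q e)).ι → Y → ℂ}
  {ρ : Fin k → ℝ} {χ : Chart 4 Y → Cm 4 → Matrix (Fin 4) (Fin 4) ℂ}

theorem sharpV (hX : IsNormal 4 X)
    (hχ : IsKahler χ) (hM : ∀ e, IsLB 4 (M e)) (hNef : ∀ e, Nef χ (M e)) (hm : ∀ e, 1 ≤ m e)
    (hρ : ∀ e, 0 < ρ e) (hρm : ∑ e, ρ e * m e = 1) (hv : IsOpenEmb X O v)
    (hO : DimLe X 2 (v '' O)ᶜ) (hSan : IsAn X univ S) (hS2 : DimLe X 2 S)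
    (hL : ∀ e, IsLBx X (L e)) (hQ : ∀ e, 1 ≤ Q e)
    (hT : ∀ e, IsIsoY O v (L e) ((((Bd.can 4 Y).pow (m e)).mul (M e)).pow (Q e)) (T e))
    (hg : IsGood X S V G c r d lam θ) {n : ℕ} {ζ : Fin n → X.pt → ℂ} (hζ : IsCoord X V ζ)
    (hlifts : ∀ (W : Set (Cm 4)) (w₀ : Cm 4) (φ : Cm 4 → X.pt), IsOpen W → w₀ ∈ W → w₀ 0 = 0 →
      (∀ w ∈ W, HolAt X φ w) → (∀ w ∈ W, w 0 = 0 → φ w ∈ S) →
      W ⊆ closure {w | w ∈ W ∧ φ w ∈ v '' O} → (∀ w ∈ W, φ w ∈ V) →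
      ∃ w₁ ∈ W, w₁ 0 = 0 ∧ LiftV O v L M m Q T ρ φ w₁) : d = 1 := by
  obtain ⟨r₁, a, b, hr₁, hr₁r, ha, hb, hbne, hgen⟩ :=
    H29.stAlg X hX S hSan hS2 V G c r d lam θ hg n ζ hζ
  -- a common radius
  let fam : (Σ l : Fin d, (Fin (l : ℕ) → Fin n)) ⊕ Fin d → X.pt → ℂ := fun i =>
    i.elim (fun p x => ∏ t, ζ (p.2 t) x) (fun l x => lam x ^ (l : ℕ))
  have hfam : ∀ i, ∀ x ∈ V, X.Hol (fam i) x := by
    rintro (p | l) x hx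
    · exact hol_prod _ fun t _ => hζ.hol _ x hx
    · exact hol_pow (hg.lamHol x hx) _
  obtain ⟨r₂, hr₂, hr₂₁, hgen₂⟩ := exists_radius (p := fun i ρ =>
      Gen {x | x ∈ V ∧ G x ∈ ball c ρ} G c ρ a b (fam i)) (fun i => by
        obtain ⟨ρ, hρ, -, f, hf1, hf2⟩ := hgen (fam i) (hfam i)
        exact ⟨ρ, hρ, f, hf1, fun x hx => hf2 x hx.1 hx.2⟩)
    (fun i ρ ρ' _ hρ' h => h.mono (fun x hx => ⟨hx.1, ball_subset_ball hρ' hx.2⟩)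
      (ball_subset_ball hρ')) hr₁
  have hsub₂ : ball c r₂ ⊆ ball c r := ball_subset_ball (hr₂₁.trans hr₁r)
  set V₂ : Set X.pt := {x | x ∈ V ∧ G x ∈ ball c r₂} with hV₂
  have hg₂ : IsGood X S V₂ G c r₂ d lam θ := IsGood.restrict H335.stCovRes hg hr₂ hsub₂ hg.c0 hg.c1
  have hthin := H19.stThin Y X O v hv hO V₂ G c r₂ d lam θ hg₂.toIsCov
  obtain ⟨z, hz, hz0, hz1, hbz⟩ := hbne r₂ hr₂
  obtain ⟨w₀, m', Φ, hw₀0, hw₀, hbw₀, hbaw₀, hΦ, hΦ0, hΦe⟩ :=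
    exists_base hg₂.toIsCov hz hz0 hz1 (hb z (ball_subset_ball hr₂₁ hz)) hbz
  obtain ⟨N, s, ε, φ, hN, hε, hε1, hs, hφ, hE, hcases⟩ :=
    stPuiS X V₂ G c r₂ d lam θ hg₂.toIsCov w₀ hw₀0 hw₀ m' Φ hΦ hΦ0 hΦe
  have hφ' : ∀ k, ∀ w ∈ ball w₀ ε, HolAt X (φ k) w ∧ φ k w ∈ V₂ ∧ G (φ k w) = pw (s k) w := hφ
  -- the set `W₀`
  have hW₀ : ∀ᶠ w in 𝓝 w₀, w ∈ ball w₀ ε ∧ bl w ∈ ball c r₂ ∧ b (bl w) ≠ 0 ∧ Φ w ≠ 0 ∧
      θ (bl w) = w 0 ^ m' * Φ w := by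
    filter_upwards [ball_mem_nhds w₀ hε, continuous_bl.continuousAt.eventually
      (isOpen_ball.mem_nhds hw₀), continuous_bl.continuousAt.eventually
      (hbaw₀.continuousAt.eventually_ne hbw₀), hΦ.continuousAt.eventually_ne hΦ0, hΦe]
      with w h1 h2 h3 h4 h5
    exact ⟨h1, h2, h3, h4, h5⟩
  obtain ⟨W₀, hW₀s, hW₀o, hw₀W₀⟩ := _root_.mem_nhds_iff.1 hW₀
  have hex : ∀ k, ∀ W' ⊆ W₀, IsOpen W' → ∀ w' ∈ W', w' 0 = 0 →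
      ∃ w₁ ∈ W', w₁ 0 = 0 ∧ LiftV O v L M m Q T ρ (φ k) w₁ := by
    intro k W' hW' hW'o w' hw' hw'0
    have hb' : ∀ w ∈ W', w ∈ ball w₀ ε := fun w hw => (hW₀s (hW' hw)).1
    refine hlifts W' w' (φ k) hW'o hw' hw'0 (fun w hw => (hφ' k w (hb' w hw)).1)
      (fun w hw h0 => ?_) ?_ (fun w hw => (hφ' k w (hb' w hw)).2.1.1)
    · obtain ⟨-, g2, g3⟩ := hφ' k w (hb' w hw)
      rw [hg₂.memS _ g2, g3, pw_zero (hs k).1 h0]
      exact bl_zero h0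
    · exact wedge_closure hg₂.maps hthin hW'o (hs k).1 fun w hw => (hφ' k w (hb' w hw)).2
  obtain ⟨w₁, hw₁W, hw₁0, hw₁L⟩ := exists_common (P := fun k w => LiftV O v L M m Q T ρ (φ k) w)
    (fun k w hw h => liftV_eventually hM hL (hφ' k w (hW₀s hw).1).1.1 h) hex Finset.univ W₀ Subset.rfl
    hW₀o w₀ hw₀W₀ hw₀0
  have hw₁b := (hW₀s hw₁W).1
  have hbl₁ := (hW₀s hw₁W).2.1
  -- the point of `S` over `bl w₁`
  set k₀ : Fin d := ⟨0, hg.dpos⟩ with hk₀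
  have hφG : ∀ k, G (φ k w₁) = bl w₁ := fun k => by
    rw [(hφ' k w₁ hw₁b).2.2, pw_zero (hs k).1 hw₁0]
  have hφV : ∀ k, φ k w₁ ∈ V₂ := fun k => (hφ' k w₁ hw₁b).2.1
  have hpS : φ k₀ w₁ ∈ S := by
    rw [hg₂.memS _ (hφV k₀), hφG]
    exact bl_zero hw₁0
  have huniq : ∀ y ∈ V₂, G y = bl w₁ → y = φ k₀ w₁ := fun y hy hyG =>
    hg₂.uniq _ (hφV k₀) hpS y hy (by rw [hyG, hφG])
  choose i₀ hi₀ using fun e => (hL e).cover (φ k₀ w₁)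
  have hi₀' : ∀ k e, φ k w₁ ∈ (L e).U (i₀ e) := fun k e => by
    rw [huniq _ (hφV k) (hφG k)]; exact hi₀ e
  choose γ ch μ τ J hlift using fun k => liftV_vl hM hL hT
    (hφ' k w₁ hw₁b).1 (hi₀' k) (hw₁L k (Finset.mem_univ k))
  -- the small ball
  have hsmall : ∀ᶠ z in 𝓝 (bl w₁), z ∈ ball c r₂ ∧ b z ≠ 0 ∧
      ∀ e, ∀ x ∈ V₂, G x = z → x ∈ (L e).U (i₀ e) := by
    filter_upwards [isOpen_ball.mem_nhds hbl₁,
      (hb _ (ball_subset_ball hr₂₁ hbl₁)).continuousAt.eventually_ne (hW₀s hw₁W).2.2.1,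
      eventually_all.2 fun e => cov_eventually hg₂.toIsCov hbl₁ (W := (L e).U (i₀ e))
        fun x hx hxG => by
          rw [huniq x hx hxG]; exact ((hL e).isOpen (i₀ e)).mem_nhds (hi₀ e)] with z h1 h2 h3
    exact ⟨h1, h2, h3⟩
  obtain ⟨r₃, hr₃, hball₃⟩ := Metric.eventually_nhds_iff_ball.1 hsmall
  have hsub₃ : ball (bl w₁) r₃ ⊆ ball c r₂ := fun z hz => (hball₃ z hz).1
  have hg₃ : IsGood X S {x | x ∈ V₂ ∧ G x ∈ ball (bl w₁) r₃} G (bl w₁) r₃ d lam θ :=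
    IsGood.restrict H335.stCovRes hg₂ hr₃ hsub₃ (bl_zero hw₁0).1 (bl_zero hw₁0).2
  set V₃ : Set X.pt := {x | x ∈ V₂ ∧ G x ∈ ball (bl w₁) r₃} with hV₃
  have hVL : ∀ e, V₃ ⊆ (L e).U (i₀ e) := fun e x hx => (hball₃ _ hx.2).2.2 e x hx.1 rfl
  have ha₃ : ∀ i, ∀ x ∈ V₃, X.Hol (a i) x := fun i x hx =>
    ha i x hx.1.1 (ball_subset_ball hr₂₁ hx.1.2)
  obtain ⟨κ, hκa, hκ⟩ := H335.stDet X V₃ G (bl w₁) r₃ d lam θ hg₃.toIsCov a ha₃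
  have hζ₃ : IsCoord X V₃ ζ := hζ.mono hg₃.isOpen fun x hx => hx.1.1
  have hgen₃ : ∀ i, Gen V₃ G (bl w₁) r₃ a b (fam i) := fun i =>
    (hgen₂ i).mono (fun x hx => hx.1) hsub₃
  have hpwc : ∀ s : ℕ, 1 ≤ s → ∀ᶠ w in 𝓝 w₁, pw s w ∈ ball (bl w₁) r₃ := by
    intro s hs
    refine (analyticAt_pw s w₁).continuousAt.eventually_mem ?_
    rw [pw_zero hs hw₁0]
    exact ball_mem_nhds _ hr₃
  have hballw : ∀ᶠ w in 𝓝 w₁, w ∈ ball w₀ ε := isOpen_ball.mem_nhds hw₁b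
  have hE₃ : ∀ᶠ w in 𝓝 w₁, w 0 ≠ 0 → Enum V₃ G ![w 0 ^ N, w 1 * w 0 ^ N, w 2, w 3]
      (fun k => φ k ![w 0 ^ (N / s k), w 1, w 2, w 3]) := by
    filter_upwards [hballw, hpwc N hN] with w h1 h2 hw0
    exact Enum.restrict (hE w h1 hw0) h2
  have hφ₃ : ∀ k, ∀ᶠ w in 𝓝 w₁, HolAt X (φ k) w ∧ φ k w ∈ V₃ ∧ G (φ k w) = pw (s k) w := by
    intro k
    filter_upwards [hballw, hpwc (s k) (hs k).1] with w h1 h2
    obtain ⟨g1, g2, g3⟩ := hφ' k w h1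
    exact ⟨g1, ⟨g2, by rw [g3]; exact h2⟩, g3⟩
  have hd : (1 : ℝ) ≤ d := by exact_mod_cast hg.dpos
  set δ : Fin d → ℝ := fun k => ∑ e, ρ e * (τ k e / Q e) + J k with hδ
  have hδ0 : ∀ k, 0 < δ k := fun k => (hlift k).pos
  have hs0 : ∀ k, (0 : ℝ) < s k := fun k => by exact_mod_cast (hs k).1
  have key : ∀ p : ℝ, (∃ C : ℝ, 0 < C ∧ ∀ᶠ w in 𝓝 w₁, w 0 ≠ 0 → θ (bl w) ≠ 0 →
      ‖κ (bl w)‖ ≤ C * ‖w 0‖ ^ p) →
      (∑ k, δ k / s k) + (∑ k, 1 / (s k : ℝ)) - 2 * d + p ≤ 0 := by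
    intro p hp
    have key : ∀ e, (∑ k, (ρ e * (τ k e / Q e) + ρ e * m e * (J k + 1 - 2 * s k)) / s k) +
        ρ e * m e * p ≤ 0 := by
      intro e
      have hQ0 : (0 : ℝ) < Q e := by exact_mod_cast hQ e
      have key := contraR (r := r₃) (c := bl w₁) (V := V₃) (G := G) (lam := lam) (θ := θ) (b := b)
        (κ := κ) (a := a) (ζ := ζ) (χ := χ) (N := N) (s := s) (φ := φ) (w₁ := w₁) (γ := γ)
        (e := ch) (μ := fun k => μ k e) (α := fun k => τ k e) (j := J) (K := 1) (p := p)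
        (L := L e) (M := M e) (m := m e) (Q := Q e) (T := T e) (i₀ := i₀ e)
        H19.stThin H19.stBr H19.stPush TD.stCoreX hχ (hM e) (hNef e) hv hO hg₃.toIsCov hζ₃
        (fun z hz => ⟨(hb z (ball_subset_ball hr₂₁ (hsub₃ hz))).continuousAt, (hball₃ z hz).2.1⟩)
        (fun l => hgen₃ (Sum.inr l)) (fun l f => hgen₃ (Sum.inl ⟨l, f⟩)) hκa hκ (hL e) (hT e)
        (hVL e) (by rw [mul_one]; exact Nat.mul_pos (hm e) (hQ e)) hw₁0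
        (mem_ball_self hr₃) ?_ hN (fun k => ⟨(hs k).1, (hs k).2.2⟩)
        (fun k => (hφ₃ k).mono fun w hw => ⟨hw.1.1, hw.2⟩) hE₃
        (fun k => ⟨(hlift k).cont, (hlift k).at', (hlift k).mem e, (hlift k).an, (hlift k).lift,
          analyticAt_const, Eventually.of_forall fun w _ => by simp⟩)
        (fun k => by simpa only [pow_one] using (hlift k).bdT e) (fun k => (hlift k).bdJ) hp
      · have h1 : (0 : ℝ) ≤ ρ e / (2 * Q e) := div_nonneg (hρ e).le (by positivity)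
        have h2 := mul_le_mul_of_nonneg_left key h1
        rw [mul_zero, mul_add, Finset.mul_sum] at h2
        refine le_trans (le_of_eq ?_) h2
        push_cast
        congr 1
        · refine Finset.sum_congr rfl fun k _ => ?_
          have h3 := (hs0 k).ne'
          field_simp
        · field_simp
      · filter_upwards [hW₀o.mem_nhds hw₁W] with w hw hw0
        rw [(hW₀s hw).2.2.2.2]
        exact mul_ne_zero (pow_ne_zero _ hw0) (hW₀s hw).2.2.2.1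
    have h1 := Finset.sum_nonpos fun e (_ : e ∈ Finset.univ) => key e
    rw [Finset.sum_add_distrib, Finset.sum_comm, ← Finset.sum_mul, hρm, one_mul] at h1
    refine le_trans (le_of_eq ?_) h1
    have h2 : ∀ k, ∑ e, (ρ e * (τ k e / Q e) + ρ e * m e * (J k + 1 - 2 * s k)) / (s k : ℝ) =
        δ k / s k + 1 / s k - 2 := by
      intro k
      rw [← Finset.sum_div, Finset.sum_add_distrib, ← Finset.sum_mul, hρm, one_mul, hδ]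
      have h3 := (hs0 k).ne'
      field_simp
      ring
    rw [Finset.sum_congr rfl fun k _ => h2 k, Finset.sum_sub_distrib, Finset.sum_add_distrib,
      Finset.sum_const, Finset.card_univ, Fintype.card_fin, nsmul_eq_mul]
    ring
  have hδs : 0 < ∑ k, δ k / s k :=
    Finset.sum_pos (fun k _ => div_pos (hδ0 k) (hs0 k)) ⟨k₀, Finset.mem_univ _⟩
  by_contra hd1
  have hd2 : (2 : ℝ) ≤ d := by
    have h1 := hg.dpos
    exact_mod_cast (by omega : 2 ≤ d)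
  rcases hcases with h2 | hrot
  · -- at least two cycles
    obtain ⟨Cκ, hCκ0, hCκ⟩ := kappa_le hg₃ ha₃ hκ hw₁0 (mem_ball_self hr₃)
    have h3 := key ((2 * (d - 1) : ℕ) : ℝ) ⟨Cκ, hCκ0, by
      filter_upwards [hCκ] with w h1 _ h3
      rw [Real.rpow_natCast]
      exact h1 h3⟩
    have h4 : ((2 * (d - 1) : ℕ) : ℝ) = 2 * ((d : ℝ) - 1) := by
      rw [Nat.cast_mul, Nat.cast_sub hg.dpos]; push_cast; ring
    rw [h4] at h3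
    linarith
  · -- all sheets are rotations of each other
    have hsd : ∀ k, s k = d := fun k => (hrot k k).1
    choose η hη1 hη2 using fun k => (hrot k k₀).2
    have hram := kappa_le_ram (φ := φ) (η := η) (k₀ := k₀) (N := N) hg₃ ha₃ hκ hw₁0
      (mem_ball_self hr₃) hN (by rw [← hsd k₀]; exact (hs k₀).2.2)
      (fun k => (hφ₃ k).mono fun w hw => by rw [hsd] at hw; exact hw)
      (by simp only [hsd] at hE₃; exact hE₃) hη1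
      (fun k => hballw.mono fun w hw hw0 => hη2 k w hw hw0)
    have h3 := key _ hram
    have h4 : ∑ k, 1 / (s k : ℝ) = 1 := by
      rw [Finset.sum_congr rfl (g := fun _ => 1 / (d : ℝ)) fun k _ => by rw [hsd k],
        Finset.sum_const, Finset.card_univ, Fintype.card_fin, nsmul_eq_mul]
      field_simp
    have h5 : (2 * ((d : ℝ) - 1) * (1 + 1 / d)) = 2 * d - 2 * (1 / d) := by
      field_simp
      ring
    rw [h4, h5] at h3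
    have h6 : 1 / (d : ℝ) ≤ 1 / 2 := one_div_le_one_div_of_le (by norm_num) hd2
    linarith

end

/-- (REG core) -/
theorem stRegCore : StRegCore := by
  intro Y _ _ _ _ _ χ hχ k M hM hNef m hm ρ hρ hρm X hX O v hv hO L hL Q hQ T hT S hSan hSO hlifts
  have hS2 : DimLe X 2 S := hO.mono hSO
  refine sing_global hX hv hO hSan hS2 fun U₀ hU₀ hS1 => ?_
  obtain ⟨V', G, c, r, d, lam, θ, n, ζ, hVU, hg, hζ⟩ := TX.stMinLoc_final Y X hX O v hv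
    hO S hSan U₀ hU₀ (fun x hx => hSO hx.1) hS1
  have hd : d = 1 := sharpV hX hχ hM hNef hm hρ hρm hv hO hSan hS2 hL hQ hT hg hζ
    fun W w₀ φ hW hw₀ h0 hφ hS hcl _ => hlifts W w₀ φ hW hw₀ h0 hφ hS hcl
  subst hd
  have hc := hg.toIsCov
  obtain ⟨x, hxV, hxc⟩ := (hc.finite c (mem_ball_self hc.pos)).2
  have hxS : x ∈ S := (hg.memS x hxV).2 (by rw [hxc]; exact ⟨hg.c0, hg.c1⟩)
  obtain ⟨s, hs1, hs2⟩ := (IsCov.toPre hc).sec_of_one (fun a ha b hb hab hθ => by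
    obtain ⟨y, hy⟩ := hc.enum (G a) (hc.maps a ha) hθ
    obtain ⟨k, hk⟩ := (hy.2 a).2 ⟨ha, rfl⟩
    obtain ⟨l, hl⟩ := (hy.2 b).2 ⟨hb, hab.symm⟩
    rw [← hk, ← hl, Subsingleton.elim k l]) ⟨x, hxV⟩ hζ
  exact ⟨x, ⟨hxS, hVU hxV⟩, isReg_of_sec hc.holo ⟨V', s, hc.isOpen, hxV, Subset.rfl,
    hc.openMap _ Subset.rfl hc.isOpen, fun y hy => ⟨hs2 y hy, (hs1 _ (hc.maps y hy)).2.2⟩⟩⟩

end Vale.Agent.P277.H335.RC
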