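import Vale.Agent.P277.H335.TowerV
import Vale.Agent.P277.H335.RegCore

/-!
# P277, real coefficients: the generic points of the flipped surfaces are regular points
-/

open scoped Manifold ContDiff Topology
open Vale.Agent.P272.K Vale.Agent.P285.H281.FD Vale.Agent.P267.H175 Set Metric Filter

noncomputable section

namespace Vale.Agent.P277.H335.RR

open Vale.Agent.P277 Vale.Agent.P277.T2 Vale.Agent.P277.H335 Vale.Agent.P277.H615

/-- at a generic point the functions are units up to powers of `w 0` (common exponent) -/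
theorem exists_unit' {D : Set (Cm 4)} {w₁ : Cm 4} (h0 : w₁ 0 = 0) {ι : Type} [Fintype ι]
    {τ : ι → Cm 4 → ℂ} {q : ι → ℚ}
    (h : ∀ i, HasOrd D w₁ (τ i) (q i)) : ∃ᶠ w₂ in 𝓝 w₁, w₂ 0 = 0 ∧ ∃ K : ℕ, 1 ≤ K ∧ ∀ i,
      ∃ (ν : ℤ) (Φ : Cm 4 → ℂ), (ν : ℚ) = q i * K ∧ AnalyticAt ℂ Φ w₂ ∧ Φ w₂ ≠ 0 ∧
        ∀ᶠ w in 𝓝 w₂, w ∈ D → w 0 ≠ 0 → τ i w ^ K = w 0 ^ ν * Φ w := by
  refine (HasOrd.exists_unit h0 h).mono ?_
  rintro w₂ ⟨g1, g2⟩
  choose K ν Φ hK hν hΦ hΦ0 hrel using g2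
  refine ⟨g1, ∏ i, K i, Nat.one_le_iff_ne_zero.2 (Finset.prod_ne_zero_iff.2 fun i _ =>
    Nat.one_le_iff_ne_zero.1 (hK i)), fun i => ?_⟩
  obtain ⟨n, hn⟩ : K i ∣ ∏ i, K i := Finset.dvd_prod_of_mem _ (Finset.mem_univ i)
  refine ⟨ν i * n, fun w => Φ i w ^ n, ?_, (hΦ i).pow n, pow_ne_zero _ (hΦ0 i), ?_⟩
  · rw [hn]
    push_cast
    rw [hν i]
    ring
  · filter_upwards [hrel i] with w hw h1 h2
    rw [hn, pow_mul, hw h1 h2, mul_pow, zpow_mul, zpow_natCast]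

variable {Y : Type} [TopologicalSpace Y] [ChartedSpace (Cm 4) Y]
  [IsManifold 𝓘(ℂ, Cm 4) ω Y]

/-- the determinants of the changes of charts along an analytic map -/
theorem analyticAt_jac {γ : Cm 4 → Y} {w : Cm 4} (hγ : ContinuousAt γ w) {e e' : Chart 4 Y}
    (he : At e (γ w)) (he' : At e' (γ w)) (h : AnalyticAt ℂ (fun z => e (γ z)) w) :
    AnalyticAt ℂ (fun z => (jacM e e' (γ z)).det) w := by
  have h1 : AnalyticAt ℂ (fun z => (fderiv ℂ (fun z => e' (e.symm z)) (e (γ z))).det) w :=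
    AnalyticAt.fun_comp (g := fun z => (fderiv ℂ (fun z => e' (e.symm z)) z).det)
      (f := fun w => e (γ w)) (H19.analyticAt_det (trans_analyticAt he he')) h
  refine h1.congr ?_
  filter_upwards [hγ.eventually_mem (e.open_source.mem_nhds he.2),
    hγ.eventually_mem (e'.open_source.mem_nhds he'.2)] with z h2 h3
  exact (H19.det_jacM ⟨he.1, h2⟩ ⟨he'.1, h3⟩).symm

/-- change of the frame of the canonical bundle of `Y` does not change the order -/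
theorem hasOrd_change {M : Bd Y} (hM : IsLB 4 M) {m : ℕ} {X : CSp} {L : Bd X.pt}
    {O : Set Y} {v : Y → X.pt} {P Q : ℕ} {T : L.ι → (((Bd.can 4 Y).pow m).mul M).ι → Y → ℂ}
    (hL : IsLBx X (L.pow P))
    (hT : IsIsoY O v (L.pow P) ((((Bd.can 4 Y).pow m).mul M).pow Q) T)
    {w₁ : Cm 4} (h0 : w₁ 0 = 0) {γ : Cm 4 → Y} (hγ : ContinuousAt γ w₁)
    {φ : Cm 4 → X.pt} {i : L.ι} (hi : ∀ᶠ w in 𝓝 w₁, φ w ∈ L.U i)
    (hv : ∀ᶠ w in 𝓝 w₁, γ w ∈ O → v (γ w) = φ w)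
    {e e' : Chart 4 Y} {a : M.ι} (he : At e (γ w₁)) (he' : At e' (γ w₁)) (ha : γ w₁ ∈ M.U a)
    (hγa : AnalyticAt ℂ (fun w => e' (γ w)) w₁) {q : ℚ}
    (h : HasOrd {w | γ w ∈ O} w₁ (fun w => T i (e, a) (γ w)) q) :
    HasOrd {w | γ w ∈ O} w₁ (fun w => T i (e', a) (γ w)) q := by
  have hu : AnalyticAt ℂ (fun w => ((jacM e' e (γ w)).det ^ m) ^ Q) w₁ :=
    ((analyticAt_jac hγ he' he hγa).pow m).pow Q
  have hu0 : ((jacM e' e (γ w₁)).det ^ m) ^ Q ≠ 0 := by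
    refine pow_ne_zero _ (pow_ne_zero _ fun h1 => ?_)
    have h2 := H19.det_jacM_mul he' he
    rw [h1, zero_mul] at h2
    exact zero_ne_one h2
  have h1 := (HasOrd.of_unit (D := {w | γ w ∈ O}) h0 hu hu0).mul h0 h
  rw [zero_add] at h1
  refine h1.congr ?_
  filter_upwards [hi, hv, hγ.eventually_mem (e.open_source.mem_nhds he.2),
    hγ.eventually_mem (e'.open_source.mem_nhds he'.2),
    hγ.eventually_mem ((hM.isOpen a).mem_nhds ha)] with w g1 g2 g3 g4 g5 g6 _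
  have h2 := H19.isIsoY_change (M := M) hL hT g6 (i := i) (by rw [g2 g6]; exact g1)
    (e := e) (e₁ := e') ⟨he.1, g3⟩ ⟨he'.1, g4⟩ g5 g5
  have h3 : M.g a a (γ w) = 1 :=
    (mul_eq_left₀ (hM.ne_zero a a _ g5 g5)).1 (hM.cocycle a a a _ g5 g5 g5)
  rw [h3, mul_one] at h2
  exact h2

omit [IsManifold 𝓘(ℂ, Cm 4) ω Y] in
/-- boundedness of the Jacobian -/
theorem jac_bounded {γ : Cm 4 → Y} {w : Cm 4} {e : Chart 4 Y}
    (h : AnalyticAt ℂ (fun z => e (γ z)) w) :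
    ∃ C : ℝ, ∀ᶠ z in 𝓝 w, ‖(fderiv ℂ (fun z => e (γ z)) z).det‖ ≤ C := by
  have h1 := (H19.analyticAt_det h).continuousAt.norm
  exact ⟨‖(fderiv ℂ (fun z => e (γ z)) w).det‖ + 1,
    (h1.eventually_lt continuousAt_const (lt_add_one _)).mono fun z hz => hz.le⟩

variable {V X : CSp} {k : ℕ} {vV : Y → V.pt} {D : Set Y} {M : Fin k → Bd Y} {m : Fin k → ℕ}
  {L : Fin k → Bd X.pt} {c : Fin k → ℕ} {O : Set Y} {v : Y → X.pt} {P Q : Fin k → ℕ}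
  {T : ∀ e, (L e).ι → (((Bd.can 4 Y).pow (m e)).mul (M e)).ι → Y → ℂ} {ρ : Fin k → ℝ}
  {S : Set X.pt}

/-- wedges centred in `S` have lifts -/
theorem liftV_of_chain (hM : ∀ e, IsLB 4 (M e))
    (hTw : TwV vV D (fun e => ((Bd.can 4 Y).pow (m e)).mul (M e)) X L c O v P Q T ρ S)
    {W : Set (Cm 4)} {w₀ : Cm 4} {φ : Cm 4 → X.pt} (hW : IsOpen W) (hw₀ : w₀ ∈ W) (h0 : w₀ 0 = 0)
    (hφ : ∀ w ∈ W, HolAt X φ w) (hS : ∀ w ∈ W, w 0 = 0 → φ w ∈ S)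
    (hcl : W ⊆ closure {w | w ∈ W ∧ φ w ∈ v '' O}) :
    ∃ w₁ ∈ W, w₁ 0 = 0 ∧ LiftV O v (fun e => (L e).pow (P e)) M m Q T ρ φ w₁ := by
  choose i hi using fun e => (hTw.lb e).cover (φ w₀)
  set W' : Set (Cm 4) := {w | w ∈ W ∧ φ w ∈ ⋂ e, (L e).U (i e)} with hW'
  have hW'o : IsOpen W' := by
    have h1 : ContinuousOn φ W := fun w hw => (hφ w hw).1.continuousWithinAt
    exact h1.isOpen_inter_preimage hW (isOpen_iInter_of_finite fun e => (hTw.lb e).isOpen (i e))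
  have hcl' : W' ⊆ closure {w | w ∈ W' ∧ φ w ∈ v '' O} :=
    subset_closure_of_open hW'o (fun w hw => hw.1) hcl
  have hW'i : ∀ w ∈ W', ∀ e, φ w ∈ (L e).U (i e) := fun w hw e => mem_iInter.1 hw.2 e
  obtain ⟨w₁, hw₁, hw₁0, W₁, γ, ch, cc, q, hW₁, hw₁W, hW₁W, hγ, hO1, hO2, hT, -, hpos⟩ :=
    hTw.chain W' w₀ φ i hW'o ⟨hw₀, mem_iInter.2 hi⟩ h0 (fun w hw => hφ w hw.1) hcl' hW'i
  have hpos := hpos fun w hw hw0 => hS w hw.1 hw0
  obtain ⟨g1, g2, g3, g4⟩ := hγ w₁ hw₁W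
  have hW₁n := hW₁.mem_nhds hw₁W
  have hord : ∀ e, HasOrd {w | γ w ∈ O} w₁ (fun w => T e (i e) (ch, (cc e).2) (γ w)) (q e) := by
    intro e
    refine hasOrd_change (hM e) (hTw.tw e).lb (hTw.tw e).iso hw₁0 g1 (φ := φ) ?_ ?_
      (e := (cc e).1) (g4 e).1 g2 (g4 e).2 g3 (hT e)
    · filter_upwards [hW₁n] with w hw using hW'i w (hW₁W hw) e
    · filter_upwards [hW₁n] with w hw using hO2 w hw
  obtain ⟨w₂, ⟨hw₂0, K, hK, hdat⟩, hw₂W⟩ := ((exists_unit' hw₁0 hord).and_eventually hW₁n).exists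
  choose ν Φ hν hΦ hΦ0 hrel using hdat
  obtain ⟨k1, k2, k3, k4⟩ := hγ w₂ hw₂W
  have hW₁n' := hW₁.mem_nhds hw₂W
  obtain ⟨C, hC⟩ := jac_bounded k3
  refine ⟨w₂, (hW₁W hw₂W).1, hw₂0, γ, ch, fun e => (cc e).2, i, K, ν, Φ, 0, C, hK, k1, k2,
    fun e => (k4 e).2, k3, ?_, hW'i w₂ (hW₁W hw₂W), fun e => ⟨hΦ e, hΦ0 e⟩, hrel, ?_, ?_⟩
  · filter_upwards [hW₁n'] with w hw hwO
    have h6 := hO1 w hw hwO
    exact ⟨h6, hO2 w hw h6⟩
  · filter_upwards [hC] with w hw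
    rwa [pow_zero, mul_one]
  · have h1 : ∑ e, ρ e * ν e / (Q e * K) = ∑ e, ρ e / Q e * q e := by
      refine Finset.sum_congr rfl fun e _ => ?_
      have h2 : (ν e : ℝ) = q e * K := by exact_mod_cast hν e
      have h3 : (K : ℝ) ≠ 0 := by exact_mod_cast (Nat.one_le_iff_ne_zero.1 hK)
      have h4 : (Q e : ℝ) ≠ 0 := by exact_mod_cast (Nat.one_le_iff_ne_zero.1 (hTw.tw e).hQ)
      rw [h2]
      field_simp
    rw [h1, Nat.cast_zero, add_zero]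
    exact hpos

/-- (REGR) -/
theorem stRegR : T2.StRegR := by
  intro Y _ _ _ _ _ χ hχ k M hM hnef m hm ρ hρ hsum N W X Z hX0 r v p P G hR f f' A L c hc hn
    hflip j hj
  have hk : 1 ≤ k := by
    rcases Nat.eq_zero_or_pos k with rfl | h
    · simp at hsum
    · exact h
  have hNB := fun e => ctBd (Y := Y) (hM e) (m e)
  obtain ⟨O, v', P', Q', T, hTw, hsub⟩ := (exists_towerV H884.stL0 hk
    (NB := fun e => ((Bd.can 4 Y).pow (m e)).mul (M e)) (fun e => (hNB e).isOpen)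
    (fun e => (hNB e).cover) (by omega) hX0 hR hc hn hflip).2 j hj
  obtain ⟨pp, qq, s, d, a, hd, hcpq, hf, hda⟩ := exists_flipD (hflip j hj) (hc j)
  refine RC.stRegCore Y χ hχ k M hM hnef m hm ρ hρ hsum (X (j + 1)) hf.normal' O v'
    (hTw.tw ⟨0, hk⟩).emb (hTw.tw ⟨0, hk⟩).dim (fun e => (L (j + 1) e).pow (P' e))
    (fun e => (hTw.tw e).lb) Q' (fun e => (hTw.tw e).hQ) T (fun e => (hTw.tw e).iso)
    (f' j ⁻¹' Amin (f j)) (IsAn.preimage (fun x => hf.small'.holMap x) hf.small'.an) hsub ?_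
  intro B w₀ φ hB hw₀ h0 hφ hS hcl
  exact liftV_of_chain hM hTw hB hw₀ h0 hφ hS hcl

end Vale.Agent.P277.H335.RR
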