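import Vale.Agent.P277.H335.JacB
import Vale.Agent.P277.H335.RegR
import Vale.Agent.P277.H335.TowerB

/-!
# P277, T3: (REGB) the generic points of the flipped surfaces are regular points, for pairs with
boundary
-/

open scoped Manifold ContDiff Topology
open Vale.Agent.P272.K Vale.Agent.P285.H281.FD Vale.Agent.P267.H175 Set Metric Filter

noncomputable section

namespace Vale.Agent.P277.H335.RR

open Vale.Agent.P277 Vale.Agent.P277.T2 Vale.Agent.P277.H335 Vale.Agent.P277.H615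

/-- at a generic point the functions are units up to powers of `w 0` (common exponent), and another
analytic function does not vanish -/
theorem exists_unit'' {D : Set (Cm 4)} {w₁ : Cm 4} (h0 : w₁ 0 = 0) {ι : Type} [Fintype ι]
    {τ : ι → Cm 4 → ℂ} {q : ι → ℚ} (h : ∀ i, HasOrd D w₁ (τ i) (q i)) {C : Cm 4 → ℂ}
    (hC : AnalyticAt ℂ C w₁) (hCne : ∃ᶠ w in 𝓝 w₁, w 0 = 0 ∧ C w ≠ 0) :
    ∃ᶠ w₂ in 𝓝 w₁, w₂ 0 = 0 ∧ C w₂ ≠ 0 ∧ ∃ K : ℕ, 1 ≤ K ∧ ∀ i,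
      ∃ (ν : ℤ) (Φ : Cm 4 → ℂ), (ν : ℚ) = q i * K ∧ AnalyticAt ℂ Φ w₂ ∧ Φ w₂ ≠ 0 ∧
        ∀ᶠ w in 𝓝 w₂, w ∈ D → w 0 ≠ 0 → τ i w ^ K = w 0 ^ ν * Φ w := by
  choose K ν A B h1 h2 h3 h4 h5 h6 h7 using h
  have hfr : ∃ᶠ w in 𝓝 w₁, w 0 = 0 ∧ ∏ i, (A i w * B i w) ≠ 0 :=
    (freq_prod h0 Finset.univ (A := fun i w => A i w * B i w)
      (fun i => (h3 i).mul (h4 i)) fun i => freq_mul' h0 (h3 i) (h4 i) (h5 i) (h6 i)).mono
      fun w hw => ⟨hw.1, Finset.prod_ne_zero_iff.2 hw.2⟩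
  have hfr2 := freq_mul' h0 (Finset.analyticAt_fun_prod Finset.univ
    fun i _ => (h3 i).mul (h4 i)) hC hfr hCne
  have hev : ∀ᶠ w₂ in 𝓝 w₁, ∀ i, AnalyticAt ℂ (A i) w₂ ∧ AnalyticAt ℂ (B i) w₂ ∧
      ∀ᶠ w in 𝓝 w₂, w ∈ D → w 0 ≠ 0 → B i w * τ i w ^ K i = w 0 ^ ν i * A i w := by
    rw [eventually_all]
    intro i
    filter_upwards [(h3 i).eventually_analyticAt, (h4 i).eventually_analyticAt,
      (h7 i).eventually_nhds] with w g1 g2 g3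
    exact ⟨g1, g2, g3⟩
  refine (hfr2.and_eventually hev).mono ?_
  rintro w₂ ⟨⟨g1, g2⟩, g3⟩
  have g4 := Finset.prod_ne_zero_iff.1 (left_ne_zero_of_mul g2)
  refine ⟨g1, right_ne_zero_of_mul g2, ∏ i, K i, Nat.one_le_iff_ne_zero.2
    (Finset.prod_ne_zero_iff.2 fun i _ => Nat.one_le_iff_ne_zero.1 (h1 i)), fun i => ?_⟩
  have hA := left_ne_zero_of_mul (g4 i (Finset.mem_univ i))
  have hB := right_ne_zero_of_mul (g4 i (Finset.mem_univ i))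
  obtain ⟨n, hn⟩ : K i ∣ ∏ i, K i := Finset.dvd_prod_of_mem _ (Finset.mem_univ i)
  refine ⟨ν i * n, fun w => (A i w / B i w) ^ n, ?_, ((g3 i).1.div (g3 i).2.1 hB).pow n,
    pow_ne_zero _ (div_ne_zero hA hB), ?_⟩
  · rw [hn]
    push_cast
    rw [h2 i]
    ring
  · filter_upwards [(g3 i).2.2, (g3 i).2.1.continuousAt.eventually_ne hB] with w m1 m2 hD hw
    have m3 := m1 hD hw
    have m4 : τ i w ^ K i = w 0 ^ ν i * (A i w / B i w) := by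
      field_simp
      linear_combination m3
    rw [hn, pow_mul, m4, mul_pow, zpow_mul, zpow_natCast]

/-- comparison of the order of `τ` with the order of `(w 0 ^ g A) ^ Q = τ η` -/
theorem ord_le_of_rel {D : Set (Cm 4)} {w₂ : Cm 4} (h0 : w₂ 0 = 0)
    (hD : ∃ᶠ w in 𝓝 w₂, w ∈ D ∧ w 0 ≠ 0) {τ η Φ A : Cm 4 → ℂ} {K Q g : ℕ} {ν : ℤ}
    (hΦ : ContinuousAt Φ w₂) (hη : ContinuousAt η w₂) (hA : ContinuousAt A w₂) (hA0 : A w₂ ≠ 0)
    (h1 : ∀ᶠ w in 𝓝 w₂, w ∈ D → w 0 ≠ 0 → τ w ^ K = w 0 ^ ν * Φ w)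
    (h2 : ∀ᶠ w in 𝓝 w₂, w ∈ D → τ w * η w = (w 0 ^ g * A w) ^ Q) :
    ν ≤ Q * K * g := by
  by_contra hlt
  push Not at hlt
  obtain ⟨n, hn⟩ : ∃ n : ℕ, ν = ((Q * K * g + n : ℕ) : ℤ) ∧ 1 ≤ n :=
    ⟨(ν - Q * K * g).toNat, by push_cast; omega, by omega⟩
  obtain ⟨hn, hn1⟩ := hn
  have hG : ContinuousAt (fun w : Cm 4 => w 0 ^ n * Φ w * η w ^ K - A w ^ (Q * K)) w₂ :=
    (((continuous_apply (0 : Fin 4)).continuousAt.pow n |>.mul hΦ).mul (hη.pow K)).sub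
      (hA.pow (Q * K))
  have hG0 : w₂ 0 ^ n * Φ w₂ * η w₂ ^ K - A w₂ ^ (Q * K) ≠ 0 := by
    rw [h0, zero_pow (by omega), zero_mul, zero_mul, zero_sub]
    exact neg_ne_zero.2 (pow_ne_zero _ hA0)
  obtain ⟨w, ⟨hwD, hw0⟩, k1, k2, k3⟩ :=
    (hD.and_eventually (h1.and (h2.and (hG.eventually_ne hG0)))).exists
  refine k3 ?_
  have e1 := k1 hwD hw0
  have e2 := congrArg (· ^ K) (k2 hwD)
  simp only [mul_pow] at e2
  rw [e1, hn, zpow_natCast] at e2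
  have e3 : w 0 ^ (Q * K * g) ≠ 0 := pow_ne_zero _ hw0
  refine mul_left_cancel₀ e3 ?_
  rw [mul_zero, mul_sub, sub_eq_zero]
  calc w 0 ^ (Q * K * g) * (w 0 ^ n * Φ w * η w ^ K)
      = w 0 ^ (Q * K * g + n) * Φ w * η w ^ K := by rw [pow_add]; ring
    _ = ((w 0 ^ g) ^ Q) ^ K * (A w ^ Q) ^ K := e2
    _ = w 0 ^ (Q * K * g) * A w ^ (Q * K) := by
      rw [← pow_mul, ← pow_mul, ← pow_mul]
      congr 2
      ring

variable {Y : Type} [TopologicalSpace Y] [ChartedSpace (Cm 4) Y]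
  {H : Type} [TopologicalSpace H] [ChartedSpace (Cm 3) H]

/-- the Jacobian of a map into a hypersurface -/
theorem det_zero_of_sub {ι : H → Y} {E : Bd Y} {s : E.ι → Y → ℂ} (h : T3.IsBd ι E s)
    (hEo : ∀ μ, IsOpen (E.U μ)) {γ : Cm 4 → Y} {w₁ : Cm 4} (hγ : ContinuousAt γ w₁)
    {e : Chart 4 Y} (he : At e (γ w₁)) (hγa : AnalyticAt ℂ (fun w => e (γ w)) w₁)
    {μ : E.ι} (hμ : γ w₁ ∈ E.U μ) (hs : s μ (γ w₁) = 0)
    (hz : ∀ᶠ w in 𝓝 w₁, s μ (γ w) = 0) : (fderiv ℂ (fun w => e (γ w)) w₁).det = 0 := by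
  by_contra hdet
  have hg : AnalyticAt ℂ (fun z => s μ (e.symm z)) (e (γ w₁)) :=
    (h.sec.holo μ e _ he hμ).analyticAt
  have h1 : (fun w => s μ (e.symm (e (γ w)))) =ᶠ[𝓝 w₁] fun _ => 0 := by
    filter_upwards [hz, hγ.eventually_mem (e.open_source.mem_nhds he.2)] with w g1 g2
    rw [e.left_inv g2, g1]
  have h2 : HasFDerivAt (fun w => s μ (e.symm (e (γ w))))
      ((fderiv ℂ (fun z => s μ (e.symm z)) (e (γ w₁))).comp (fderiv ℂ (fun w => e (γ w)) w₁)) w₁ :=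
    HasFDerivAt.comp w₁ (g := fun z => s μ (e.symm z)) (f := fun w => e (γ w))
      hg.differentiableAt.hasFDerivAt hγa.differentiableAt.hasFDerivAt
  have h3 : HasFDerivAt (fun w => s μ (e.symm (e (γ w)))) (0 : Cm 4 →L[ℂ] ℂ) w₁ :=
    (hasFDerivAt_const (0 : ℂ) w₁).congr_of_eventuallyEq h1
  have h4 := h2.unique h3
  refine h.mult μ _ hμ hs e he ?_
  have hbij := (LinearMap.equivOfDetNeZero (fderiv ℂ (fun w => e (γ w)) w₁ : Cm 4 →ₗ[ℂ] Cm 4)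
    hdet).surjective
  ext v
  obtain ⟨u, rfl⟩ := hbij v
  exact DFunLike.congr_fun h4 u

section
variable [IsManifold 𝓘(ℂ, Cm 4) ω Y] {V X : CSp} {k s : ℕ} {vV : Y → V.pt} {D : Set Y}
  {M : Fin (k + s) → Bd Y} {m : Fin (k + s) → ℕ}
  {L : Fin (k + s) → Bd X.pt} {c : Fin (k + s) → ℕ} {O : Set Y} {v : Y → X.pt}
  {P Q : Fin (k + s) → ℕ}
  {T : ∀ e, (L e).ι → (((Bd.can 4 Y).pow (m e)).mul (M e)).ι → Y → ℂ} {ρ : Fin (k + s) → ℝ}
  {S : Set X.pt} {H : Fin s → Type} [∀ i, TopologicalSpace (H i)]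
  [∀ i, ChartedSpace (Cm 3) (H i)] {ι : ∀ i, H i → Y}
  {sg : ∀ i : Fin s, (M (Fin.natAdd k i)).ι → Y → ℂ}

/-- wedges centred in `S` have lifts -/
theorem liftV_of_chainB (hM : ∀ e, IsLB 4 (M e))
    (hTw : TwV vV D (fun e => ((Bd.can 4 Y).pow (m e)).mul (M e)) X L c O v P Q T ρ S)
    (hρ : ∀ e, 0 < ρ e) (hlt : ∀ i : Fin s, ρ (Fin.natAdd k i) < 1)
    (hbd : ∀ i, T3.IsBd (ι i) (M (Fin.natAdd k i)) (sg i))
    (hdis : Pairwise fun i j => Disjoint (range (ι i)) (range (ι j)))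
    (hdn : ∀ i, range (ι i) ⊆ closure (range (ι i) ∩ O))
    (hsec : ∀ i, SecRel (L (Fin.natAdd k i))
      (((Bd.can 4 Y).pow (m (Fin.natAdd k i))).mul (M (Fin.natAdd k i))) O v
      (P (Fin.natAdd k i)) (Q (Fin.natAdd k i)) (T (Fin.natAdd k i)) (fun b y => sg i b.2 y))
    (hSO : S ⊆ (v '' O)ᶜ)
    {W : Set (Cm 4)} {w₀ : Cm 4} {φ : Cm 4 → X.pt} (hW : IsOpen W) (hw₀ : w₀ ∈ W) (h0 : w₀ 0 = 0)
    (hφ : ∀ w ∈ W, HolAt X φ w) (hS : ∀ w ∈ W, w 0 = 0 → φ w ∈ S)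
    (hcl : W ⊆ closure {w | w ∈ W ∧ φ w ∈ v '' O}) :
    ∃ w₁ ∈ W, w₁ 0 = 0 ∧ LiftV O v (fun e : Fin k => (L (Fin.castAdd s e)).pow (P (Fin.castAdd s e)))
      (fun e => M (Fin.castAdd s e)) (fun e => m (Fin.castAdd s e)) (fun e => Q (Fin.castAdd s e))
      (fun e => T (Fin.castAdd s e)) (fun e => ρ (Fin.castAdd s e)) φ w₁ := by
  choose i hi using fun e => (hTw.lb e).cover (φ w₀)
  set W' : Set (Cm 4) := {w | w ∈ W ∧ φ w ∈ ⋂ e, (L e).U (i e)} with hW'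
  have hW'o : IsOpen W' := by
    have h1 : ContinuousOn φ W := fun w hw => (hφ w hw).1.continuousWithinAt
    exact h1.isOpen_inter_preimage hW (isOpen_iInter_of_finite fun e => (hTw.lb e).isOpen (i e))
  have hcl' : W' ⊆ closure {w | w ∈ W' ∧ φ w ∈ v '' O} :=
    subset_closure_of_open hW'o (fun w hw => hw.1) hcl
  have hW'i : ∀ w ∈ W', ∀ e, φ w ∈ (L e).U (i e) := fun w hw e => mem_iInter.1 hw.2 e
  obtain ⟨w₁, hw₁, hw₁0, W₁, γ, ch, cc, q, hW₁, hw₁W, hW₁W, hγ, hO1, hO2, hT, -, hpos⟩ :=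
    hTw.chain W' w₀ φ i hW'o ⟨hw₀, mem_iInter.2 hi⟩ h0 (fun w hw => hφ w hw.1) hcl' hW'i
  have hpos := hpos fun w hw hw0 => hS w hw.1 hw0
  obtain ⟨g1, g2, g3, g4⟩ := hγ w₁ hw₁W
  have hW₁n := hW₁.mem_nhds hw₁W
  have hord : ∀ e, HasOrd {w | γ w ∈ O} w₁ (fun w => T e (i e) (ch, (cc e).2) (γ w)) (q e) := by
    intro e
    refine hasOrd_change (hM e) (hTw.tw e).lb (hTw.tw e).iso hw₁0 g1 (φ := φ) ?_ ?_
      (e := (cc e).1) (g4 e).1 g2 (g4 e).2 g3 (hT e)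
    · filter_upwards [hW₁n] with w hw using hW'i w (hW₁W hw) e
    · filter_upwards [hW₁n] with w hw using hO2 w hw
  -- the points of the centre are mapped to the complement of `O`
  have hO3 : ∀ w ∈ W₁, w 0 = 0 → γ w ∉ O := fun w hw hw0 hwO =>
    hSO (hS w (hW₁W hw).1 hw0) ⟨γ w, hwO, hO2 w hw hwO⟩
  -- density
  have hfreq : ∀ w ∈ W₁, ∃ᶠ w' in 𝓝 w, γ w' ∈ O ∧ w' 0 ≠ 0 := by
    intro w hw
    rw [Filter.frequently_iff]
    intro U hU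
    obtain ⟨w', ⟨h1, h2⟩, h3, h4⟩ := mem_closure_iff_nhds.1 (hcl (hW₁W hw).1) _
      (inter_mem hU (hW₁.mem_nhds hw))
    have h5 := hO1 w' h2 h4
    exact ⟨w', h1, h5, fun h6 => hO3 w' h2 h6 h5⟩
  have hsum : ∀ (K : ℕ), 1 ≤ K → ∀ ν : Fin (k + s) → ℤ, (∀ e, (ν e : ℚ) = q e * K) →
      ∑ e, ρ e / Q e * q e = ∑ e : Fin k, ρ (Fin.castAdd s e) * ν (Fin.castAdd s e) /
        (Q (Fin.castAdd s e) * K) + ∑ j : Fin s, ρ (Fin.natAdd k j) * ν (Fin.natAdd k j) /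
        (Q (Fin.natAdd k j) * K) := by
    intro K hK ν hν
    have h1 : ∀ e, ρ e / Q e * q e = ρ e * ν e / (Q e * K) := by
      intro e
      have h2 : (ν e : ℝ) = q e * K := by exact_mod_cast hν e
      have h3 : (K : ℝ) ≠ 0 := by exact_mod_cast (Nat.one_le_iff_ne_zero.1 hK)
      have h4 : (Q e : ℝ) ≠ 0 := by exact_mod_cast (Nat.one_le_iff_ne_zero.1 (hTw.tw e).hQ)
      rw [h2]
      field_simp
    rw [Fin.sum_univ_add]
    exact congrArg₂ _ (Finset.sum_congr rfl fun e _ => h1 _) (Finset.sum_congr rfl fun e _ => h1 _)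
  -- the conclusion, from the estimate of the Jacobian
  have fin : ∀ w₂ ∈ W₁, w₂ 0 = 0 → ∀ (K : ℕ) (ν : Fin (k + s) → ℤ) (Φ : Fin (k + s) → Cm 4 → ℂ),
      1 ≤ K → (∀ e, AnalyticAt ℂ (Φ e) w₂) → (∀ e, Φ e w₂ ≠ 0) →
      (∀ e, ∀ᶠ w in 𝓝 w₂, w ∈ {w | γ w ∈ O} → w 0 ≠ 0 →
        T e (i e) (ch, (cc e).2) (γ w) ^ K = w 0 ^ ν e * Φ e w) →
      ∀ (J : ℕ) (C : ℝ), (∀ᶠ w in 𝓝 w₂, ‖(fderiv ℂ (fun w => ch (γ w)) w).det‖ ≤ C * ‖w 0‖ ^ J) →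
      0 < ∑ e : Fin k, ρ (Fin.castAdd s e) * ν (Fin.castAdd s e) /
        (Q (Fin.castAdd s e) * K) + J →
      ∃ w₁ ∈ W, w₁ 0 = 0 ∧ LiftV O v
        (fun e : Fin k => (L (Fin.castAdd s e)).pow (P (Fin.castAdd s e)))
        (fun e => M (Fin.castAdd s e)) (fun e => m (Fin.castAdd s e))
        (fun e => Q (Fin.castAdd s e)) (fun e => T (Fin.castAdd s e))
        (fun e => ρ (Fin.castAdd s e)) φ w₁ := by
    intro w₂ hw₂W hw₂0 K ν Φ hK hΦ hΦ0 hrel J C hC hp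
    obtain ⟨k1, k2, k3, k4⟩ := hγ w₂ hw₂W
    refine ⟨w₂, (hW₁W hw₂W).1, hw₂0, γ, ch, fun e => (cc (Fin.castAdd s e)).2,
      fun e => i (Fin.castAdd s e), K, fun e => ν (Fin.castAdd s e),
      fun e => Φ (Fin.castAdd s e), J, C, hK, k1, k2, fun e => (k4 _).2, k3, ?_,
      fun e => hW'i w₂ (hW₁W hw₂W) _, fun e => ⟨hΦ _, hΦ0 _⟩, fun e => hrel _, hC, hp⟩
    filter_upwards [hW₁.mem_nhds hw₂W] with w hw hwO
    have h6 := hO1 w hw hwO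
    exact ⟨h6, hO2 w hw h6⟩
  have hdetA : AnalyticAt ℂ (fun w => (fderiv ℂ (fun w => ch (γ w)) w).det) w₁ :=
    H19.analyticAt_det g3
  by_cases hdet : ∀ᶠ w in 𝓝 w₁, (fderiv ℂ (fun w => ch (γ w)) w).det = 0
  · -- the Jacobian vanishes identically
    obtain ⟨w₂, ⟨hw₂0, K, hK, hdat⟩, hw₂W, hd2⟩ :=
      ((exists_unit' hw₁0 hord).and_eventually
        ((hW₁.eventually_mem hw₁W).and hdet.eventually_nhds)).exists
    choose ν Φ hν hΦ hΦ0 hrel using hdat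
    obtain ⟨J, hJ⟩ := exists_nat_gt (-(∑ e : Fin k, ρ (Fin.castAdd s e) * ν (Fin.castAdd s e) /
        (Q (Fin.castAdd s e) * K)))
    refine fin w₂ hw₂W hw₂0 K ν Φ hK hΦ hΦ0 hrel J 0 ?_ (by linarith)
    filter_upwards [hd2] with w hw
    rw [hw, norm_zero, zero_mul]
  · obtain ⟨J, A₀, hA₀, hJ, hA₀ne⟩ := H19.exists_max_pow hdetA hw₁0 hdet
    have hfr : ∀ {B : Cm 4 → ℂ}, (¬ ∀ᶠ w in 𝓝 w₁, w 0 = 0 → B w = 0) →
        ∃ᶠ w in 𝓝 w₁, w 0 = 0 ∧ B w ≠ 0 := by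
      intro B hB
      rw [Filter.not_eventually] at hB
      refine hB.mono fun w hw => ?_
      push Not at hw
      exact hw
    -- the sections
    have hsa : ∀ j, AnalyticAt ℂ (fun w => sg j (cc (Fin.natAdd k j)).2 (γ w)) w₁ := fun j =>
      analyticAt_comp_chart g1 g2 g3 ((hbd j).sec.holo _ ch _ g2 (g4 _).2).analyticAt
    have hsne : ∀ j, ¬ ∀ᶠ w in 𝓝 w₁, sg j (cc (Fin.natAdd k j)).2 (γ w) = 0 := by
      intro j hz
      refine hdet ?_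
      filter_upwards [hz.eventually_nhds, hW₁n] with w h1 h2
      obtain ⟨k1, k2, k3, k4⟩ := hγ w h2
      exact det_zero_of_sub (hbd j) (fun μ => (hM _).isOpen μ) k1 k2 k3 (k4 _).2 h1.self_of_nhds h1
    choose g A hA hgA hAne using fun j => H19.exists_max_pow (hsa j) hw₁0 (hsne j)
    have hprod : ∃ᶠ w in 𝓝 w₁, w 0 = 0 ∧ ∏ j, A j w ≠ 0 :=
      (freq_prod hw₁0 Finset.univ hA fun j => hfr (hAne j)).mono fun w hw =>
        ⟨hw.1, Finset.prod_ne_zero_iff.2 hw.2⟩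
    have hCa : AnalyticAt ℂ (fun w => A₀ w * ∏ j, A j w) w₁ :=
      hA₀.mul (Finset.analyticAt_fun_prod Finset.univ fun j _ => hA j)
    have hCf := freq_mul' hw₁0 hA₀ (Finset.analyticAt_fun_prod Finset.univ fun j _ => hA j)
      (hfr hA₀ne) hprod
    have hev : ∀ᶠ w₂ in 𝓝 w₁, w₂ ∈ W₁ ∧ AnalyticAt ℂ A₀ w₂ ∧
        (∀ᶠ w in 𝓝 w₂, (fderiv ℂ (fun w => ch (γ w)) w).det = w 0 ^ J * A₀ w) ∧
        ∀ j, AnalyticAt ℂ (A j) w₂ ∧
          ∀ᶠ w in 𝓝 w₂, sg j (cc (Fin.natAdd k j)).2 (γ w) = w 0 ^ g j * A j w := by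
      refine (hW₁.eventually_mem hw₁W).and (hA₀.eventually_analyticAt.and
        (hJ.eventually_nhds.and ?_))
      rw [eventually_all]
      exact fun j => (hA j).eventually_analyticAt.and (hgA j).eventually_nhds
    obtain ⟨w₂, ⟨hw₂0, hC, K, hK, hdat⟩, hw₂W, hA₀2, hJ2, hA2⟩ :=
      ((exists_unit'' hw₁0 hord hCa hCf).and_eventually hev).exists
    choose ν Φ hν hΦ hΦ0 hrel using hdat
    have hA₀0 : A₀ w₂ ≠ 0 := left_ne_zero_of_mul hC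
    have hA0 : ∀ j, A j w₂ ≠ 0 := fun j =>
      Finset.prod_ne_zero_iff.1 (right_ne_zero_of_mul hC) j (Finset.mem_univ j)
    obtain ⟨k1, k2, k3, k4⟩ := hγ w₂ hw₂W
    have hgJ : ∀ j, g j ≤ J := fun j =>
      order_le_jac (hbd j) (fun μ => (hM _).isOpen μ) (hdn j) hw₂0 k1 k2 k3 (by
        filter_upwards [hW₁.mem_nhds hw₂W] with w hw hw0 using hO3 w hw hw0) (k4 _).2
        (hA2 j).1 (hA0 j) hA₀2 hA₀0 (hA2 j).2 hJ2
    have hνg : ∀ j, ν (Fin.natAdd k j) ≤ Q (Fin.natAdd k j) * K * g j := by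
      intro j
      obtain ⟨h, hh, hrel'⟩ := hsec j
      have hφ2 : HolAt X φ w₂ := hφ w₂ (hW₁W hw₂W).1
      refine ord_le_of_rel (D := {w | γ w ∈ O}) (η := fun w => h (i (Fin.natAdd k j)) (φ w)) hw₂0
        (hfreq w₂ hw₂W) (hΦ (Fin.natAdd k j)).continuousAt
        (hφ2.2 _ (hh.holo _ _ (mem_univ _) (hW'i w₂ (hW₁W hw₂W) _))).continuousAt
        (hA2 j).1.continuousAt (hA0 j) (hrel (Fin.natAdd k j)) ?_
      filter_upwards [hW₁.mem_nhds hw₂W, (hA2 j).2] with w hw h1 hwO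
      obtain ⟨m1, m2, m3, m4⟩ := hγ w hw
      have h2 := hrel' (γ w) hwO (i (Fin.natAdd k j)) (ch, (cc (Fin.natAdd k j)).2)
        (by rw [hO2 w hw hwO]; exact hW'i w (hW₁W hw) _) ⟨m2, (m4 _).2⟩
      rw [hO2 w hw hwO] at h2
      simp only at h2
      rw [h2, h1]
    have hsum1 : ∑ j : Fin s, ρ (Fin.natAdd k j) * ν (Fin.natAdd k j) /
        (Q (Fin.natAdd k j) * K) ≤ ∑ j : Fin s, ρ (Fin.natAdd k j) * g j := by
      refine Finset.sum_le_sum fun j _ => ?_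
      have h1 : (0 : ℝ) < Q (Fin.natAdd k j) * K := by
        have h2 := Nat.mul_pos (hTw.tw (Fin.natAdd k j)).hQ hK
        exact_mod_cast h2
      rw [div_le_iff₀ h1]
      have h3 : (ν (Fin.natAdd k j) : ℝ) ≤ Q (Fin.natAdd k j) * K * g j := by
        exact_mod_cast hνg j
      have h4 := mul_le_mul_of_nonneg_left h3 (hρ (Fin.natAdd k j)).le
      linarith
    have hsum2 : ∑ j : Fin s, ρ (Fin.natAdd k j) * g j ≤ J := by
      by_cases hex : ∃ j, 1 ≤ g j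
      · obtain ⟨j, hj⟩ := hex
        have hmem : ∀ j, 1 ≤ g j → γ w₂ ∈ range (ι j) := by
          intro j hj
          refine ((hbd j).zero _ _ (k4 (Fin.natAdd k j)).2).1 ?_
          rw [(hA2 j).2.self_of_nhds, hw₂0, zero_pow (by omega), zero_mul]
        have h1 : ∀ j' ∈ Finset.univ, j' ≠ j → ρ (Fin.natAdd k j') * g j' = 0 := by
          intro j' _ hjj
          have h2 : g j' = 0 := by
            by_contra h3
            exact disjoint_left.1 (hdis hjj) (hmem j' (by omega)) (hmem j hj)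
          rw [h2, Nat.cast_zero, mul_zero]
        rw [Finset.sum_eq_single j h1 fun h => absurd (Finset.mem_univ j) h]
        have h3 : (g j : ℝ) ≤ J := by exact_mod_cast hgJ j
        have h4 : (0 : ℝ) ≤ g j := Nat.cast_nonneg _
        nlinarith [hlt j]
      · push Not at hex
        have h1 : ∀ j, g j = 0 := fun j => by have := hex j; omega
        simp only [h1, Nat.cast_zero, mul_zero, Finset.sum_const_zero]
        exact Nat.cast_nonneg _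
    refine fin w₂ hw₂W hw₂0 K ν Φ hK hΦ hΦ0 hrel J (‖A₀ w₂‖ + 1) ?_ ?_
    · filter_upwards [hJ2, hA₀2.continuousAt.norm.eventually_lt continuousAt_const
        (lt_add_one _)] with w h1 h2
      rw [h1, norm_mul, norm_pow, mul_comm]
      exact mul_le_mul_of_nonneg_right h2.le (by positivity)
    · rw [hsum K hK ν hν] at hpos
      linarith

end

end Vale.Agent.P277.H335.RR
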