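import Vale.Agent.P277.H335.Lift

/-!
# P277, task TC: the tower of flips over the manifold `Y`
-/

open scoped Manifold ContDiff Topology
open Vale.Agent.P272.K Vale.Agent.P285.H281.FD Vale.Agent.P267.H175 Set Filter

noncomputable section

namespace Vale.Agent.P277.H335

open Vale.Agent.P277

variable {Y : Type} [TopologicalSpace Y] [ChartedSpace (Cm 4) Y]

/-- the wedges of `X` centred in `S` lift to `Y` -/
def Chain (N : Bd Y) (X : CSp) (L : Bd X.pt) (S : Set X.pt) (O : Set Y) (v : Y → X.pt)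
    (T : L.ι → N.ι → Y → ℂ) : Prop :=
  ∀ (W : Set (Cm 4)) (w₀ : Cm 4) (γ' : Cm 4 → X.pt) (i : L.ι), IsOpen W → w₀ ∈ W → w₀ 0 = 0 →
    (∀ w ∈ W, HolAt X γ' w) → W ⊆ closure {w | w ∈ W ∧ γ' w ∈ v '' O} →
    (∀ w ∈ W, γ' w ∈ L.U i) →
    ∃ w₁ ∈ W, w₁ 0 = 0 ∧ ∃ (W₁ : Set (Cm 4)) (γ₀ : Cm 4 → Y) (e : Chart 4 Y) (c : N.ι)
      (F : Cm 4 → ℂ) (K : ℕ), IsOpen W₁ ∧ w₁ ∈ W₁ ∧ W₁ ⊆ W ∧ 1 ≤ K ∧
      (∀ w ∈ W₁, ContinuousAt γ₀ w ∧ At e (γ₀ w) ∧ AnalyticAt ℂ (fun w => e (γ₀ w)) w ∧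
        γ₀ w ∈ N.U c ∧ AnalyticAt ℂ F w) ∧
      (∀ w ∈ W₁, γ' w ∈ v '' O → γ₀ w ∈ O) ∧ (∀ w ∈ W₁, γ₀ w ∈ O → v (γ₀ w) = γ' w) ∧
      (∀ w ∈ W₁, γ₀ w ∈ O → F w = T i c (γ₀ w) ^ K) ∧
      ((∀ w ∈ W, w 0 = 0 → γ' w ∈ S) → ∀ w ∈ W₁, w 0 = 0 → F w = 0)

/-- the data on a space `X` obtained from `X₀` by flips -/
structure Tw {X₀ : CSp} (v₀ : Y → X₀.pt) (N : Bd Y) (X : CSp) (L : Bd X.pt) (S : Set X.pt)
    (O : Set Y) (v : Y → X.pt) (P Q : ℕ) (T : L.ι → N.ι → Y → ℂ) : Prop where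
  emb : IsOpenEmb X O v
  dim : DimLe X 2 (v '' O)ᶜ
  dim0 : DimLe X₀ 2 (v₀ '' O)ᶜ
  hP : 1 ≤ P
  hQ : 1 ≤ Q
  lb : IsLBx X (L.pow P)
  iso : IsIsoY O v (L.pow P) (N.pow Q) T
  sub : S ⊆ (v '' O)ᶜ
  chain : Chain N X L S O v T

theorem IsIsoY.g_self {X : CSp} {O : Set Y} {v : Y → X.pt} {L : Bd X.pt} {M : Bd Y}
    {t : L.ι → M.ι → Y → ℂ} (h : IsIsoY O v L M t) (hL : IsLBx X L) {y : Y} (hy : y ∈ O) {i : L.ι}
    {c : M.ι} (hi : v y ∈ L.U i) (hc : y ∈ M.U c) : M.g c c y = 1 := by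
  have h1 := h.change y hy i i c c hi hi hc hc
  have h2 := (h.holo y hy i c (chartAt (Cm 4) y) ⟨chart_mem_atlas _ _, mem_chart_source _ _⟩
    hi hc).2
  have h3 : L.g i i (v y) = 1 := by
    have h4 := hL.cocycle i i i _ hi hi hi
    have h5 := hL.ne_zero i i _ hi hi
    exact mul_left_cancel₀ h5 (by rw [h4, mul_one])
  rw [h3, one_mul] at h1
  exact mul_left_cancel₀ h2 (by rw [← h1, mul_one])

theorem lb_self {X : CSp} {L : Bd X.pt} (hL : IsLBx X L) {x : X.pt} {i : L.ι} (hi : x ∈ L.U i) :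
    L.g i i x = 1 := by
  have h4 := hL.cocycle i i i _ hi hi hi
  have h5 := hL.ne_zero i i _ hi hi
  exact mul_left_cancel₀ h5 (by rw [h4, mul_one])

theorem lb_pow {X : CSp} {L : Bd X.pt} {q : ℕ} (hL : IsLBx X (L.pow q)) (P : ℕ) :
    IsLBx X (L.pow (q * P)) where
  isOpen := hL.isOpen
  cover := hL.cover
  holo i j x hi hj := by
    have h1 := hol_pow (hL.holo i j x hi hj) P
    refine hol_congr h1 (Eventually.of_forall fun y => ?_)
    exact pow_mul _ _ _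
  ne_zero i j x hi hj := by
    have h1 := hL.ne_zero i j x hi hj
    have h2 : L.g i j x ^ (q * P) = (L.g i j x ^ q) ^ P := pow_mul _ _ _
    show L.g i j x ^ (q * P) ≠ 0
    rw [h2]
    exact pow_ne_zero _ h1
  cocycle i j k x hi hj hk := by
    have h1 := hL.cocycle i j k x hi hj hk
    show L.g i j x ^ (q * P) * L.g j k x ^ (q * P) = L.g i k x ^ (q * P)
    rw [pow_mul, pow_mul, pow_mul, ← mul_pow]
    exact congrArg (· ^ P) h1

/-- the map `X ⇢ X₀` -/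
theorem holMap_inv {X₀ X : CSp} {v₀ : Y → X₀.pt} {O : Set Y} {v : Y → X.pt}
    (hv₀ : IsOpenEmb X₀ univ v₀) (hv : IsOpenEmb X O v) (y₀ : Y) {y : Y} (hy : y ∈ O) :
    HolMap X X₀ (fun x => v₀ (hv.inv y₀ x)) (v y) := by
  refine ⟨?_, fun g hg => ?_⟩
  · refine ContinuousAt.comp (g := v₀) ?_ (hv.inv_continuousAt y₀ hy)
    rw [hv.inv_apply y₀ hy]
    exact hv₀.continuousAt (mem_univ y)
  · simp only [hv.inv_apply y₀ hy] at hg
    have he : At (chartAt (Cm 4) y) y := ⟨chart_mem_atlas _ _, mem_chart_source _ _⟩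
    exact hv.hol_of_analyticAt y₀ hy he (g := fun y => g (v₀ y)) ((hv₀.hol_iff (mem_univ y) he).1 hg)

/-- the complement in `X₀` -/
theorem dim0_step {X₀ X : CSp} {v₀ : Y → X₀.pt} {O : Set Y} {v : Y → X.pt}
    (hv₀ : IsOpenEmb X₀ univ v₀) (hv : IsOpenEmb X O v) {d : ℕ} (h0 : DimLe X₀ d (v₀ '' O)ᶜ)
    {E : Set X.pt} (hE : DimLe X d E) : DimLe X₀ d (v₀ '' {y | y ∈ O ∧ v y ∉ E})ᶜ := by
  rcases isEmpty_or_nonempty Y with hY | ⟨⟨y₀⟩⟩
  · refine h0.mono (compl_subset_compl.2 ?_)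
    rintro _ ⟨y, -, -⟩
    exact (hY.false y).elim
  · have h1 : DimLe X₀ d ((fun x => v₀ (hv.inv y₀ x)) '' (E ∩ v '' O)) := by
      refine (hE.mono inter_subset_left).image ?_
      rintro _ ⟨-, y, hy, rfl⟩
      exact holMap_inv hv₀ hv y₀ hy
    refine (h0.union h1).mono fun x hx => ?_
    by_cases hxO : x ∈ v₀ '' O
    · obtain ⟨y, hy, rfl⟩ := hxO
      refine Or.inr ⟨v y, ⟨?_, y, hy, rfl⟩, by simp only [hv.inv_apply y₀ hy]⟩
      by_contra hyE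
      exact hx ⟨y, ⟨hy, hyE⟩, rfl⟩
    · exact Or.inl hxO

section step

variable {X₀ X Z X' : CSp} {v₀ : Y → X₀.pt} {N : Bd Y} {L : Bd X.pt} {S : Set X.pt} {O : Set Y}
  {v : Y → X.pt} {P Q : ℕ} {T : L.ι → N.ι → Y → ℂ} {L' : Bd X'.pt} {f : X.pt → Z.pt}
  {f' : X'.pt → Z.pt} {A : Set Z.pt} {p q : ℕ} {s : L.ι → L'.ι → Z.pt → ℂ}

/-- the composite isomorphism in the frame `a` of `L` -/
def comp1 (v : Y → X.pt) (f : X.pt → Z.pt) (P p : ℕ) (T : L.ι → N.ι → Y → ℂ)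
    (s : L.ι → L'.ι → Z.pt → ℂ) (a : L.ι) (b : L'.ι) (c : N.ι) (y : Y) : ℂ :=
  T a c y ^ p / s a b (f (v y)) ^ P

theorem comp1_indep (h : IsIsoY O v (L.pow P) (N.pow Q) T) (hP : IsLBx X (L.pow P))
    (hs : IsIso f f' A (L.pow p) (L'.pow q) s) (hp : IsLBx X (L.pow p)) (hq : IsLBx X' (L'.pow q))
    {y : Y} (hy : y ∈ O) (hyA : f (v y) ∉ A) {x' : X'.pt} (hx' : f' x' = f (v y)) {a a₁ : L.ι}
    {b : L'.ι} {c : N.ι} (ha : v y ∈ L.U a) (ha₁ : v y ∈ L.U a₁) (hb : x' ∈ L'.U b)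
    (hc : y ∈ N.U c) :
    comp1 v f P p T s a₁ b c y = comp1 v f P p T s a b c y := by
  have h1 : T a₁ c y = L.g a a₁ (v y) ^ P * T a c y * N.g c c y ^ Q :=
    h.change y hy a a₁ c c ha ha₁ hc hc
  have h2 : N.g c c y ^ Q = 1 := IsIsoY.g_self h hP hy ha hc
  have h3 : s a₁ b (f (v y)) = L.g a a₁ (v y) ^ p * s a b (f (v y)) * L'.g b b x' ^ q :=
    hs.change (v y) x' a a₁ b b hyA hx' ha ha₁ hb hb
  have h4 : L'.g b b x' ^ q = 1 := lb_self hq hb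
  have h5 : L.g a a₁ (v y) ^ p ≠ 0 := hp.ne_zero a a₁ _ ha ha₁
  have h6 : s a b (f (v y)) ≠ 0 := (hs.holo (v y) x' a b hyA hx' ha hb).2
  rw [h2, mul_one] at h1
  rw [h4, mul_one] at h3
  simp only [comp1, h1, h3]
  have h7 : (L.g a a₁ (v y) ^ P * T a c y) ^ p = (L.g a a₁ (v y) ^ p) ^ P * T a c y ^ p := by
    rw [mul_pow, ← pow_mul, ← pow_mul, Nat.mul_comm]
  have h8 : (L.g a a₁ (v y) ^ p * s a b (f (v y))) ^ P =
      (L.g a a₁ (v y) ^ p) ^ P * s a b (f (v y)) ^ P := mul_pow _ _ _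
  rw [h7, h8, mul_div_mul_left _ _ (pow_ne_zero _ h5)]

/-- The step: from the tower on `X` to the tower on `X'`. -/
theorem Tw.step (hTB : StTB) (hN : ∀ c, IsOpen (N.U c)) (hv₀ : IsOpenEmb X₀ univ v₀) (h : Tw v₀ N X L S O v P Q T)
    (hp : 1 ≤ p) (hq : 1 ≤ q) (hf : IsFlip X Z X' f f' A (L.pow p) (L'.pow q)) (hA : A = Amin f) :
    ∃ (O' : Set Y) (v' : Y → X'.pt) (P' Q' : ℕ) (T' : L'.ι → N.ι → Y → ℂ),
      Tw v₀ N X' L' (f' ⁻¹' A) O' v' P' Q' T' := by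
  obtain ⟨s, hs⟩ := hf.iso
  have hs' : IsIso f f' A (L.pow p) (L'.pow q) s := hs
  set O' : Set Y := {y | y ∈ O ∧ f (v y) ∉ A} with hO'
  set v' : Y → X'.pt := fun y => hf.small'.sec (f (v y)) with hv'
  have hf'v' : ∀ y, f' (v' y) = f (v y) := fun y => hf.small'.sec_eq _
  choose a ha using hf.lb.cover
  have ha' : ∀ x, x ∈ L.U (a x) := ha
  set T' : L'.ι → N.ι → Y → ℂ := fun b c y => comp1 v f P p T s (a (v y)) b c y with hT'
  have hemb : IsOpenEmb X' O' v' := h.emb.flip hf.small hf.small'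
  have hindep : ∀ y ∈ O', ∀ (a₁ : L.ι) (b : L'.ι) (c : N.ι), v y ∈ L.U a₁ → v' y ∈ L'.U b →
      y ∈ N.U c → T' b c y = comp1 v f P p T s a₁ b c y := fun y hy a₁ b c h1 h2 h3 =>
    comp1_indep h.iso h.lb hs' hf.lb hf.lb' hy.1 hy.2 (hf'v' y) h1 (ha' _) h2 h3
  refine ⟨O', v', q * P, Q * p, T', ?_⟩
  refine ⟨hemb, dimLe_compl_flip hf.small hf.small' h.dim hf.small'.dim, ?_, Nat.mul_pos hq h.hP,
    Nat.mul_pos h.hQ hp, lb_pow hf.lb' P, ?_, ?_, ?_⟩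
  · -- dimension in `X₀`
    exact dim0_step hv₀ h.emb h.dim0 hf.small.dim
  · -- the isomorphism
    refine ⟨?_, ?_⟩
    · intro y hy b c e he hb hc
      have hb' : v' y ∈ L'.U b := hb
      have hc' : y ∈ N.U c := hc
      have h1 := h.iso.holo y hy.1 (a (v y)) c e he (ha' _) hc'
      have h2 := hs'.holo (v y) (v' y) (a (v y)) b hy.2 (hf'v' y) (ha' _) hb'
      have h3 : AnalyticAt ℂ (fun z => s (a (v y)) b (f (v (e.symm z)))) (e y) :=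
        (h.emb.hol_iff hy.1 he).1 (hf.small.holo _ _ h2.1)
      have h3' : s (a (v y)) b (f (v (e.symm (e y)))) ≠ 0 := by rw [e.left_inv he.2]; exact h2.2
      refine ⟨?_, ?_⟩
      · have h4 : AnalyticAt ℂ (fun z => comp1 v f P p T s (a (v y)) b c (e.symm z)) (e y) :=
          (h1.1.pow p).div (h3.pow P) (pow_ne_zero _ h3')
        refine h4.congr ?_
        have h5 : ContinuousAt e.symm (e y) := e.continuousAt_symm (e.map_source he.2)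
        have h6 : ContinuousAt (fun z => v (e.symm z)) (e y) := by
          refine ContinuousAt.comp (g := v) ?_ h5
          rw [e.left_inv he.2]; exact h.emb.continuousAt hy.1
        have h7 : ContinuousAt (fun z => v' (e.symm z)) (e y) := by
          refine ContinuousAt.comp (g := v') ?_ h5
          rw [e.left_inv he.2]; exact hemb.continuousAt hy
        have e1 : ∀ᶠ z in 𝓝 (e y), e.symm z ∈ O' := h5.eventually_mem (by
          rw [e.left_inv he.2]; exact hemb.isOpen.mem_nhds hy)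
        have e2 : ∀ᶠ z in 𝓝 (e y), v (e.symm z) ∈ L.U (a (v y)) := h6.eventually_mem (by
          rw [e.left_inv he.2]; exact (hf.lb.isOpen _).mem_nhds (ha' _))
        have e3 : ∀ᶠ z in 𝓝 (e y), v' (e.symm z) ∈ L'.U b := h7.eventually_mem (by
          rw [e.left_inv he.2]; exact (hf.lb'.isOpen _).mem_nhds hb')
        have e4 : ∀ᶠ z in 𝓝 (e y), e.symm z ∈ N.U c := h5.eventually_mem (by
          rw [e.left_inv he.2]; exact (hN c).mem_nhds hc')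
        filter_upwards [e1, e2, e3, e4] with z z1 z2 z3 z4
        exact (hindep _ z1 _ b c z2 z3 z4).symm
      · exact div_ne_zero (pow_ne_zero _ h1.2) (pow_ne_zero _ h2.2)
    · intro y hy b b₁ c c₁ hb hb₁ hc hc₁
      have hb' : v' y ∈ L'.U b := hb
      have hb₁' : v' y ∈ L'.U b₁ := hb₁
      have k1 : T (a (v y)) c₁ y = L.g (a (v y)) (a (v y)) (v y) ^ P * T (a (v y)) c y *
          N.g c₁ c y ^ Q := h.iso.change y hy.1 _ _ c c₁ (ha' _) (ha' _) hc hc₁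
      have k2 : L.g (a (v y)) (a (v y)) (v y) ^ P = 1 := lb_self h.lb (ha' _)
      have k3 : s (a (v y)) b₁ (f (v y)) = L.g (a (v y)) (a (v y)) (v y) ^ p *
          s (a (v y)) b (f (v y)) * L'.g b₁ b (v' y) ^ q :=
        hs'.change (v y) (v' y) _ _ b b₁ hy.2 (hf'v' y) (ha' _) (ha' _) hb' hb₁'
      have k4 : L.g (a (v y)) (a (v y)) (v y) ^ p = 1 := lb_self hf.lb (ha' _)
      have k5 : L'.g b b₁ (v' y) ^ q * L'.g b₁ b (v' y) ^ q = L'.g b b (v' y) ^ q :=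
        hf.lb'.cocycle b b₁ b _ hb' hb₁' hb'
      have k6 : L'.g b b (v' y) ^ q = 1 := lb_self hf.lb' hb'
      have k7 : s (a (v y)) b (f (v y)) ≠ 0 :=
        (hs'.holo (v y) (v' y) (a (v y)) b hy.2 (hf'v' y) (ha' _) hb').2
      have k8 : L'.g b₁ b (v' y) ^ q ≠ 0 := hf.lb'.ne_zero b₁ b _ hb₁' hb'
      rw [k6] at k5
      rw [k2, one_mul] at k1
      rw [k4, one_mul] at k3
      show T (a (v y)) c₁ y ^ p / s (a (v y)) b₁ (f (v y)) ^ P =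
        L'.g b b₁ (v' y) ^ (q * P) * (T (a (v y)) c y ^ p / s (a (v y)) b (f (v y)) ^ P) *
          N.g c₁ c y ^ (Q * p)
      rw [k1, k3, pow_mul, pow_mul, mul_pow, mul_pow]
      have k9 : L'.g b b₁ (v' y) ^ q = (L'.g b₁ b (v' y) ^ q)⁻¹ := eq_inv_of_mul_eq_one_left k5
      rw [k9]
      generalize L'.g b₁ b (v' y) ^ q = u at *
      generalize N.g c₁ c y ^ Q = w at *
      generalize T (a (v y)) c y ^ p = r at *
      generalize s (a (v y)) b (f (v y)) ^ P = r' at *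
      rw [inv_pow]
      have k10 : u ^ P ≠ 0 := pow_ne_zero _ k8
      generalize u ^ P = u' at *
      generalize w ^ p = w' at *
      by_cases hr : r' = 0
      · simp [hr]
      · field_simp
  · -- `f'⁻¹ A` does not meet `v' O'`
    rintro x' hx' ⟨y, hy, rfl⟩
    have h1 : f' (v' y) ∈ A := hx'
    rw [hf'v'] at h1
    exact hy.2 h1
  · -- lifting wedges
    intro W w₀ γ' b hW hw₀ hw₀0 hγ' hd hb
    have hd' : W ⊆ closure {w | w ∈ W ∧ f' (γ' w) ∉ A} := by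
      refine hd.trans (closure_mono ?_)
      rintro w ⟨hw, y, hy, hyw⟩
      refine ⟨hw, ?_⟩
      rw [← hyw, hf'v']; exact hy.2
    obtain ⟨w₁, hw₁W, hw₁0, W₁, γ, k, a₁, H, hW₁, hw₁, hW₁W, hγ, hk, hHt, hH0⟩ :=
      lift hTB hf hA hs hW hw₀ hw₀0 hγ' hd' b hb
    -- points over `v' O'`
    have key : ∀ w ∈ W₁, ∀ y ∈ O', v' y = γ' w → γ w = v y := by
      intro w hw y hy hyw
      have h1 : f (γ w) = f (v y) := by rw [(hγ w hw).2.1, ← hyw, hf'v']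
      exact hf.small.inj _ _ hy.2 h1
    have hd₁ : W₁ ⊆ closure {w | w ∈ W₁ ∧ γ w ∈ v '' O} := by
      refine (subset_closure_of_open (D := {w | γ' w ∈ v' '' O'}) hW₁ hW₁W hd).trans
        (closure_mono ?_)
      rintro w ⟨hw, y, hy, hyw⟩
      exact ⟨hw, y, hy.1, (key w hw y hy hyw).symm⟩
    obtain ⟨w₂, hw₂W, hw₂0, W₂, γ₀, e, c, F, K, hW₂, hw₂, hW₂W, hK, hγ₀, hO1, hO2, hF, -⟩ :=
      h.chain W₁ w₁ γ a₁ hW₁ hw₁ hw₁0 (fun w hw => (hγ w hw).1) hd₁ fun w hw => (hγ w hw).2.2.1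
    have hO2' : ∀ w ∈ W₂, γ₀ w ∈ O' → v' (γ₀ w) = γ' w := by
      intro w hw hy
      have h1 : v (γ₀ w) = γ w := hO2 w hw hy.1
      refine hf.small'.inj _ _ ?_ ?_
      · rw [← (hγ w (hW₂W hw)).2.1, ← h1]; exact hy.2
      · rw [hf'v', h1, (hγ w (hW₂W hw)).2.1]
    refine ⟨w₂, hW₁W hw₂W, hw₂0, W₂, γ₀, e, c, fun w => F w ^ (p * k) * H w ^ (P * K), K * k, hW₂,
      hw₂, hW₂W.trans hW₁W, Nat.mul_pos hK hk, ?_, ?_, hO2', ?_, ?_⟩
    · intro w hw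
      obtain ⟨g1, g2, g3, g4, g5⟩ := hγ₀ w hw
      exact ⟨g1, g2, g3, g4, (g5.pow _).mul ((hγ w (hW₂W hw)).2.2.2.pow _)⟩
    · rintro w hw ⟨y, hy, hyw⟩
      have h1 : γ w = v y := key w (hW₂W hw) y hy hyw
      have h2 : γ₀ w ∈ O := hO1 w hw ⟨y, hy.1, h1.symm⟩
      have h3 : γ₀ w = y := h.emb.inj h2 hy.1 (by rw [hO2 w hw h2, h1])
      rw [h3]; exact hy
    · intro w hw hy
      have h1 : v (γ₀ w) = γ w := hO2 w hw hy.1
      have h2 : v (γ₀ w) ∈ L.U a₁ := by rw [h1]; exact (hγ w (hW₂W hw)).2.2.1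
      have h3 : v' (γ₀ w) ∈ L'.U b := by
        rw [hO2' w hw hy]; exact hb w (hW₁W (hW₂W hw))
      rw [hindep _ hy a₁ b c h2 h3 (hγ₀ w hw).2.2.2.1]
      have h4 : f (γ w) ∉ A := by rw [← h1]; exact hy.2
      have h5 := hHt w (hW₂W hw) h4
      rw [← h1] at h5
      show F w ^ (p * k) * H w ^ (P * K) = (T a₁ c (γ₀ w) ^ p / s a₁ b (f (v (γ₀ w))) ^ P) ^ (K * k)
      rw [hF w hw hy.1]
      generalize s a₁ b (f (v (γ₀ w))) = u at *
      generalize T a₁ c (γ₀ w) = r at *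
      have hu : u ^ k ≠ 0 := right_ne_zero_of_mul (h5.trans_ne one_ne_zero)
      have h6 : H w = (u ^ k)⁻¹ := eq_inv_of_mul_eq_one_left h5
      rw [h6, div_pow, div_eq_mul_inv, inv_pow]
      congr 1
      · rw [← pow_mul, ← pow_mul]; congr 1; ring
      · congr 1
        rw [← pow_mul, ← pow_mul]; congr 1; ring
    · intro h0 w hw hw0
      have h1 : H w = 0 := hH0 (fun z hz hz0 => h0 z hz hz0) w (hW₂W hw) hw0
      show F w ^ (p * k) * H w ^ (P * K) = 0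
      rw [h1, zero_pow (Nat.mul_pos h.hP hK).ne', mul_zero]

end step

end Vale.Agent.P277.H335
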