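import Vale.Agent.P277.Stmts4
import Vale.Agent.P277.A.Basic
import Vale.Agent.P277.H335.RE
import Vale.Agent.P277.H622.B1
import Vale.Agent.P277.H622.B3
import Vale.Agent.P277.H622.Loc

/-!
# P277, TX-COV, part 1: proper maps, local sections, degree
-/

open Set Filter Metric Topology
open Vale.Agent.P272.K Vale.Agent.P277.TX

noncomputable section

namespace Vale.Agent.P277.H335

theorem stRE : StRE := by
  intro c r E hthin f hf hb
  obtain ⟨hopen, Ω, g, hΩ, hg, hE⟩ := hthin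
  exact riemann_ext isOpen_ball hopen hg hE hf hb

/-- a proper holomorphic map onto (a subset of) a ball -/
structure Base (X : CSp) (V : Set X.pt) (G : X.pt → Cm 4) (c : Cm 4) (r : ℝ) : Prop where
  isOpen : IsOpen V
  pos : 0 < r
  holo : ∀ x ∈ V, ∀ i, X.Hol (fun y => G y i) x
  maps : ∀ x ∈ V, G x ∈ ball c r
  proper : ∀ r' < r, IsCompact {x | x ∈ V ∧ G x ∈ closedBall c r'}

/-- `G` has a local section through `x` and is injective near `x` -/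
def Sec (X : CSp) (V : Set X.pt) (G : X.pt → Cm 4) (x : X.pt) : Prop :=
  ∃ (N : Set X.pt) (s : Cm 4 → X.pt), IsOpen N ∧ x ∈ N ∧ N ⊆ V ∧ IsOpen (G '' N) ∧
    ∀ y ∈ N, s (G y) = y ∧ HolAt X s (G y)

theorem exists_enum {T : Type} {F : Set T} (hF : F.Finite) :
    ∃ (m : ℕ) (p : Fin m → T), Function.Injective p ∧ ∀ y, (∃ k, p k = y) ↔ y ∈ F := by
  classical
  refine ⟨hF.toFinset.card, fun k => (hF.toFinset.equivFin.symm k : T), fun a b hab => ?_,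
    fun y => ⟨?_, fun hy => ?_⟩⟩
  · exact hF.toFinset.equivFin.symm.injective (Subtype.ext hab)
  · rintro ⟨k, rfl⟩
    exact hF.mem_toFinset.1 (hF.toFinset.equivFin.symm k).2
  · exact ⟨hF.toFinset.equivFin ⟨y, hF.mem_toFinset.2 hy⟩, by simp⟩

/-- compact subsets of a ball -/
theorem exists_closedBall {c : Cm 4} {r : ℝ} {K : Set (Cm 4)} (hK : IsCompact K)
    (hKb : K ⊆ ball c r) : ∃ r' < r, K ⊆ closedBall c r' := by
  rcases K.eq_empty_or_nonempty with h | h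
  · exact ⟨r - 1, by linarith, by simp [h]⟩
  · obtain ⟨x, hx, hmax⟩ := hK.exists_isMaxOn h
      (f := fun z => dist z c) (continuous_id.dist continuous_const).continuousOn
    exact ⟨dist x c, mem_ball.1 (hKb hx), fun y hy => mem_closedBall.2 (hmax hy)⟩

namespace Base

variable {X : CSp} {V : Set X.pt} {G : X.pt → Cm 4} {c : Cm 4} {r : ℝ}

theorem contAt (h : Base X V G c r) {x : X.pt} (hx : x ∈ V) : ContinuousAt G x :=
  continuousAt_pi.2 fun i => hol_continuousAt (h.holo x hx i)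

theorem contOn (h : Base X V G c r) : ContinuousOn G V := fun _ hx =>
  (h.contAt hx).continuousWithinAt

theorem compact (h : Base X V G c r) {K : Set (Cm 4)} (hK : IsCompact K) (hKb : K ⊆ ball c r) :
    IsCompact {x | x ∈ V ∧ G x ∈ K} := by
  obtain ⟨r', hr', hK'⟩ := exists_closedBall hK hKb
  have h1 := h.proper r' hr'
  have h2 : ContinuousOn G {x | x ∈ V ∧ G x ∈ closedBall c r'} := h.contOn.mono fun x hx => hx.1
  have h3 := h2.preimage_isClosed_of_isClosed h1.isClosed hK.isClosed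
  have h4 : {x | x ∈ V ∧ G x ∈ K} =
      {x | x ∈ V ∧ G x ∈ closedBall c r'} ∩ ({x | x ∈ V ∧ G x ∈ closedBall c r'} ∩ G ⁻¹' K) := by
    ext x
    constructor
    · rintro ⟨a, b⟩
      exact ⟨⟨a, hK' b⟩, ⟨a, hK' b⟩, b⟩
    · rintro ⟨⟨a, -⟩, -, b⟩
      exact ⟨a, b⟩
  rw [h4]
  exact h1.inter_right h3

theorem isOpen_pre (h : Base X V G c r) {U : Set (Cm 4)} (hU : IsOpen U) :
    IsOpen {x | x ∈ V ∧ G x ∈ U} := h.contOn.isOpen_inter_preimage h.isOpen hU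

/-- splitting into pieces over a small ball -/
theorem split (h : Base X V G c r) {z : Cm 4} (hz : z ∈ ball c r) {m : ℕ} {p : Fin m → X.pt}
    (hinj : Function.Injective p) (hp : ∀ y, (∃ k, p k = y) ↔ y ∈ V ∧ G y = z)
    (N : Fin m → Set X.pt) (hN : ∀ k, N k ∈ 𝓝 (p k)) :
    ∃ (r₀ : ℝ) (M : Fin m → Set X.pt), 0 < r₀ ∧ (∀ k, IsOpen (M k) ∧ p k ∈ M k ∧
      M k ⊆ N k ∩ V ∧ ∀ x ∈ M k, G x = z → x = p k) ∧ (∀ k l, k ≠ l → Disjoint (M k) (M l)) ∧
      ∀ r' : ℝ, 0 < r' → r' ≤ r₀ → ball z r' ⊆ ball c r ∧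
        (∀ k, Base X {x | x ∈ M k ∧ G x ∈ ball z r'} G z r') ∧
        ∀ x ∈ V, G x ∈ ball z r' → ∃ k, x ∈ M k := by
  obtain ⟨U, hU, hUd⟩ := (finite_range p).t2_separation
  set M : Fin m → Set X.pt := fun k => U (p k) ∩ interior (N k) ∩ V with hM
  have hMo : ∀ k, IsOpen (M k) := fun k => ((hU (p k)).2.inter isOpen_interior).inter h.isOpen
  have hpV : ∀ k, p k ∈ V ∧ G (p k) = z := fun k => (hp (p k)).1 ⟨k, rfl⟩
  have hpM : ∀ k, p k ∈ M k := fun k => ⟨⟨(hU (p k)).1, mem_interior_iff_mem_nhds.2 (hN k)⟩,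
    (hpV k).1⟩
  have hMd : ∀ k l, k ≠ l → Disjoint (M k) (M l) := by
    intro k l hkl
    have h1 := hUd (mem_range_self k) (mem_range_self l) (fun h => hkl (hinj h))
    exact h1.mono (fun x hx => hx.1.1) (fun x hx => hx.1.1)
  obtain ⟨ρ, hρ, hρb⟩ : ∃ ρ > 0, closedBall z ρ ⊆ ball c r := by
    obtain ⟨ρ, hρ, h1⟩ := Metric.isOpen_iff.1 isOpen_ball z hz
    exact ⟨ρ / 2, by positivity, (closedBall_subset_ball (by linarith)).trans h1⟩
  have hK : IsCompact {x | x ∈ V ∧ G x ∈ closedBall z ρ} := h.compact (isCompact_closedBall z ρ) hρb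
  have hK1 : IsCompact ({x | x ∈ V ∧ G x ∈ closedBall z ρ} \ ⋃ k, M k) :=
    hK.diff (isOpen_iUnion hMo)
  have hK2 : IsClosed (G '' ({x | x ∈ V ∧ G x ∈ closedBall z ρ} \ ⋃ k, M k)) :=
    (hK1.image_of_continuousOn (h.contOn.mono fun x hx => hx.1.1)).isClosed
  have hz2 : z ∉ G '' ({x | x ∈ V ∧ G x ∈ closedBall z ρ} \ ⋃ k, M k) := by
    rintro ⟨x, ⟨⟨hx, -⟩, hx'⟩, hxz⟩
    obtain ⟨k, rfl⟩ := (hp x).2 ⟨hx, hxz⟩
    exact hx' (mem_iUnion.2 ⟨k, hpM k⟩)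
  obtain ⟨r1, hr1, hr1b⟩ := Metric.isOpen_iff.1 hK2.isOpen_compl z hz2
  have hcov : ∀ r' : ℝ, r' ≤ min ρ r1 → ∀ x ∈ V, G x ∈ ball z r' → ∃ k, x ∈ M k := by
    intro r' hr' x hx hGx
    by_contra hcon
    have h1 : G x ∈ ball z r1 := ball_subset_ball (hr'.trans (min_le_right _ _)) hGx
    refine hr1b h1 ⟨x, ⟨⟨hx, ?_⟩, fun h2 => hcon (mem_iUnion.1 h2)⟩, rfl⟩
    exact ball_subset_closedBall (ball_subset_ball (hr'.trans (min_le_left _ _)) hGx)
  refine ⟨min ρ r1, M, lt_min hρ hr1, fun k => ⟨hMo k, hpM k, fun x hx =>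
    ⟨interior_subset hx.1.2, hx.2⟩, fun x hx hxz => ?_⟩, hMd, fun r' hr' hr'' => ?_⟩
  · obtain ⟨l, rfl⟩ := (hp x).2 ⟨hx.2, hxz⟩
    by_contra hne
    exact (disjoint_left.1 (hMd l k fun h => hne (by rw [h]))) (hpM l) hx
  · have hb : ball z r' ⊆ ball c r := (ball_subset_ball (hr''.trans (min_le_left _ _))).trans
      (ball_subset_closedBall.trans hρb)
    refine ⟨hb, fun k => ⟨?_, hr', fun x hx => h.holo x hx.1.2, fun x hx => hx.2,
      fun r'' hr3 => ?_⟩, hcov r' hr''⟩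
    · have h1 : {x | x ∈ M k ∧ G x ∈ ball z r'} = M k ∩ {x | x ∈ V ∧ G x ∈ ball z r'} := by
        ext x
        constructor
        · rintro ⟨a, b⟩; exact ⟨a, a.2, b⟩
        · rintro ⟨a, -, b⟩; exact ⟨a, b⟩
      rw [h1]
      exact (hMo k).inter (h.isOpen_pre isOpen_ball)
    · have h1 : closedBall z r'' ⊆ ball z r' := closedBall_subset_ball hr3
      have h2 := (h.compact (isCompact_closedBall z r'') (h1.trans hb)).diff
        (isOpen_biUnion (s := {l | l ≠ k}) fun l _ => hMo l)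
      convert h2 using 1
      ext x
      constructor
      · rintro ⟨⟨a, -⟩, b⟩
        refine ⟨⟨a.2, b⟩, fun h3 => ?_⟩
        simp only [mem_iUnion] at h3
        obtain ⟨l, hl, hxl⟩ := h3
        exact (disjoint_left.1 (hMd l k hl)) hxl a
      · rintro ⟨⟨a, b⟩, h3⟩
        obtain ⟨l, hl⟩ := hcov r' hr'' x a (h1 b)
        have hlk : l = k := by
          by_contra hne
          apply h3
          simp only [mem_iUnion]
          exact ⟨l, hne, hl⟩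
        subst hlk
        exact ⟨⟨hl, h1 b⟩, b⟩

end Base

/-! ### local sections -/

theorem Sec.image_open {X : CSp} {G : X.pt → Cm 4} {N : Set X.pt}
    {s : Cm 4 → X.pt} (hGN : IsOpen (G '' N)) (hs : ∀ y ∈ N, s (G y) = y ∧ HolAt X s (G y))
    {N' : Set X.pt} (hN' : IsOpen N') (hNN : N' ⊆ N) : IsOpen (G '' N') := by
  have h1 : G '' N' = G '' N ∩ s ⁻¹' N' := by
    ext w
    constructor
    · rintro ⟨y, hy, rfl⟩
      refine ⟨⟨y, hNN hy, rfl⟩, ?_⟩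
      show s (G y) ∈ N'
      rw [(hs y (hNN hy)).1]; exact hy
    · rintro ⟨⟨y, hy, rfl⟩, h2⟩
      have h3 : s (G y) ∈ N' := h2
      rw [(hs y hy).1] at h3
      exact ⟨y, h3, rfl⟩
  rw [h1]
  have h2 : ContinuousOn s (G '' N) := by
    rintro _ ⟨y, hy, rfl⟩
    exact (hs y hy).2.1.continuousWithinAt
  exact h2.isOpen_inter_preimage hGN hN'

theorem Sec.shrink {X : CSp} {V : Set X.pt} {G : X.pt → Cm 4} {x : X.pt} (h : Sec X V G x)
    {N' : Set X.pt} (hN' : IsOpen N') (hx : x ∈ N') :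
    ∃ (N : Set X.pt) (s : Cm 4 → X.pt), IsOpen N ∧ x ∈ N ∧ N ⊆ N' ∩ V ∧ IsOpen (G '' N) ∧
      ∀ y ∈ N, s (G y) = y ∧ HolAt X s (G y) := by
  obtain ⟨N, s, hN, hxN, hNV, hGN, hs⟩ := h
  exact ⟨N ∩ N', s, hN.inter hN', ⟨hxN, hx⟩, fun y hy => ⟨hy.2, hNV hy.1⟩,
    Sec.image_open hGN hs (hN.inter hN') inter_subset_left, fun y hy => hs y hy.1⟩

theorem Sec.mono {X : CSp} {V : Set X.pt} {G : X.pt → Cm 4} {x : X.pt} (h : Sec X V G x)
    {N' : Set X.pt} (hN' : IsOpen N') (hx : x ∈ N') : Sec X N' G x := by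
  obtain ⟨N, s, h1, h2, h3, h4, h5⟩ := h.shrink hN' hx
  exact ⟨N, s, h1, h2, fun y hy => (h3 hy).1, h4, h5⟩

theorem Sec.injOn {X : CSp} {G : X.pt → Cm 4} {N : Set X.pt}
    {s : Cm 4 → X.pt} (hs : ∀ y ∈ N, s (G y) = y ∧ HolAt X s (G y)) : InjOn G N := by
  intro a ha b hb hab
  rw [← (hs a ha).1, ← (hs b hb).1, hab]

/-- openness of the set of points with a section -/
theorem isOpen_sec {X : CSp} {V : Set X.pt} {G : X.pt → Cm 4} : IsOpen {x | Sec X V G x} := by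
  rw [isOpen_iff_mem_nhds]
  rintro x ⟨N, s, hN, hxN, hNV, hGN, hs⟩
  exact mem_of_superset (hN.mem_nhds hxN) fun y hy => ⟨N, s, hN, hy, hNV, hGN, hs⟩

/-- the correspondence of holomorphic functions given by a section -/
theorem Sec.hol_iff {X : CSp} {V : Set X.pt} {G : X.pt → Cm 4}
    (hG : ∀ x ∈ V, ∀ i, X.Hol (fun y => G y i) x) {N : Set X.pt}
    {s : Cm 4 → X.pt} (hN : IsOpen N) (hNV : N ⊆ V)
    (hs : ∀ y ∈ N, s (G y) = y ∧ HolAt X s (G y)) {y : X.pt} (hy : y ∈ N) (h : X.pt → ℂ) :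
    X.Hol h y ↔ ∃ g : Cm 4 → ℂ, AnalyticAt ℂ g (G y) ∧ h =ᶠ[𝓝 y] g ∘ G := by
  constructor
  · intro hh
    refine ⟨fun w => h (s w), (hs y hy).2.analyticAt (by rw [(hs y hy).1]; exact hh), ?_⟩
    filter_upwards [hN.mem_nhds hy] with x hx
    simp only [Function.comp_apply]
    rw [(hs x hx).1]
  · rintro ⟨g, hg, hgh⟩
    have h1 : X.Hol (fun y => g fun i => G y i) y := hol_comp (fun i => hG y (hNV hy) i) hg
    exact hol_congr h1 hgh

theorem Base.finite_fibre {X : CSp} {V : Set X.pt} {G : X.pt → Cm 4} {c : Cm 4} {r : ℝ}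
    (h : Base X V G c r) {z : Cm 4} (hz : z ∈ ball c r) (hS : ∀ x ∈ V, G x = z → Sec X V G x) :
    {x | x ∈ V ∧ G x = z}.Finite := by
  have hK : IsCompact {x | x ∈ V ∧ G x = z} :=
    h.compact (K := {z}) isCompact_singleton (singleton_subset_iff.2 hz)
  have h1 : ∀ x ∈ {x | x ∈ V ∧ G x = z}, ∃ N ∈ 𝓝 x, (N ∩ {x | x ∈ V ∧ G x = z}) ⊆ {x} := by
    rintro x ⟨hx, hxz⟩
    obtain ⟨N, s, hN, hxN, hNV, hGN, hs⟩ := hS x hx hxz
    refine ⟨N, hN.mem_nhds hxN, ?_⟩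
    rintro y ⟨hy, -, hyz⟩
    exact Sec.injOn hs hy hxN (hyz.trans hxz.symm)
  choose! N hN hNs using h1
  obtain ⟨t, ht, htc⟩ := hK.elim_nhds_subcover N hN
  refine t.finite_toSet.subset fun x hx => ?_
  have h2 := htc hx
  simp only [mem_iUnion] at h2
  obtain ⟨y, hy, hxy⟩ := h2
  have h3 : x = y := hNs y (ht y hy) ⟨hxy, hx⟩
  rw [h3]; exact hy

/-- local trivialisation -/
theorem Base.local_triv {X : CSp} {V : Set X.pt} {G : X.pt → Cm 4} {c : Cm 4} {r : ℝ}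
    (h : Base X V G c r) {z : Cm 4} (hz : z ∈ ball c r) (hS : ∀ x ∈ V, G x = z → Sec X V G x) :
    ∃ (d : ℕ) (s : Fin d → Cm 4 → X.pt), ∀ᶠ w in 𝓝 z, Enum V G w (fun k => s k w) ∧
      ∀ k, HolAt X (s k) w ∧ s k w ∈ V := by
  obtain ⟨m, p, hinj, hp⟩ := exists_enum (h.finite_fibre hz hS)
  have hpV : ∀ k, p k ∈ V ∧ G (p k) = z := fun k => (hp (p k)).1 ⟨k, rfl⟩
  choose N s hN hpN hNV hGN hs using fun k => hS (p k) (hpV k).1 (hpV k).2
  obtain ⟨r₀, M, hr₀, hM, hMd, hM'⟩ := h.split hz hinj hp N fun k => (hN k).mem_nhds (hpN k)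
  obtain ⟨-, -, hcov⟩ := hM' r₀ hr₀ le_rfl
  refine ⟨m, s, ?_⟩
  have h1 : ∀ k, ∀ᶠ w in 𝓝 z, w ∈ G '' M k := by
    intro k
    have h2 : IsOpen (G '' M k) := Sec.image_open (hGN k) (hs k) (hM k).1
      fun x hx => ((hM k).2.2.1 hx).1
    refine h2.mem_nhds ?_
    rw [← (hpV k).2]
    exact mem_image_of_mem G (hM k).2.1
  filter_upwards [eventually_all.2 h1, ball_mem_nhds z hr₀] with w hw hwb
  have h3 : ∀ k, s k w ∈ M k ∧ G (s k w) = w ∧ HolAt X (s k) w := by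
    intro k
    obtain ⟨y, hy, rfl⟩ := hw k
    have h4 := hs k y ((hM k).2.2.1 hy).1
    exact ⟨by rw [h4.1]; exact hy, by rw [h4.1], h4.2⟩
  refine ⟨⟨fun k l hkl => ?_, fun y => ⟨?_, ?_⟩⟩, fun k => ⟨(h3 k).2.2, ((hM k).2.2.1 (h3 k).1).2⟩⟩
  · by_contra hne
    have h5 : s k w = s l w := hkl
    exact (disjoint_left.1 (hMd k l hne)) (h3 k).1 (h5 ▸ (h3 l).1)
  · rintro ⟨k, rfl⟩
    exact ⟨((hM k).2.2.1 (h3 k).1).2, (h3 k).2.1⟩
  · rintro ⟨hy, rfl⟩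
    obtain ⟨k, hk⟩ := hcov y hy hwb
    exact ⟨k, (hs k y ((hM k).2.2.1 hk).1).1⟩

/-! ### enumerations -/

theorem Enum.card_eq {X : CSp} {V : Set X.pt} {G : X.pt → Cm 4} {z : Cm 4} {d d' : ℕ}
    {x : Fin d → X.pt} {x' : Fin d' → X.pt} (h : Enum V G z x) (h' : Enum V G z x') : d = d' := by
  have h1 : range x = range x' := by
    ext y
    rw [mem_range, mem_range, h.2, h'.2]
  have h2 := Set.ncard_range_of_injective h.1
  have h3 := Set.ncard_range_of_injective h'.1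
  rw [Nat.card_fin] at h2 h3
  rw [← h2, ← h3, h1]

theorem Enum.perm {X : CSp} {V : Set X.pt} {G : X.pt → Cm 4} {z : Cm 4} {d : ℕ}
    {x x' : Fin d → X.pt} (h : Enum V G z x) (h' : Enum V G z x') :
    ∃ σ : Equiv.Perm (Fin d), ∀ k, x' k = x (σ k) := by
  have h1 : ∀ k, ∃ l, x l = x' k := fun k => (h.2 _).2 ((h'.2 _).1 ⟨k, rfl⟩)
  choose σ hσ using h1
  have hσi : Function.Injective σ := by
    intro a b hab
    apply h'.1
    rw [← hσ a, ← hσ b, hab]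
  exact ⟨Equiv.ofBijective σ (Finite.injective_iff_bijective.1 hσi), fun k => (hσ k).symm⟩

/-! ### thin sets in the ball -/

theorem thin_preconnected {c : Cm 4} {r : ℝ} (hr : 0 < r) {E : Set (Cm 4)}
    (hE : Thin 3 (ball c r) E) :
    IsPreconnected (ball c r \ E) ∧ ball c r ⊆ closure (ball c r \ E) := by
  obtain ⟨hopen, Ω, g, hΩ, hg, hcov⟩ := hE
  obtain ⟨h1, h2⟩ := H622.stB2 c r Ω g hr hΩ fun k => H622.contDiffOn_real (hg k)
  have h3 : ball c r \ ⋃ k, g k '' Ω k ⊆ ball c r \ E := fun z hz =>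
    ⟨hz.1, fun hzE => hz.2 (hcov ⟨hz.1, hzE⟩)⟩
  exact ⟨h1.subset_closure h3 fun z hz => h2 hz.1, h2.trans (closure_mono h3)⟩

theorem thin_mono {k : ℕ} {c c' : Cm 4} {r r' : ℝ} {E : Set (Cm 4)} (hE : Thin k (ball c r) E)
    (hb : ball c' r' ⊆ ball c r) : Thin k (ball c' r') E := by
  obtain ⟨hopen, Ω, g, hΩ, hg, hcov⟩ := hE
  refine ⟨?_, Ω, g, hΩ, hg, fun z hz => hcov ⟨hb hz.1, hz.2⟩⟩
  have h1 : ball c' r' \ E = ball c' r' ∩ (ball c r \ E) := by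
    ext z
    constructor
    · rintro ⟨a, b⟩; exact ⟨a, hb a, b⟩
    · rintro ⟨a, -, b⟩; exact ⟨a, b⟩
  rw [h1]
  exact isOpen_ball.inter hopen

/-- the zero set of an analytic function is thin -/
theorem thin_zero {c : Cm 4} {r : ℝ} {θ : Cm 4 → ℂ} (han : ∀ z ∈ ball c r, AnalyticAt ℂ θ z)
    (hne : ∀ z ∈ ball c r, ¬ θ =ᶠ[𝓝 z] 0) : Thin 3 (ball c r) {z | θ z = 0} := by
  obtain ⟨W, g, hW, hg, hcov⟩ := H622.stB1 3 (ball c r) θ isOpen_ball han hne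
  refine ⟨?_, W, g, hW, fun l p hp => (hg l p hp).1, hcov⟩
  have h1 : ContinuousOn θ (ball c r) := fun z hz => (han z hz).continuousAt.continuousWithinAt
  have h2 := h1.isOpen_inter_preimage isOpen_ball (isOpen_compl_singleton (x := (0 : ℂ)))
  have h3 : ball c r \ {z | θ z = 0} = ball c r ∩ θ ⁻¹' {0}ᶜ := by
    ext z
    exact Iff.rfl
  rw [h3]
  exact h2

/-! ### pre-coverings -/

/-- A proper map which is a local isomorphism outside the thin set `E`. -/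
structure Pre (X : CSp) (V : Set X.pt) (G : X.pt → Cm 4) (c : Cm 4) (r : ℝ)
    (E : Set (Cm 4)) : Prop extends Base X V G c r where
  thin : Thin 3 (ball c r) E
  etale : ∀ x ∈ V, G x ∉ E → Sec X V G x
  dense : ∀ W ⊆ V, IsOpen W → W.Nonempty → ∃ y ∈ W, G y ∉ E

namespace Pre

variable {X : CSp} {V : Set X.pt} {G : X.pt → Cm 4} {c : Cm 4} {r : ℝ} {E : Set (Cm 4)}

theorem triv (h : Pre X V G c r E) {z : Cm 4} (hz : z ∈ ball c r \ E) :
    ∃ (d : ℕ) (s : Fin d → Cm 4 → X.pt), ∀ᶠ w in 𝓝 z, w ∈ ball c r \ E ∧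
      Enum V G w (fun k => s k w) ∧ ∀ k, HolAt X (s k) w ∧ s k w ∈ V := by
  obtain ⟨d, s, hs⟩ := h.toBase.local_triv hz.1 fun x hx hxz => h.etale x hx (by rw [hxz]; exact hz.2)
  have h1 : ∀ᶠ w in 𝓝 z, w ∈ ball c r \ E := h.thin.1.mem_nhds hz
  exact ⟨d, s, h1.and hs⟩

/-- the degree is constant -/
theorem exists_degree (h : Pre X V G c r E) :
    ∃ d : ℕ, ∀ z ∈ ball c r \ E, ∃ x : Fin d → X.pt, Enum V G z x := by
  have h1 : ∀ z ∈ ball c r \ E, ∃ d : ℕ, ∃ x : Fin d → X.pt, Enum V G z x := by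
    intro z hz
    obtain ⟨d, s, hs⟩ := h.triv hz
    exact ⟨d, _, hs.self_of_nhds.2.1⟩
  choose! dg hdg using h1
  have hloc : ∀ z ∈ ball c r \ E, ∀ᶠ w in 𝓝 z, w ∈ ball c r \ E ∧ dg w = dg z := by
    intro z hz
    obtain ⟨d, s, hs⟩ := h.triv hz
    obtain ⟨x, hx⟩ := hdg z hz
    have h2 : d = dg z := Enum.card_eq hs.self_of_nhds.2.1 hx
    filter_upwards [hs] with w hw
    obtain ⟨x', hx'⟩ := hdg w hw.1
    exact ⟨hw.1, by rw [← h2]; exact Enum.card_eq hx' hw.2.1⟩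
  obtain ⟨hpre, -⟩ := thin_preconnected h.pos h.thin
  rcases (ball c r \ E).eq_empty_or_nonempty with he | ⟨z0, hz0⟩
  · exact ⟨0, fun z hz => by rw [he] at hz; exact hz.elim⟩
  · refine ⟨dg z0, fun z hz => ?_⟩
    have h3 : dg z = dg z0 := by
      have h4 : IsOpen {w | w ∈ ball c r \ E ∧ dg w = dg z0} := by
        rw [isOpen_iff_mem_nhds]
        rintro w ⟨hw, hw'⟩
        filter_upwards [hloc w hw] with w' h' using ⟨h'.1, h'.2.trans hw'⟩
      have h5 : IsOpen {w | w ∈ ball c r \ E ∧ dg w ≠ dg z0} := by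
        rw [isOpen_iff_mem_nhds]
        rintro w ⟨hw, hw'⟩
        filter_upwards [hloc w hw] with w' h' using ⟨h'.1, by rw [h'.2]; exact hw'⟩
      by_contra hne
      obtain ⟨w, hw, hw1, hw2⟩ := hpre _ _ h4 h5 (fun w hw => by
        by_cases hd : dg w = dg z0
        · exact Or.inl ⟨hw, hd⟩
        · exact Or.inr ⟨hw, hd⟩) ⟨z0, hz0, hz0, rfl⟩ ⟨z, hz, hz, hne⟩
      exact hw2.2 hw1.2
    rw [← h3]
    exact hdg z hz

/-- the image is the whole ball -/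
theorem surj (h : Pre X V G c r E) (hV : V.Nonempty) {z : Cm 4} (hz : z ∈ ball c r) :
    ∃ x ∈ V, G x = z := by
  obtain ⟨d, hd⟩ := h.exists_degree
  obtain ⟨x0, hx0, hx0E⟩ := h.dense V le_rfl h.isOpen hV
  have hd0 : 0 < d := by
    obtain ⟨_, hx⟩ := hd (G x0) ⟨h.maps x0 hx0, hx0E⟩
    obtain ⟨k, -⟩ := (hx.2 x0).2 ⟨hx0, rfl⟩
    exact k.pos
  -- closedness
  obtain ⟨ρ, hρ, hρb⟩ : ∃ ρ > 0, closedBall z ρ ⊆ ball c r := by
    obtain ⟨ρ, hρ, h1⟩ := Metric.isOpen_iff.1 isOpen_ball z hz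
    exact ⟨ρ / 2, by positivity, (closedBall_subset_ball (by linarith)).trans h1⟩
  have hK : IsCompact {x | x ∈ V ∧ G x ∈ closedBall z ρ} := h.compact (isCompact_closedBall z ρ) hρb
  have hcl : IsClosed (G '' {x | x ∈ V ∧ G x ∈ closedBall z ρ}) :=
    (hK.image_of_continuousOn (h.contOn.mono fun x hx => hx.1)).isClosed
  have h2 : z ∈ closure (ball c r \ E) := (thin_preconnected h.pos h.thin).2 hz
  have h3 : z ∈ closure (G '' {x | x ∈ V ∧ G x ∈ closedBall z ρ}) := by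
    rw [mem_closure_iff_nhds] at h2 ⊢
    intro t ht
    obtain ⟨w, ⟨hw1, hw2⟩, hw3⟩ := h2 (t ∩ ball z ρ) (inter_mem ht (ball_mem_nhds z hρ))
    obtain ⟨x, hx⟩ := hd w hw3
    obtain ⟨hy, hyw⟩ := (hx.2 (x ⟨0, hd0⟩)).1 ⟨_, rfl⟩
    exact ⟨w, hw1, x ⟨0, hd0⟩, ⟨hy, by rw [hyw]; exact ball_subset_closedBall hw2⟩, hyw⟩
  rw [hcl.closure_eq] at h3
  obtain ⟨x, hx, hxz⟩ := h3
  exact ⟨x, hx.1, hxz⟩

/-- pieces -/
theorem piece (h : Pre X V G c r E) {z : Cm 4} {r' : ℝ} {M : Set X.pt} (hMV : M ⊆ V)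
    (hb : ball z r' ⊆ ball c r) (hB : Base X {x | x ∈ M ∧ G x ∈ ball z r'} G z r') :
    Pre X {x | x ∈ M ∧ G x ∈ ball z r'} G z r' E where
  toBase := hB
  thin := thin_mono h.thin hb
  etale _ hx hxE := (h.etale _ (hMV hx.1) hxE).mono hB.isOpen hx
  dense W hW hWo hWn := h.dense W (fun x hx => hMV (hW hx).1) hWo hWn

/-- **symmetric functions of the sheets** -/
theorem descend (h : Pre X V G c r E) {d : ℕ} (hd : ∀ z ∈ ball c r \ E, ∃ x : Fin d → X.pt, Enum V G z x)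
    {n : ℕ} (a : Fin n → X.pt → ℂ) (ha : ∀ i, ∀ x ∈ V, X.Hol (a i) x)
    (Φ : (Fin n → Fin d → ℂ) → ℂ) (hΦ : ∀ A, AnalyticAt ℂ Φ A)
    (hsym : ∀ A (σ : Equiv.Perm (Fin d)), Φ (fun i k => A i (σ k)) = Φ A) :
    ∃ κ : Cm 4 → ℂ, (∀ z ∈ ball c r, AnalyticAt ℂ κ z) ∧
      ∀ z ∈ ball c r \ E, ∀ x : Fin d → X.pt, Enum V G z x → κ z = Φ fun i k => a i (x k) := by
  obtain ⟨z1, hz1⟩ : (ball c r \ E).Nonempty := by
    rw [← closure_nonempty_iff]
    exact ⟨c, (thin_preconnected h.pos h.thin).2 (mem_ball_self h.pos)⟩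
  have : Nonempty (Fin d → X.pt) := ⟨(hd z1 hz1).choose⟩
  choose! x hx using hd
  have huniq : ∀ z ∈ ball c r \ E, ∀ x' : Fin d → X.pt, Enum V G z x' →
      Φ (fun i k => a i (x z k)) = Φ fun i k => a i (x' k) := by
    intro z hz x' hx'
    obtain ⟨σ, hσ⟩ := Enum.perm (hx z hz) hx'
    rw [← hsym (fun i k => a i (x z k)) σ]
    simp only [hσ]
  have hf1 : ∀ z ∈ ball c r \ E, AnalyticAt ℂ (fun z => Φ fun i k => a i (x z k)) z := by
    intro z hz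
    obtain ⟨d', s, hs⟩ := h.triv hz
    have hdd : d' = d := Enum.card_eq hs.self_of_nhds.2.1 (hx z hz)
    subst hdd
    have h1 : AnalyticAt ℂ (fun w => Φ fun i k => a i (s k w)) z := by
      have h2 : AnalyticAt ℂ (fun w => (fun i k => a i (s k w) : Fin n → Fin d' → ℂ)) z := by
        refine AnalyticAt.pi fun i => AnalyticAt.pi fun k => ?_
        exact (hs.self_of_nhds.2.2 k).1.analyticAt (ha i _ (hs.self_of_nhds.2.2 k).2)
      exact AnalyticAt.fun_comp (hΦ _) h2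
    refine h1.congr ?_
    filter_upwards [hs] with w hw
    exact (huniq w hw.1 _ hw.2.1).symm
  have hf2 : ∀ z ∈ ball c r, ∃ C : ℝ, ∀ᶠ w in 𝓝 z, w ∉ E →
      ‖(fun z => Φ fun i k => a i (x z k)) w‖ ≤ C := by
    intro z hz
    obtain ⟨ρ, hρ, hρb⟩ : ∃ ρ > 0, closedBall z ρ ⊆ ball c r := by
      obtain ⟨ρ, hρ, h1⟩ := Metric.isOpen_iff.1 isOpen_ball z hz
      exact ⟨ρ / 2, by positivity, (closedBall_subset_ball (by linarith)).trans h1⟩
    have hK : IsCompact {x | x ∈ V ∧ G x ∈ closedBall z ρ} :=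
      h.compact (isCompact_closedBall z ρ) hρb
    have hac : ∀ i, ContinuousOn (a i) {x | x ∈ V ∧ G x ∈ closedBall z ρ} := fun i y hy =>
      (hol_continuousAt (ha i y hy.1)).continuousWithinAt
    choose C hC using fun i => hK.exists_bound_of_continuousOn (hac i)
    set C' : ℝ := ∑ i, |C i| with hC'
    have hC0 : 0 ≤ C' := Finset.sum_nonneg fun i _ => abs_nonneg _
    have hCi : ∀ i, C i ≤ C' := fun i => (le_abs_self _).trans
      (Finset.single_le_sum (f := fun i => |C i|) (fun j _ => abs_nonneg _) (Finset.mem_univ i))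
    obtain ⟨B, hB⟩ := (isCompact_closedBall (0 : Fin n → Fin d → ℂ) C').exists_bound_of_continuousOn
      (f := Φ) fun A _ => (hΦ A).continuousAt.continuousWithinAt
    refine ⟨B, ?_⟩
    filter_upwards [ball_mem_nhds z hρ] with w hw hwE
    have hwb : w ∈ ball c r \ E := ⟨hρb (ball_subset_closedBall hw), hwE⟩
    refine hB _ ?_
    rw [mem_closedBall_zero_iff, pi_norm_le_iff_of_nonneg hC0]
    intro i
    rw [pi_norm_le_iff_of_nonneg hC0]
    intro k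
    have h2 := ((hx w hwb).2 (x w k)).1 ⟨k, rfl⟩
    exact (hC i _ ⟨h2.1, by rw [h2.2]; exact ball_subset_closedBall hw⟩).trans (hCi i)
  obtain ⟨F, hF, hFf⟩ := stRE c r E h.thin (fun z => Φ fun i k => a i (x z k)) hf1 hf2
  exact ⟨F, hF, fun z hz x' hx' => (hFf z hz).trans (huniq z hz x' hx')⟩

end Pre

end Vale.Agent.P277.H335
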