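import Vale.Agent.P277.H335.COV1
import Vale.Agent.P277.H19.Br2
import Vale.Agent.P277.H73.C

/-!
# P277, TX-COV, part 2: polynomials, finiteness, openness, unbranched part
-/

open Set Filter Metric Topology
open Vale.Agent.P272.K Vale.Agent.P277.TX

noncomputable section

namespace Vale.Agent.P277.H335

open Polynomial in
theorem analytic_coeff {d : ℕ} (i : ℕ) (A : Fin d → ℂ) :
    AnalyticAt ℂ (fun f : Fin d → ℂ => (∏ k, (X - C (f k)) : ℂ[X]).coeff i) A := by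
  classical
  have key : ∀ (s : Finset (Fin d)) (i : ℕ),
      AnalyticAt ℂ (fun f : Fin d → ℂ => (∏ k ∈ s, (X - C (f k)) : ℂ[X]).coeff i) A := by
    intro s
    induction s using Finset.induction_on with
    | empty =>
      intro i
      simp only [Finset.prod_empty]
      exact analyticAt_const
    | insert a s ha ih =>
      intro i
      simp only [Finset.prod_insert ha, sub_mul, coeff_sub, coeff_C_mul]
      have hp : AnalyticAt ℂ (fun f : Fin d → ℂ => f a) A :=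
        (ContinuousLinearMap.proj (R := ℂ) (φ := fun _ : Fin d => ℂ) a).analyticAt _
      cases i with
      | zero =>
        simp only [mul_coeff_zero, coeff_X_zero, zero_mul, zero_sub]
        exact (hp.mul (ih 0)).neg
      | succ i =>
        simp only [coeff_X_mul]
        exact (ih i).sub (hp.mul (ih (i + 1)))
  exact key Finset.univ i

namespace Pre

variable {X : CSp} {V : Set X.pt} {G : X.pt → Cm 4} {c : Cm 4} {r : ℝ} {E : Set (Cm 4)}

open Polynomial in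
/-- the characteristic polynomial -/
theorem poly (h : Pre X V G c r E) {d : ℕ} (hd : ∀ z ∈ ball c r \ E, ∃ x : Fin d → X.pt, Enum V G z x)
    (f : X.pt → ℂ) (hf : ∀ x ∈ V, X.Hol f x) :
    ∃ P : Cm 4 → Polynomial ℂ,
      (∀ z ∈ ball c r, (P z).Monic ∧ (P z).natDegree = d ∧
        ∀ i, AnalyticAt ℂ (fun w => (P w).coeff i) z) ∧
      (∀ x ∈ V, (P (G x)).eval (f x) = 0) ∧
      ∀ z ∈ ball c r \ E, ∀ x : Fin d → X.pt, Enum V G z x →
        P z = ∏ k, (Polynomial.X - Polynomial.C (f (x k))) := by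
  classical
  have h1 : ∀ i : ℕ, ∃ κ : Cm 4 → ℂ, (∀ z ∈ ball c r, AnalyticAt ℂ κ z) ∧
      ∀ z ∈ ball c r \ E, ∀ x : Fin d → X.pt, Enum V G z x →
        κ z = (∏ k, (Polynomial.X - Polynomial.C (f (x k)))).coeff i := by
    intro i
    refine h.descend hd (n := 1) (fun _ => f) (fun _ => hf)
      (fun A => (∏ k, (Polynomial.X - Polynomial.C (A 0 k)) : ℂ[X]).coeff i) (fun A => ?_)
      (fun A σ => ?_)
    · have h2 : AnalyticAt ℂ (fun A : Fin 1 → Fin d → ℂ => A 0) A :=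
        (ContinuousLinearMap.proj (R := ℂ) (φ := fun _ : Fin 1 => Fin d → ℂ) 0).analyticAt _
      exact AnalyticAt.fun_comp
        (g := fun f : Fin d → ℂ => (∏ k, (Polynomial.X - Polynomial.C (f k)) : ℂ[X]).coeff i)
        (f := fun A : Fin 1 → Fin d → ℂ => A 0) (analytic_coeff i (A 0)) h2
    · show (∏ k, (Polynomial.X - Polynomial.C (A 0 (σ k))) : ℂ[X]).coeff i = _
      rw [Equiv.prod_comp σ fun k => (Polynomial.X - Polynomial.C (A 0 k) : ℂ[X])]
  choose κ hκ hκx using h1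
  have hdeg : ∀ z, (∑ i ∈ Finset.range d, C (κ i z) * Polynomial.X ^ i : ℂ[X]).degree < d := by
    intro z
    rw [Finset.sum_range]
    exact degree_sum_fin_lt fun i : Fin d => κ i z
  have hP : ∀ z ∈ ball c r \ E, ∀ x : Fin d → X.pt, Enum V G z x →
      (Polynomial.X ^ d + ∑ i ∈ Finset.range d, C (κ i z) * Polynomial.X ^ i : ℂ[X]) =
        ∏ k, (Polynomial.X - Polynomial.C (f (x k))) := by
    intro z hz x hx
    have hm : (∏ k, (Polynomial.X - Polynomial.C (f (x k))) : ℂ[X]).Monic :=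
      monic_prod_of_monic _ _ fun k _ => monic_X_sub_C _
    have hn : (∏ k, (Polynomial.X - Polynomial.C (f (x k))) : ℂ[X]).natDegree = d := by
      rw [natDegree_prod_of_monic _ _ fun k _ => monic_X_sub_C _]
      simp
    have h2 := hm.as_sum
    rw [hn] at h2
    rw [h2]
    congr 1
    refine Finset.sum_congr rfl fun i _ => ?_
    rw [hκx i z hz x hx]
  refine ⟨fun z => Polynomial.X ^ d + ∑ i ∈ Finset.range d, C (κ i z) * Polynomial.X ^ i,
    fun z hz => ⟨monic_X_pow_add (hdeg z), ?_, fun i => ?_⟩, ?_, hP⟩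
  · rw [natDegree_add_eq_left_of_degree_lt, natDegree_X_pow]
    rw [degree_X_pow]
    exact hdeg z
  · simp only [coeff_add, finsetSum_coeff, coeff_C_mul]
    refine analyticAt_const.add ?_
    exact Finset.analyticAt_fun_sum _ fun j _ => (hκ j z hz).mul analyticAt_const
  · intro x hx
    set F : X.pt → ℂ := fun x => (Polynomial.X ^ d +
      ∑ i ∈ Finset.range d, C (κ i (G x)) * Polynomial.X ^ i : ℂ[X]).eval (f x) with hF
    have hFc : ContinuousOn F V := by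
      intro y hy
      have h3 : ContinuousAt F y := by
        have h4 : F = fun x => f x ^ d + ∑ i ∈ Finset.range d, κ i (G x) * f x ^ i := by
          funext x
          simp only [hF, eval_add, eval_pow, eval_X, eval_finsetSum, eval_mul, eval_C]
        rw [h4]
        have h5 : ContinuousAt f y := hol_continuousAt (hf y hy)
        refine (h5.pow d).add (tendsto_finsetSum _ fun i _ => ?_)
        have h6 : ContinuousAt (fun x => κ i (G x)) y :=
          ContinuousAt.comp (hκ i (G y) (h.maps y hy)).continuousAt (h.contAt hy)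
        exact h6.mul (h5.pow i)
      exact h3.continuousWithinAt
    by_contra hne
    have hW : IsOpen (V ∩ F ⁻¹' {0}ᶜ) := hFc.isOpen_inter_preimage h.isOpen isOpen_compl_singleton
    obtain ⟨y, ⟨hyV, hy0⟩, hyE⟩ := h.dense _ inter_subset_left hW ⟨x, hx, hne⟩
    apply hy0
    have hzb : G y ∈ ball c r \ E := ⟨h.maps y hyV, hyE⟩
    obtain ⟨x', hx'⟩ := hd _ hzb
    obtain ⟨k, hk⟩ := (hx'.2 y).2 ⟨hyV, rfl⟩
    show (Polynomial.X ^ d +
      ∑ i ∈ Finset.range d, C (κ i (G y)) * Polynomial.X ^ i : ℂ[X]).eval (f y) = 0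
    rw [hP _ hzb x' hx', eval_prod]
    refine Finset.prod_eq_zero (Finset.mem_univ k) ?_
    rw [hk]
    simp

/-- finiteness of the fibres -/
theorem finite (h : Pre X V G c r E) {n : ℕ} {ζ : Fin n → X.pt → ℂ} (hζ : IsCoord X V ζ) {z : Cm 4}
    (hz : z ∈ ball c r) : {x | x ∈ V ∧ G x = z}.Finite := by
  classical
  obtain ⟨d, hd⟩ := h.exists_degree
  choose P hP hPx _ using fun a => h.poly hd (ζ a) (hζ.hol a)
  have h1 : (Set.pi univ fun a : Fin n => {t | (P a z).IsRoot t}).Finite := by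
    refine Set.Finite.pi fun a => ?_
    exact Polynomial.finite_setOfPred_isRoot (hP a z hz).1.ne_zero
  refine Set.Finite.of_injOn (f := fun x a => ζ a x) ?_ ?_ h1
  · rintro x ⟨hx, hxz⟩ a -
    have h2 := hPx a x hx
    rw [hxz] at h2
    exact h2
  · intro x hx y hy hxy
    exact hζ.injOn hx.1 hy.1 hxy

/-- openness -/
theorem openMap (h : Pre X V G c r E) (hfin : ∀ z ∈ ball c r, {x | x ∈ V ∧ G x = z}.Finite)
    {W : Set X.pt} (hWV : W ⊆ V) (hW : IsOpen W) : IsOpen (G '' W) := by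
  classical
  rw [isOpen_iff_mem_nhds]
  rintro _ ⟨x, hx, rfl⟩
  obtain ⟨m, p, hinj, hp⟩ := exists_enum (hfin (G x) (h.maps x (hWV hx)))
  obtain ⟨k, hk⟩ := (hp x).2 ⟨hWV hx, rfl⟩
  obtain ⟨r₀, M, hr₀, hM, hMd, hM'⟩ := h.toBase.split (h.maps x (hWV hx)) hinj hp
    (fun l => if l = k then W else univ) (fun l => by
      by_cases hl : l = k
      · subst hl
        rw [if_pos rfl, hk]
        exact hW.mem_nhds hx
      · rw [if_neg hl]; exact univ_mem)
  obtain ⟨hb, hB, -⟩ := hM' r₀ hr₀ le_rfl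
  have h1 := h.piece (fun y hy => ((hM k).2.2.1 hy).2) hb (hB k)
  refine mem_of_superset (ball_mem_nhds _ hr₀) fun w hw => ?_
  obtain ⟨y, hy, hyw⟩ := h1.surj ⟨x, by rw [← hk]; exact (hM k).2.1, mem_ball_self hr₀⟩ hw
  refine ⟨y, ?_, hyw⟩
  have h2 := ((hM k).2.2.1 hy.1).1
  rwa [if_pos rfl] at h2

/-- degree one -/
theorem sec_of_one (h : Pre X V G c r E)
    (hone : ∀ x ∈ V, ∀ y ∈ V, G x = G y → G x ∉ E → x = y) (hV : V.Nonempty)
    {n : ℕ} {ζ : Fin n → X.pt → ℂ} (hζ : IsCoord X V ζ) :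
    ∃ s : Cm 4 → X.pt, (∀ w ∈ ball c r, s w ∈ V ∧ G (s w) = w ∧ HolAt X s w) ∧
      ∀ x ∈ V, s (G x) = x := by
  classical
  obtain ⟨d, hd⟩ := h.exists_degree
  obtain ⟨x0, hx0, hx0E⟩ := h.dense V le_rfl h.isOpen hV
  have hd1 : d = 1 := by
    obtain ⟨x, hx⟩ := hd (G x0) ⟨h.maps x0 hx0, hx0E⟩
    obtain ⟨k, hk⟩ := (hx.2 x0).2 ⟨hx0, rfl⟩
    have h1 : ∀ l, l = k := by
      intro l
      apply hx.1
      have h2 := (hx.2 (x l)).1 ⟨l, rfl⟩
      rw [hk]
      exact hone _ h2.1 _ hx0 h2.2 (by rw [h2.2]; exact hx0E)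
    have h3 := Fintype.card_eq_one_iff.2 ⟨k, h1⟩
    rwa [Fintype.card_fin] at h3
  subst hd1
  have h1 : ∀ a, ∃ κ : Cm 4 → ℂ, (∀ z ∈ ball c r, AnalyticAt ℂ κ z) ∧
      ∀ z ∈ ball c r \ E, ∀ x : Fin 1 → X.pt, Enum V G z x → κ z = ζ a (x 0) := by
    intro a
    refine h.descend hd (n := 1) (fun _ => ζ a) (fun _ => hζ.hol a)
      (fun A => A 0 0) (fun A => ?_) (fun A σ => ?_)
    · have h2 : AnalyticAt ℂ (fun A : Fin 1 → Fin 1 → ℂ => A 0) A :=
        (ContinuousLinearMap.proj (R := ℂ) (φ := fun _ : Fin 1 => Fin 1 → ℂ) 0).analyticAt _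
      have h3 : AnalyticAt ℂ (fun B : Fin 1 → ℂ => B 0) (A 0) :=
        (ContinuousLinearMap.proj (R := ℂ) (φ := fun _ : Fin 1 => ℂ) 0).analyticAt _
      exact AnalyticAt.fun_comp (g := fun B : Fin 1 → ℂ => B 0)
        (f := fun A : Fin 1 → Fin 1 → ℂ => A 0) h3 h2
    · show A 0 (σ 0) = A 0 0
      rw [Subsingleton.elim (σ 0) 0]
  choose κ hκ hκx using h1
  have hκG : ∀ x ∈ V, ∀ a, κ a (G x) = ζ a x := by
    intro x hx a
    by_contra hne
    have hc : ContinuousOn (fun x => κ a (G x) - ζ a x) V := fun y hy =>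
      (ContinuousAt.sub (ContinuousAt.comp (hκ a (G y) (h.maps y hy)).continuousAt (h.contAt hy))
        (hol_continuousAt (hζ.hol a y hy))).continuousWithinAt
    have hW := hc.isOpen_inter_preimage h.isOpen (isOpen_compl_singleton (x := (0 : ℂ)))
    obtain ⟨y, ⟨hyV, hy0⟩, hyE⟩ := h.dense _ inter_subset_left hW ⟨x, hx, fun h0 => hne (by
      have h2 : κ a (G x) - ζ a x = 0 := h0
      exact sub_eq_zero.1 h2)⟩
    apply hy0
    have hzb : G y ∈ ball c r \ E := ⟨h.maps y hyV, hyE⟩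
    obtain ⟨x', hx'⟩ := hd _ hzb
    obtain ⟨k, hk⟩ := (hx'.2 y).2 ⟨hyV, rfl⟩
    show κ a (G y) - ζ a y = 0
    rw [hκx a _ hzb x' hx', ← hk, Subsingleton.elim k 0, sub_self]
  have hinj : ∀ x ∈ V, ∀ y ∈ V, G x = G y → x = y := by
    intro x hx y hy hxy
    refine hζ.injOn hx hy ?_
    funext a
    show ζ a x = ζ a y
    rw [← hκG x hx a, ← hκG y hy a, hxy]
  have hXne : Nonempty X.pt := ⟨x0⟩
  choose! s hsV hsG using fun w (hw : w ∈ ball c r) => h.surj hV hw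
  have hsx : ∀ x ∈ V, s (G x) = x := fun x hx =>
    hinj _ (hsV _ (h.maps x hx)) _ hx (hsG _ (h.maps x hx))
  refine ⟨s, fun w hw => ⟨hsV w hw, hsG w hw, ?_⟩, hsx⟩
  refine holAt_of_coord hζ ?_ fun a => ?_
  · filter_upwards [isOpen_ball.mem_nhds hw] with w' hw' using hsV w' hw'
  · refine (hκ a w hw).congr ?_
    filter_upwards [isOpen_ball.mem_nhds hw] with w' hw'
    rw [← hκG _ (hsV w' hw') a, hsG w' hw']

end Pre

/-- a lower bound for the differences from the discriminant -/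
theorem vand_bound {d : ℕ} {D : ℝ} (hD : 1 ≤ D) (u : Fin d → ℂ) (hu : ∀ k l, ‖u k - u l‖ ≤ D)
    {k0 l0 : Fin d} (hkl : k0 ≠ l0) :
    ‖(Matrix.vandermonde u).det‖ ^ 2 ≤ ‖u k0 - u l0‖ * (D ^ d * (D ^ d) ^ d) := by
  classical
  have hD0 : 0 ≤ D := zero_le_one.trans hD
  have h1 : ∀ s : Finset (Fin d), ∀ k, ∏ l ∈ s, ‖u k - u l‖ ≤ D ^ d := by
    intro s k
    have h2 : ∏ l ∈ s, ‖u k - u l‖ ≤ ∏ l ∈ s, D :=
      Finset.prod_le_prod (fun l _ => norm_nonneg _) fun l _ => hu k l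
    refine h2.trans ?_
    rw [Finset.prod_const]
    exact pow_le_pow_right₀ hD (by simpa using Finset.card_le_univ s)
  rw [H19.norm_vandermonde_sq, ← Finset.mul_prod_erase Finset.univ _ (Finset.mem_univ k0)]
  have h3 : ∏ l ∈ Finset.univ.erase k0, ‖u k0 - u l‖ ≤ ‖u k0 - u l0‖ * D ^ d := by
    rw [← Finset.mul_prod_erase (Finset.univ.erase k0) _
      (Finset.mem_erase.2 ⟨hkl.symm, Finset.mem_univ l0⟩)]
    exact mul_le_mul_of_nonneg_left (h1 _ _) (norm_nonneg _)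
  have h4 : ∏ k ∈ Finset.univ.erase k0, ∏ l ∈ Finset.univ.erase k, ‖u k - u l‖ ≤ (D ^ d) ^ d := by
    have h5 : ∏ k ∈ Finset.univ.erase k0, ∏ l ∈ Finset.univ.erase k, ‖u k - u l‖ ≤
        ∏ k ∈ Finset.univ.erase k0, D ^ d :=
      Finset.prod_le_prod (fun k _ => Finset.prod_nonneg fun l _ => norm_nonneg _)
        fun k _ => h1 _ k
    refine h5.trans ?_
    rw [Finset.prod_const]
    exact pow_le_pow_right₀ (one_le_pow₀ hD)
      (by simp)
  calc (∏ l ∈ Finset.univ.erase k0, ‖u k0 - u l‖) *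
        ∏ k ∈ Finset.univ.erase k0, ∏ l ∈ Finset.univ.erase k, ‖u k - u l‖
      ≤ (‖u k0 - u l0‖ * D ^ d) * (D ^ d) ^ d :=
        mul_le_mul h3 h4 (Finset.prod_nonneg fun k _ => Finset.prod_nonneg fun l _ => norm_nonneg _)
          (by positivity)
    _ = ‖u k0 - u l0‖ * (D ^ d * (D ^ d) ^ d) := by ring

namespace Pre

variable {X : CSp} {V : Set X.pt} {G : X.pt → Cm 4} {c : Cm 4} {r : ℝ} {E : Set (Cm 4)}

/-- the map is a local isomorphism where the discriminant does not vanish -/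
theorem unbranched (h : Pre X V G c r E) {d : ℕ}
    (hd : ∀ z ∈ ball c r \ E, ∃ x : Fin d → X.pt, Enum V G z x)
    (hfin : ∀ z ∈ ball c r, {x | x ∈ V ∧ G x = z}.Finite)
    {n : ℕ} {ζ : Fin n → X.pt → ℂ} (hζ : IsCoord X V ζ) {lam : X.pt → ℂ}
    (hlam : ∀ x ∈ V, X.Hol lam x) {θ : Cm 4 → ℂ} (hθ : ∀ z ∈ ball c r, AnalyticAt ℂ θ z)
    (hθx : ∀ z ∈ ball c r \ E, ∀ x : Fin d → X.pt, Enum V G z x →
      θ z = (Matrix.vandermonde fun k => lam (x k)).det ^ 2) {z0 : Cm 4} (hz0 : z0 ∈ ball c r)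
    (h0 : θ z0 ≠ 0) :
    (∃ x : Fin d → X.pt, Enum V G z0 x ∧ Function.Injective fun k => lam (x k)) ∧
      ∀ x ∈ V, G x = z0 → Sec X V G x := by
  classical
  obtain ⟨m, p, hinj, hp⟩ := exists_enum (hfin z0 hz0)
  have hpV : ∀ k, p k ∈ V ∧ G (p k) = z0 := fun k => (hp (p k)).1 ⟨k, rfl⟩
  -- bounds
  obtain ⟨ρ, hρ, hρb⟩ : ∃ ρ > 0, closedBall z0 ρ ⊆ ball c r := by
    obtain ⟨ρ, hρ, h1⟩ := Metric.isOpen_iff.1 isOpen_ball z0 hz0
    exact ⟨ρ / 2, by positivity, (closedBall_subset_ball (by linarith)).trans h1⟩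
  have hK : IsCompact {x | x ∈ V ∧ G x ∈ closedBall z0 ρ} :=
    h.compact (isCompact_closedBall z0 ρ) hρb
  obtain ⟨C, hC⟩ := hK.exists_bound_of_continuousOn (f := lam) fun x hx =>
    (hol_continuousAt (hlam x hx.1)).continuousWithinAt
  set D : ℝ := 1 + 2 * |C| with hD
  have hD1 : 1 ≤ D := by
    have := abs_nonneg C
    linarith
  set B : ℝ := D ^ d * (D ^ d) ^ d with hB
  have hBpos : 0 < B := by
    have : 0 < D := by linarith
    positivity
  have hn0 : 0 < ‖θ z0‖ := norm_pos_iff.2 h0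
  set δ : ℝ := ‖θ z0‖ / 2 / B with hδ
  have hδpos : 0 < δ := by positivity
  have hθn : ∀ᶠ w in 𝓝 z0, ‖θ z0‖ / 2 < ‖θ w‖ :=
    (hθ z0 hz0).continuousAt.norm.eventually (Ioi_mem_nhds (by linarith))
  obtain ⟨r1, hr1, hr1b⟩ := Metric.eventually_nhds_iff_ball.1
    (hθn.and (closedBall_mem_nhds z0 hρ : ∀ᶠ w in 𝓝 z0, w ∈ closedBall z0 ρ))
  have hsep : ∀ w ∈ ball z0 r1, w ∉ E → ∀ x ∈ V, ∀ y ∈ V, G x = w → G y = w → x ≠ y →
      δ ≤ ‖lam x - lam y‖ := by
    intro w hw hwE x hx y hy hxw hyw hxy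
    have hwb : w ∈ ball c r \ E := ⟨hρb (hr1b w hw).2, hwE⟩
    obtain ⟨x', hx'⟩ := hd w hwb
    obtain ⟨k, hk⟩ := (hx'.2 x).2 ⟨hx, hxw⟩
    obtain ⟨l, hl⟩ := (hx'.2 y).2 ⟨hy, hyw⟩
    have hkl : k ≠ l := by
      rintro rfl
      exact hxy (hk.symm.trans hl)
    have h1 := vand_bound hD1 (fun k => lam (x' k)) (fun a b => by
      have h2 := (hx'.2 (x' a)).1 ⟨a, rfl⟩
      have h3 := (hx'.2 (x' b)).1 ⟨b, rfl⟩
      have h4 := hC _ ⟨h2.1, by rw [h2.2]; exact (hr1b w hw).2⟩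
      have h5 := hC _ ⟨h3.1, by rw [h3.2]; exact (hr1b w hw).2⟩
      have h6 := norm_sub_le (lam (x' a)) (lam (x' b))
      have h7 := le_abs_self C
      linarith) hkl
    rw [← norm_pow, ← hθx w hwb x' hx'] at h1
    simp only [hk, hl] at h1
    have h2 := (hr1b w hw).1
    rw [hδ, div_le_iff₀ hBpos]
    linarith
  -- neighbourhoods
  obtain ⟨r₀, M, hr₀, hM, hMd, hM'⟩ := h.toBase.split hz0 hinj hp
    (fun k => {x | ‖lam x - lam (p k)‖ < δ / 2}) (fun k => by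
      have h1 : ContinuousAt (fun x => ‖lam x - lam (p k)‖) (p k) :=
        ((hol_continuousAt (hlam _ (hpV k).1)).sub continuousAt_const).norm
      exact h1.preimage_mem_nhds (Iio_mem_nhds (by simp; positivity)))
  set r' : ℝ := min r₀ r1 with hr'
  have hr'0 : 0 < r' := lt_min hr₀ hr1
  obtain ⟨hb, hBk, hcov⟩ := hM' r' hr'0 (min_le_left _ _)
  have hpk : ∀ k, Pre X {x | x ∈ M k ∧ G x ∈ ball z0 r'} G z0 r' E := fun k =>
    h.piece (fun y hy => ((hM k).2.2.1 hy).2) hb (hBk k)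
  have hone : ∀ k, ∀ x ∈ {x | x ∈ M k ∧ G x ∈ ball z0 r'}, ∀ y ∈ {x | x ∈ M k ∧ G x ∈ ball z0 r'},
      G x = G y → G x ∉ E → x = y := by
    intro k x hx y hy hxy hxE
    by_contra hne
    have h1 := hsep (G x) (ball_subset_ball (min_le_right _ _) hx.2) hxE x ((hM k).2.2.1 hx.1).2 y
      ((hM k).2.2.1 hy.1).2 rfl hxy.symm hne
    have h2 : ‖lam x - lam (p k)‖ < δ / 2 := ((hM k).2.2.1 hx.1).1
    have h3 : ‖lam y - lam (p k)‖ < δ / 2 := ((hM k).2.2.1 hy.1).1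
    have h4 : lam x - lam y = (lam x - lam (p k)) - (lam y - lam (p k)) := by ring
    have h5 := norm_sub_le (lam x - lam (p k)) (lam y - lam (p k))
    rw [← h4] at h5
    linarith
  have hsec : ∀ k, ∃ s : Cm 4 → X.pt,
      (∀ w ∈ ball z0 r', s w ∈ {x | x ∈ M k ∧ G x ∈ ball z0 r'} ∧ G (s w) = w ∧ HolAt X s w) ∧
      ∀ x ∈ {x | x ∈ M k ∧ G x ∈ ball z0 r'}, s (G x) = x := fun k =>
    (hpk k).sec_of_one (hone k) ⟨p k, (hM k).2.1, by rw [(hpV k).2]; exact mem_ball_self hr'0⟩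
      (hζ.mono (hBk k).isOpen fun x hx => ((hM k).2.2.1 hx.1).2)
  choose s hs hsG using hsec
  have henum : ∀ w ∈ ball z0 r', Enum V G w fun k => s k w := by
    intro w hw
    refine ⟨fun k l hkl => ?_, fun y => ⟨?_, ?_⟩⟩
    · by_contra hne
      have h5 : s k w = s l w := hkl
      exact (disjoint_left.1 (hMd k l hne)) (hs k w hw).1.1 (h5 ▸ (hs l w hw).1.1)
    · rintro ⟨k, rfl⟩
      exact ⟨((hM k).2.2.1 (hs k w hw).1.1).2, (hs k w hw).2.1⟩
    · rintro ⟨hy, rfl⟩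
      obtain ⟨k, hk⟩ := hcov y hy hw
      exact ⟨k, hsG k y ⟨hk, hw⟩⟩
  -- the degree
  obtain ⟨w1, hw1, hw1E⟩ : ∃ w ∈ ball z0 r', w ∉ E := by
    have h1 := (thin_preconnected hr'0 (thin_mono h.thin hb)).2 (mem_ball_self hr'0)
    obtain ⟨w, hw⟩ := closure_nonempty_iff.1 ⟨_, h1⟩
    exact ⟨w, hw.1, hw.2⟩
  have hmd : m = d := by
    obtain ⟨x', hx'⟩ := hd w1 ⟨hb hw1, hw1E⟩
    exact Enum.card_eq (henum w1 hw1) hx'
  subst hmd
  have hz0b : z0 ∈ ball z0 r' := mem_ball_self hr'0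
  refine ⟨⟨fun k => s k z0, henum z0 hz0b, ?_⟩, ?_⟩
  · -- the discriminant formula at `z0`
    have h1 : θ z0 = (Matrix.vandermonde fun k => lam (s k z0)).det ^ 2 := by
      have h2 : ContinuousAt (fun w => (Matrix.vandermonde fun k => lam (s k w)).det ^ 2) z0 := by
        have h3 : ∀ k, ContinuousAt (fun w => lam (s k w)) z0 := fun k =>
          ((hs k z0 hz0b).2.2.analyticAt (hlam _ ((hM k).2.2.1 (hs k z0 hz0b).1.1).2)).continuousAt
        simp only [Matrix.det_vandermonde]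
        refine ContinuousAt.pow ?_ 2
        refine tendsto_finsetProd _ fun i _ => tendsto_finsetProd _ fun j _ => ?_
        exact (h3 j).sub (h3 i)
      have h3 : z0 ∈ closure (ball z0 r' \ E) :=
        (thin_preconnected hr'0 (thin_mono h.thin hb)).2 hz0b
      have h4 : (𝓝[ball z0 r' \ E] z0).NeBot := mem_closure_iff_nhdsWithin_neBot.1 h3
      refine tendsto_nhds_unique ((hθ z0 hz0).continuousAt.mono_left nhdsWithin_le_nhds)
        ((h2.mono_left (nhdsWithin_le_nhds (s := ball z0 r' \ E))).congr' ?_)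
      filter_upwards [self_mem_nhdsWithin] with w hw
      exact (hθx w ⟨hb hw.1, hw.2⟩ _ (henum w hw.1)).symm
    rw [h1] at h0
    exact Matrix.det_vandermonde_ne_zero_iff.1 (fun h5 => h0 (by rw [h5]; simp))
  · intro x hx hxz
    obtain ⟨k, hk⟩ := hcov x hx (by rw [hxz]; exact hz0b)
    refine ⟨{x | x ∈ M k ∧ G x ∈ ball z0 r'}, s k, (hBk k).isOpen, ⟨hk, by rw [hxz]; exact hz0b⟩,
      fun y hy => ((hM k).2.2.1 hy.1).2, ?_, fun y hy => ⟨hsG k y hy, (hs k _ hy.2).2.2⟩⟩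
    have h1 : G '' {x | x ∈ M k ∧ G x ∈ ball z0 r'} = ball z0 r' := by
      ext w
      constructor
      · rintro ⟨y, hy, rfl⟩; exact hy.2
      · intro hw
        exact ⟨s k w, (hs k w hw).1, (hs k w hw).2.1⟩
    rw [h1]
    exact isOpen_ball

end Pre

end Vale.Agent.P277.H335
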