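import Vale.Agent.P277.H335.COV2

/-!
# P277, TX-COV, part 3: branched coverings
-/

open Set Filter Metric Topology
open Vale.Agent.P272.K Vale.Agent.P277.TX

noncomputable section

namespace Vale.Agent.P277.H335

/-- from pre-coverings unbranched outside `{θ = 0}` to coverings -/
theorem Pre.toCov {X : CSp} {V : Set X.pt} {G : X.pt → Cm 4} {c : Cm 4} {r : ℝ} {θ : Cm 4 → ℂ}
    (h : Pre X V G c r {z | θ z = 0}) {d : ℕ} (hd1 : 1 ≤ d) {lam : X.pt → ℂ}
    (hlam : ∀ x ∈ V, X.Hol lam x) (hθ : ∀ z ∈ ball c r, AnalyticAt ℂ θ z)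
    (hne : ∀ z ∈ ball c r, ¬ θ =ᶠ[𝓝 z] 0)
    (hfin : ∀ z ∈ ball c r, {x | x ∈ V ∧ G x = z}.Finite)
    (hex : ∀ z ∈ ball c r, θ z ≠ 0 → ∃ x : Fin d → X.pt, Enum V G z x)
    (hsep : ∀ z ∈ ball c r, θ z ≠ 0 → InjOn lam {x | x ∈ V ∧ G x = z}) :
    IsCov X V G c r d lam θ where
  isOpen := h.isOpen
  pos := h.pos
  dpos := hd1
  holo := h.holo
  maps := h.maps
  proper := h.proper
  openMap W hWV hW := h.openMap hfin hWV hW
  finite z hz := by
    refine ⟨hfin z hz, ?_⟩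
    have hVn : V.Nonempty := by
      obtain ⟨z1, hz1⟩ : (ball c r \ {z | θ z = 0}).Nonempty := by
        rw [← closure_nonempty_iff]
        exact ⟨c, (thin_preconnected h.pos h.thin).2 (mem_ball_self h.pos)⟩
      obtain ⟨x, hx⟩ := hex z1 hz1.1 hz1.2
      exact ⟨_, ((hx.2 (x ⟨0, hd1⟩)).1 ⟨_, rfl⟩).1⟩
    obtain ⟨x, hx, hxz⟩ := h.surj hVn hz
    exact ⟨x, hx, hxz⟩
  lamHol := hlam
  an := hθ
  ne := hne
  enum := hex
  sep := hsep
  etale x hx hxθ := by
    obtain ⟨N, s, hN, hxN, hNV, hGN, hs⟩ := h.etale x hx hxθ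
    have hc : ContinuousOn (fun y => θ (G y)) N := fun y hy =>
      (ContinuousAt.comp (hθ (G y) (h.maps y (hNV hy))).continuousAt
        (h.contAt (hNV hy))).continuousWithinAt
    have hN2 := hc.isOpen_inter_preimage hN (isOpen_compl_singleton (x := (0 : ℂ)))
    refine ⟨_, hN2, ⟨hxN, hxθ⟩, inter_subset_left.trans hNV, (Sec.injOn hs).mono inter_subset_left,
      fun y hy => hy.2, fun y hy f => Sec.hol_iff h.holo hN hNV hs hy.1 f⟩
  sym f hf := by
    obtain ⟨P, hP, hPx, hPe⟩ := h.poly (d := d) (fun z hz => hex z hz.1 hz.2) f hf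
    exact ⟨P, hP, hPx, fun z hz hz0 x hx => hPe z ⟨hz, hz0⟩ x hx⟩

section IsCov

variable {X : CSp} {V : Set X.pt} {G : X.pt → Cm 4} {c : Cm 4} {r : ℝ} {d : ℕ} {lam : X.pt → ℂ}
  {θ : Cm 4 → ℂ}

theorem IsCov.toBase (h : IsCov X V G c r d lam θ) : Base X V G c r :=
  ⟨h.isOpen, h.pos, h.holo, h.maps, h.proper⟩

theorem IsCov.toPre (h : IsCov X V G c r d lam θ) : Pre X V G c r {z | θ z = 0} where
  toBase := IsCov.toBase h
  thin := thin_zero h.an h.ne
  etale x hx hxθ := by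
    obtain ⟨N, hN, hxN, hNV, hinj, hθN, hhol⟩ := h.etale x hx hxθ
    have hXne : Nonempty X.pt := ⟨x⟩
    have hsG : ∀ y ∈ N, Function.invFunOn G N (G y) = y := fun y hy => by
      have h1 := Function.invFunOn_mem (f := G) (s := N) ⟨y, hy, rfl⟩
      have h2 := Function.invFunOn_eq (f := G) (s := N) ⟨y, hy, rfl⟩
      exact hinj h1 hy h2
    have hGN : IsOpen (G '' N) := h.openMap N hNV hN
    refine ⟨N, Function.invFunOn G N, hN, hxN, hNV, hGN, fun y hy => ⟨hsG y hy, ?_, ?_⟩⟩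
    · intro W hW
      rw [hsG y hy] at hW
      obtain ⟨W', hW'W, hW', hyW'⟩ := mem_nhds_iff.1 (inter_mem hW (hN.mem_nhds hy))
      have h1 : G '' W' ∈ 𝓝 (G y) :=
        (h.openMap W' (fun z hz => hNV (hW'W hz).2) hW').mem_nhds (mem_image_of_mem G hyW')
      rw [mem_map]
      refine mem_of_superset h1 ?_
      rintro _ ⟨z, hz, rfl⟩
      show Function.invFunOn G N (G z) ∈ W
      rw [hsG z (hW'W hz).2]
      exact (hW'W hz).1
    · intro f hf
      rw [hsG y hy] at hf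
      obtain ⟨g, hg, hgf⟩ := (hhol y hy f).1 hf
      refine hg.congr ?_
      obtain ⟨W', hW'W, hW', hyW'⟩ := mem_nhds_iff.1 (inter_mem hgf (hN.mem_nhds hy))
      have h1 : G '' W' ∈ 𝓝 (G y) :=
        (h.openMap W' (fun z hz => hNV (hW'W hz).2) hW').mem_nhds (mem_image_of_mem G hyW')
      refine mem_of_superset h1 ?_
      rintro _ ⟨z, hz, rfl⟩
      show g (G z) = f (Function.invFunOn G N (G z))
      rw [hsG z (hW'W hz).2]
      exact (hW'W hz).1.symm
  dense W hWV hW hWn := by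
    by_contra hcon
    push Not at hcon
    obtain ⟨x, hx⟩ := hWn
    refine h.ne (G x) (h.maps x (hWV hx)) ?_
    refine mem_of_superset ((h.openMap W hWV hW).mem_nhds (mem_image_of_mem G hx)) ?_
    rintro _ ⟨y, hy, rfl⟩
    exact hcon y hy

theorem IsCov.finite' (h : IsCov X V G c r d lam θ) :
    ∀ z ∈ ball c r, {x | x ∈ V ∧ G x = z}.Finite := fun z hz => (h.finite z hz).1

end IsCov

/-- (TX-COV r) -/
theorem stCovRes : StCovRes := by
  intro X V G c r d lam θ h c' r' hr' hb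
  have hP := IsCov.toPre h
  have hB : Base X {x | x ∈ V ∧ G x ∈ ball c' r'} G c' r' := by
    refine ⟨hP.toBase.isOpen_pre isOpen_ball, hr', fun x hx => h.holo x hx.1, fun x hx => hx.2,
      fun r'' hr'' => ?_⟩
    have h1 : closedBall c' r'' ⊆ ball c' r' := closedBall_subset_ball hr''
    convert hP.toBase.compact (isCompact_closedBall c' r'') (h1.trans hb) using 1
    ext x
    constructor
    · rintro ⟨⟨a, -⟩, b⟩; exact ⟨a, b⟩
    · rintro ⟨a, b⟩; exact ⟨⟨a, h1 b⟩, b⟩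
  have hP' := hP.piece (M := V) Subset.rfl hb hB
  have hfib : ∀ z ∈ ball c' r', {x | x ∈ {x | x ∈ V ∧ G x ∈ ball c' r'} ∧ G x = z} =
      {x | x ∈ V ∧ G x = z} := by
    intro z hz
    ext x
    constructor
    · rintro ⟨⟨a, -⟩, b⟩; exact ⟨a, b⟩
    · rintro ⟨a, b⟩; exact ⟨⟨a, by rw [b]; exact hz⟩, b⟩
  refine hP'.toCov h.dpos (fun x hx => h.lamHol x hx.1) (fun z hz => h.an z (hb hz))
    (fun z hz => h.ne z (hb hz)) (fun z hz => ?_) (fun z hz hz0 => ?_) (fun z hz hz0 => ?_)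
  · rw [hfib z hz]
    exact (h.finite z (hb hz)).1
  · obtain ⟨x, hx⟩ := h.enum z (hb hz) hz0
    refine ⟨x, hx.1, fun y => (hx.2 y).trans ?_⟩
    exact (Set.ext_iff.1 (hfib z hz) y).symm
  · rw [hfib z hz]
    exact h.sep z (hb hz) hz0

/-- (TX-COV c) -/
theorem stDet : StDet := by
  intro X V G c r d lam θ h a ha
  have hP := IsCov.toPre h
  obtain ⟨κ, hκ, hκx⟩ := hP.descend (d := d) (fun z hz => h.enum z hz.1 hz.2) a ha
    (fun A => (Matrix.of A).det ^ 2) (fun A => by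
      have h1 : ∀ i k, AnalyticAt ℂ (fun A : Fin d → Fin d → ℂ => A i k) A := fun i k => by
        have h2 : AnalyticAt ℂ (fun A : Fin d → Fin d → ℂ => A i) A :=
          (ContinuousLinearMap.proj (R := ℂ) (φ := fun _ : Fin d => Fin d → ℂ) i).analyticAt _
        exact (analyticAt_pi_iff.1 h2) k
      have h3 : (fun A : Fin d → Fin d → ℂ => (Matrix.of A).det ^ 2) = fun A =>
          (∑ σ : Equiv.Perm (Fin d), ((Equiv.Perm.sign σ : ℤ) : ℂ) * ∏ i, A (σ i) i) ^ 2 := by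
        funext A
        simp only [Matrix.det_apply', Matrix.of_apply]
      rw [h3]
      refine AnalyticAt.pow ?_ 2
      refine Finset.analyticAt_fun_sum _ fun σ _ => analyticAt_const.mul ?_
      exact Finset.analyticAt_fun_prod _ fun i _ => h1 _ _) (fun A σ => by
      have h1 : Matrix.of (fun i k => A i (σ k)) = (Matrix.of A).submatrix id σ := rfl
      show (Matrix.of (fun i k => A i (σ k))).det ^ 2 = (Matrix.of A).det ^ 2
      rw [h1, Matrix.det_permute', mul_pow]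
      have h2 : (((Equiv.Perm.sign σ : ℤˣ) : ℤ) : ℂ) ^ 2 = 1 := by
        rcases Int.units_eq_one_or (Equiv.Perm.sign σ) with h | h <;> simp [h]
      rw [h2, one_mul])
  exact ⟨κ, hκ, fun z hz hz0 x hx => hκx z ⟨hz, hz0⟩ x hx⟩

end Vale.Agent.P277.H335
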