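import Vale.Agent.P277.H335.COV3
import Vale.Agent.P277.H73.IFT
import Vale.Agent.P277.H73.C

/-!
# P277, TX-COV, part 4: localisation and existence
-/

open Set Filter Metric Topology
open scoped Manifold ContDiff
open Vale.Agent.P272.K Vale.Agent.P285.H281.FD Vale.Agent.P277.TX

noncomputable section

namespace Vale.Agent.P277.H335

/-- (TX-COV b) -/
theorem stCovLoc : StCovLoc := by
  intro X V G c r d lam θ h z hz m p hinj hp N hN
  have hP := IsCov.toPre h
  obtain ⟨r', M, hr', hM, hMd, hM'⟩ := hP.toBase.split hz hinj hp N hN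
  obtain ⟨hb, hBk, hcov⟩ := hM' r' hr' le_rfl
  have hpV : ∀ k, p k ∈ V ∧ G (p k) = z := fun k => (hp (p k)).1 ⟨k, rfl⟩
  set V' : Fin m → Set X.pt := fun k => {x | x ∈ M k ∧ G x ∈ ball z r'} with hV'
  have hpk : ∀ k, Pre X (V' k) G z r' {z | θ z = 0} := fun k =>
    hP.piece (fun y hy => ((hM k).2.2.1 hy).2) hb (hBk k)
  choose d' hd' using fun k => (hpk k).exists_degree
  have hz0 : z ∈ ball z r' := mem_ball_self hr'
  have hpV' : ∀ k, p k ∈ V' k := fun k => ⟨(hM k).2.1, by rw [(hpV k).2]; exact hz0⟩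
  have hV'V : ∀ k, V' k ⊆ V := fun k x hx => ((hM k).2.2.1 hx.1).2
  obtain ⟨w, hw, hw0⟩ : ∃ w ∈ ball z r', θ w ≠ 0 := by
    have h1 := (thin_preconnected hr' (thin_mono hP.thin hb)).2 hz0
    obtain ⟨w, hw⟩ := closure_nonempty_iff.1 ⟨_, h1⟩
    exact ⟨w, hw.1, hw.2⟩
  have hfib : ∀ k, ∀ w, {x | x ∈ V' k ∧ G x = w} ⊆ {x | x ∈ V ∧ G x = w} := fun k w x hx =>
    ⟨hV'V k hx.1, hx.2⟩
  have hd1 : ∀ k, 1 ≤ d' k := by
    intro k
    obtain ⟨x, hx, hxw⟩ := (hpk k).surj ⟨p k, hpV' k⟩ hw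
    obtain ⟨x', hx'⟩ := hd' k w ⟨hw, hw0⟩
    obtain ⟨l, -⟩ := (hx'.2 x).2 ⟨hx, hxw⟩
    exact l.pos
  refine ⟨r', V', d', hr', hb, fun k => ⟨?_, hpV' k, fun x hx => (hM k).2.2.1 hx.1,
    fun x hx hxz => (hM k).2.2.2 x hx.1 hxz⟩, fun k l hkl => ?_, fun x hx hxz => ?_, ?_⟩
  · refine (hpk k).toCov (hd1 k) (fun x hx => h.lamHol x (hV'V k hx)) (fun z hz => h.an z (hb hz))
      (fun z hz => h.ne z (hb hz)) (fun w hw => ?_) (fun w hw hw0 => hd' k w ⟨hw, hw0⟩)
      (fun w hw hw0 => (h.sep w (hb hw) hw0).mono (hfib k w))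
    exact (h.finite w (hb hw)).1.subset (hfib k w)
  · exact (hMd k l hkl).mono (fun x hx => hx.1) (fun x hx => hx.1)
  · obtain ⟨k, hk⟩ := hcov x hx hxz
    exact ⟨k, hk, hxz⟩
  · -- count over `w`
    choose x hx using fun k => hd' k w ⟨hw, hw0⟩
    obtain ⟨x', hx'⟩ := h.enum w (hb hw) hw0
    set f : (Σ k, Fin (d' k)) → X.pt := fun q => x q.1 q.2 with hf
    have hfi : Function.Injective f := by
      rintro ⟨k, i⟩ ⟨l, j⟩ hij
      have h1 : x k i = x l j := hij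
      have hkl : k = l := by
        by_contra hne
        have h2 := ((hx k).2 (x k i)).1 ⟨i, rfl⟩
        have h3 := ((hx l).2 (x l j)).1 ⟨j, rfl⟩
        exact (disjoint_left.1 (hMd k l hne)) h2.1.1 (h1 ▸ h3.1.1)
      subst hkl
      rw [(hx k).1 h1]
    have h2 : range f = range x' := by
      ext y
      constructor
      · rintro ⟨⟨k, i⟩, rfl⟩
        have h3 := ((hx k).2 (x k i)).1 ⟨i, rfl⟩
        exact (hx'.2 _).2 ⟨hV'V k h3.1, h3.2⟩
      · intro hy
        obtain ⟨hyV, hyw⟩ := (hx'.2 y).1 hy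
        obtain ⟨k, hk⟩ := hcov y hyV (by rw [hyw]; exact hw)
        obtain ⟨i, hi⟩ := ((hx k).2 y).2 ⟨⟨hk, by rw [hyw]; exact hw⟩, hyw⟩
        exact ⟨⟨k, i⟩, hi⟩
    have h3 := Set.ncard_range_of_injective hfi
    have h4 := Set.ncard_range_of_injective hx'.1
    rw [h2, h4, Nat.card_fin, Nat.card_eq_fintype_card, Fintype.card_sigma] at h3
    rw [h3]
    simp

/-- a linear combination of coordinates separates finitely many points -/
theorem exists_sep {X : CSp} {V : Set X.pt} {n : ℕ} {ζ : Fin n → X.pt → ℂ} (hζ : IsCoord X V ζ)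
    {d : ℕ} (x : Fin d → X.pt) (hx : Function.Injective x) (hxV : ∀ k, x k ∈ V) :
    ∃ w : Fin n → ℂ, Function.Injective fun k => ∑ a, w a * ζ a (x k) := by
  classical
  by_cases hex : ∃ k l : Fin d, k ≠ l
  · obtain ⟨k0, l0, hkl0⟩ := hex
    let L : Fin d → Fin d → ((Fin n → ℂ) →ₗ[ℂ] ℂ) := fun k l =>
      ∑ a, (ζ a (x k) - ζ a (x l)) • LinearMap.proj (R := ℂ) (φ := fun _ : Fin n => ℂ) a
    have hL : ∀ k l w, L k l w = ∑ a, w a * ζ a (x k) - ∑ a, w a * ζ a (x l) := by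
      intro k l w
      simp only [L, LinearMap.sum_apply, LinearMap.smul_apply, LinearMap.proj_apply, smul_eq_mul]
      rw [← Finset.sum_sub_distrib]
      exact Finset.sum_congr rfl fun a _ => by ring
    have hne : ∀ k l, k ≠ l → LinearMap.ker (L k l) ≠ ⊤ := by
      intro k l hkl htop
      apply hkl
      apply hx
      refine hζ.injOn (hxV k) (hxV l) ?_
      funext a
      have h1 : (Pi.single a 1 : Fin n → ℂ) ∈ LinearMap.ker (L k l) := by rw [htop]; trivial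
      rw [LinearMap.mem_ker, hL] at h1
      simp only [Pi.single_apply, ite_mul, one_mul, zero_mul, Finset.sum_ite_eq', Finset.mem_univ,
        if_true] at h1
      exact sub_eq_zero.1 h1
    let H : ℕ → Submodule ℂ (Fin n → ℂ) := fun j =>
      match (Encodable.decode j : Option (Fin d × Fin d)) with
      | some q => if q.1 ≠ q.2 then LinearMap.ker (L q.1 q.2) else LinearMap.ker (L k0 l0)
      | none => LinearMap.ker (L k0 l0)
    have hH : ∀ j, H j ≠ ⊤ := by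
      intro j
      simp only [H]
      split
      · split_ifs with h1
        · exact hne _ _ h1
        · exact hne _ _ hkl0
      · exact hne _ _ hkl0
    obtain ⟨w, hw⟩ := H73.stC2 n H hH
    refine ⟨w, fun k l hkl => ?_⟩
    by_contra hne'
    have h1 := hw (Encodable.encode (k, l))
    simp only [H, Encodable.encodek, ne_eq, hne', not_false_eq_true, if_true] at h1
    apply h1
    rw [LinearMap.mem_ker, hL]
    exact sub_eq_zero.2 hkl
  · push Not at hex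
    exact ⟨0, fun k l _ => hex k l⟩

/-- pre-coverings with coordinates are coverings -/
theorem Pre.exists_cov {X : CSp} {V : Set X.pt} {G : X.pt → Cm 4} {c : Cm 4} {r : ℝ}
    {E : Set (Cm 4)} (h : Pre X V G c r E) (hV : V.Nonempty) {n : ℕ} {ζ : Fin n → X.pt → ℂ}
    (hζ : IsCoord X V ζ) :
    ∃ (d : ℕ) (lam : X.pt → ℂ) (θ : Cm 4 → ℂ), IsCov X V G c r d lam θ := by
  classical
  obtain ⟨d, hd⟩ := h.exists_degree
  have hfin : ∀ z ∈ ball c r, {x | x ∈ V ∧ G x = z}.Finite := fun z hz => h.finite hζ hz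
  obtain ⟨z1, hz1⟩ : (ball c r \ E).Nonempty := by
    rw [← closure_nonempty_iff]
    exact ⟨c, (thin_preconnected h.pos h.thin).2 (mem_ball_self h.pos)⟩
  obtain ⟨x1, hx1⟩ := hd z1 hz1
  have hd1 : 1 ≤ d := by
    obtain ⟨y, hy, hyz⟩ := h.surj hV hz1.1
    obtain ⟨k, -⟩ := (hx1.2 y).2 ⟨hy, hyz⟩
    exact k.pos
  obtain ⟨w, hw⟩ := exists_sep hζ x1 hx1.1 fun k => ((hx1.2 _).1 ⟨k, rfl⟩).1
  set lam : X.pt → ℂ := fun y => ∑ a, w a * ζ a y with hlamdef
  have hlam : ∀ x ∈ V, X.Hol lam x := fun x hx =>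
    hol_sum _ fun a _ => hol_mul (hol_const _ x) (hζ.hol a x hx)
  obtain ⟨θ, hθ, hθx⟩ : ∃ θ : Cm 4 → ℂ, (∀ z ∈ ball c r, AnalyticAt ℂ θ z) ∧
      ∀ z ∈ ball c r \ E, ∀ x : Fin d → X.pt, Enum V G z x →
        θ z = (Matrix.vandermonde fun k => lam (x k)).det ^ 2 := by
    refine h.descend hd (n := 1) (fun _ => lam) (fun _ => hlam)
      (fun A => (Matrix.vandermonde (A 0)).det ^ 2) (fun A => ?_) (fun A σ => ?_)
    · have h1 : ∀ k, AnalyticAt ℂ (fun A : Fin 1 → Fin d → ℂ => A 0 k) A := fun k => by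
        have h2 : AnalyticAt ℂ (fun A : Fin 1 → Fin d → ℂ => A 0) A :=
          (ContinuousLinearMap.proj (R := ℂ) (φ := fun _ : Fin 1 => Fin d → ℂ) 0).analyticAt _
        exact (analyticAt_pi_iff.1 h2) k
      simp only [Matrix.det_vandermonde]
      refine AnalyticAt.pow ?_ 2
      exact Finset.analyticAt_fun_prod _ fun i _ => Finset.analyticAt_fun_prod _ fun j _ =>
        (h1 j).sub (h1 i)
    · have h1 : Matrix.vandermonde (fun k => A 0 (σ k)) =
          (Matrix.vandermonde (A 0)).submatrix σ id := rfl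
      show (Matrix.vandermonde (fun k => A 0 (σ k))).det ^ 2 = (Matrix.vandermonde (A 0)).det ^ 2
      rw [h1, Matrix.det_permute, mul_pow]
      have h2 : (((Equiv.Perm.sign σ : ℤˣ) : ℤ) : ℂ) ^ 2 = 1 := by
        rcases Int.units_eq_one_or (Equiv.Perm.sign σ) with h | h <;> simp [h]
      rw [h2, one_mul]
  have hθ1 : θ z1 ≠ 0 := by
    rw [hθx z1 hz1 x1 hx1]
    exact pow_ne_zero 2 (Matrix.det_vandermonde_ne_zero_iff.2 hw)
  have hne : ∀ z ∈ ball c r, ¬ θ =ᶠ[𝓝 z] 0 := by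
    intro z hz h0
    have h1 : AnalyticOnNhd ℂ θ (ball c r) := fun z hz => hθ z hz
    exact hθ1 (h1.eqOn_zero_of_preconnected_of_eventuallyEq_zero
      (convex_ball c r).isPreconnected hz h0 hz1.1)
  have hun := fun z0 (hz0 : z0 ∈ ball c r) (h0 : θ z0 ≠ 0) =>
    h.unbranched hd hfin hζ hlam hθ hθx hz0 h0
  have hP : Pre X V G c r {z | θ z = 0} := by
    refine ⟨h.toBase, thin_zero hθ hne, fun x hx hx0 => (hun _ (h.maps x hx) hx0).2 x hx rfl,
      fun W hWV hW hWn => ?_⟩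
    by_contra hcon
    push Not at hcon
    obtain ⟨x, hx⟩ := hWn
    refine hne (G x) (h.maps x (hWV hx)) ?_
    refine mem_of_superset ((h.openMap hfin hWV hW).mem_nhds (mem_image_of_mem G hx)) ?_
    rintro _ ⟨y, hy, rfl⟩
    exact hcon y hy
  refine ⟨d, lam, θ, hP.toCov hd1 hlam hθ hne hfin (fun z hz hz0 => ?_) fun z hz hz0 => ?_⟩
  · obtain ⟨x, hx, -⟩ := (hun z hz hz0).1
    exact ⟨x, hx⟩
  · obtain ⟨x, hx, hxi⟩ := (hun z hz hz0).1
    intro a ha b hb hab
    obtain ⟨k, rfl⟩ := (hx.2 a).2 ha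
    obtain ⟨l, rfl⟩ := (hx.2 b).2 hb
    rw [hxi hab]

end Vale.Agent.P277.H335
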