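import Vale.Agent.P277.H335.Hyp
import Vale.Agent.P277.H615.P7
import Vale.Agent.P277.H615.R.OrdV
import Vale.Agent.P277.H884.Conn
import Vale.Agent.P277.Stmts13

/-!
# P277, T3: smooth hypersurfaces of `Y` given by sections
-/

open scoped Manifold ContDiff Topology
open Vale.Agent.P272.K Vale.Agent.P285.H281.FD Vale.Agent.P267.H175 Set Metric Filter

noncomputable section

namespace Vale.Agent.P277.H335.RR

open Vale.Agent.P277 Vale.Agent.P277.T2 Vale.Agent.P277.H335 Vale.Agent.P277.H615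

variable {Y : Type} [TopologicalSpace Y] [ChartedSpace (Cm 4) Y] [IsManifold 𝓘(ℂ, Cm 4) ω Y]

/-- adapted coordinates -/
theorem isPar_of_chart {G : Set Y} {y : Y} {e : Chart 4 Y} (he : At e y)
    {Ψ : OpenPartialHomeomorph (Cm 4) (Cm 4)} (hys : e y ∈ Ψ.source)
    (hΨ : ∀ q ∈ Ψ.source, AnalyticAt ℂ Ψ q) (hΨ' : ∀ z ∈ Ψ.target, AnalyticAt ℂ Ψ.symm z)
    (h0 : Ψ (e y) 0 = 0) (hG : ∀ᶠ y' in 𝓝 y, y' ∈ G ↔ Ψ (e y') 0 = 0) :
    ∃ r, IsPar G (fun w => e.symm (Ψ.symm w)) (Ψ (e y)) r := by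
  have ht : Ψ (e y) ∈ Ψ.target := Ψ.map_source hys
  have hc1 : ContinuousAt Ψ.symm (Ψ (e y)) := (hΨ' _ ht).continuousAt
  have hc2 : ContinuousAt (fun w => e.symm (Ψ.symm w)) (Ψ (e y)) := by
    refine ContinuousAt.comp (g := e.symm) ?_ hc1
    rw [Ψ.left_inv hys]
    exact e.continuousAt_symm (e.map_source he.2)
  have hval : e.symm (Ψ.symm (Ψ (e y))) = y := by rw [Ψ.left_inv hys, e.left_inv he.2]
  have hev : ∀ᶠ w in 𝓝 (Ψ (e y)), w ∈ Ψ.target ∧ Ψ.symm w ∈ e.target ∧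
      (e.symm (Ψ.symm w) ∈ G ↔ Ψ (e (e.symm (Ψ.symm w))) 0 = 0) := by
    have hc3 : Tendsto (fun w => e.symm (Ψ.symm w)) (𝓝 (Ψ (e y))) (𝓝 y) := by
      have := hc2.tendsto
      rwa [hval] at this
    refine (Ψ.open_target.eventually_mem ht).and ((hc1.eventually_mem (e.open_target.mem_nhds ?_)).and
      (hc3.eventually hG))
    rw [Ψ.left_inv hys]; exact e.map_source he.2
  obtain ⟨r, hr, hball⟩ := Metric.eventually_nhds_iff_ball.1 hev
  refine ⟨r, hr, h0, ?_, ?_, ?_, ?_, ?_⟩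
  · intro w hw w' hw' hww
    have h1 := e.symm.injOn (hball w hw).2.1 (hball w' hw').2.1 hww
    exact Ψ.symm.injOn (hball w hw).1 (hball w' hw').1 h1
  · intro W hW hWo
    have h1 : IsOpen (Ψ.symm '' W) :=
      Ψ.symm.isOpen_image_of_subset_source hWo fun w hw => (hball w (hW hw)).1
    have h2 : IsOpen (e.symm '' (Ψ.symm '' W)) := by
      refine e.symm.isOpen_image_of_subset_source h1 ?_
      rintro _ ⟨w, hw, rfl⟩
      exact (hball w (hW hw)).2.1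
    rwa [image_image] at h2
  · intro w hw
    exact ContinuousAt.comp (g := e.symm) (e.continuousAt_symm (hball w hw).2.1)
      (hΨ' w (hball w hw).1).continuousAt
  · intro w hw e' he'
    obtain ⟨b1, b2, -⟩ := hball w hw
    have hs : At e (e.symm (Ψ.symm w)) := ⟨he.1, e.map_target b2⟩
    have h1 : AnalyticAt ℂ (fun z => e' (e.symm z)) (Ψ.symm w) := by
      have h2 := trans_analyticAt hs he'
      rwa [e.right_inv b2] at h2
    have h3 := hΨ' w b1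
    refine ⟨AnalyticAt.fun_comp (g := fun z => e' (e.symm z)) (f := Ψ.symm) h1 h3, ?_⟩
    have h4 := H19.det_fderiv_comp (F := Ψ.symm) (G := fun z => e' (e.symm z)) (w := w)
      h1.differentiableAt h3.differentiableAt
    rw [h4]
    refine mul_ne_zero ?_ ?_
    · have h5 := H19.det_jacM hs he'
      rw [e.right_inv b2] at h5
      rw [← h5]
      intro h6
      have h7 := H19.det_jacM_mul hs he'
      rw [h6, zero_mul] at h7
      exact zero_ne_one h7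
    · have h5 : (fun z => Ψ (Ψ.symm z)) =ᶠ[𝓝 w] fun z => z := by
        filter_upwards [Ψ.open_target.mem_nhds b1] with z hz
        exact Ψ.right_inv hz
      have h6 := H19.det_fderiv_comp (F := Ψ.symm) (G := Ψ) (w := w)
        (hΨ _ (Ψ.map_target b1)).differentiableAt h3.differentiableAt
      rw [h5.fderiv_eq] at h6
      have h7 : (fderiv ℂ (fun z : Cm 4 => z) w) = ContinuousLinearMap.id ℂ (Cm 4) := fderiv_fun_id
      rw [h7, H19.det_id] at h6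
      exact right_ne_zero_of_mul (h6 ▸ one_ne_zero)
  · intro w hw
    obtain ⟨b1, b2, b3⟩ := hball w hw
    rw [b3, e.right_inv b2, Ψ.right_inv b1]

variable {H : Type} [TopologicalSpace H] [ChartedSpace (Cm 3) H]

omit [IsManifold 𝓘(ℂ, Cm 4) ω Y] in
/-- straight coordinates at the points of the zero set of a section -/
theorem exists_coord {ι : H → Y} {E : Bd Y} {s : E.ι → Y → ℂ} (h : T3.IsBd ι E s)
    {μ : E.ι} {y : Y} (hyμ : y ∈ E.U μ) (hy : y ∈ range ι) {e : Chart 4 Y} (he : At e y) :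
    ∃ Ψ : OpenPartialHomeomorph (Cm 4) (Cm 4), e y ∈ Ψ.source ∧
      (∀ q ∈ Ψ.source, AnalyticAt ℂ Ψ q) ∧ (∀ z ∈ Ψ.target, AnalyticAt ℂ Ψ.symm z) ∧
      ∀ q, Ψ q 0 = s μ (e.symm q) := by
  have hg : AnalyticAt ℂ (fun z => s μ (e.symm z)) (e y) :=
    (h.sec.holo μ e y he hyμ).analyticAt
  exact HY.exists_straight hg (h.mult μ y hyμ ((h.zero μ y hyμ).2 hy) e he)

/-- the zero set is a smooth hypersurface -/
theorem isHyp_of_bd {ι : H → Y} {E : Bd Y} (hE : IsLB 4 E) {s : E.ι → Y → ℂ}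
    (h : T3.IsBd ι E s) : IsHyp (range ι) := by
  intro y hy
  obtain ⟨μ, hμ⟩ := hE.cover y
  have he : At (chartAt (Cm 4) y : Chart 4 Y) y := ⟨chart_mem_atlas _ y, mem_chart_source _ y⟩
  obtain ⟨Ψ, h1, h2, h3, h4⟩ := exists_coord h hμ hy he
  obtain ⟨r, hr⟩ := isPar_of_chart (G := range ι) he h1 h2 h3 (by
    rw [h4, OpenPartialHomeomorph.left_inv _ he.2]
    exact (h.zero μ y hμ).2 hy) (by
    filter_upwards [(hE.isOpen μ).mem_nhds hμ,
      (OpenPartialHomeomorph.open_source _).mem_nhds he.2] with y' hy' hs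
    rw [h4, OpenPartialHomeomorph.left_inv _ hs]
    exact (h.zero μ y' hy').symm)
  refine ⟨_, _, r, hr, ?_⟩
  rw [Ψ.left_inv h1, OpenPartialHomeomorph.left_inv _ he.2]

/-- the local equation of a smooth hypersurface in the coordinates adapted to another one -/
theorem exists_eqn {E G : Set Y} (hG : IsHyp G) {ξ : Cm 4 → Y} {w₀ : Cm 4} {r : ℝ}
    (h : IsPar E ξ w₀ r) (hy : ξ w₀ ∈ G) : ∃ r₁ > 0, ball w₀ r₁ ⊆ ball w₀ r ∧ ∃ g : Cm 4 → ℂ,
      (∀ w ∈ ball w₀ r₁, AnalyticAt ℂ g w) ∧ ∀ w ∈ ball w₀ r₁, ξ w ∈ G ↔ g w = 0 := by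
  obtain ⟨ξ', w₀', r', h', heq⟩ := hG _ hy
  obtain ⟨ψ, hψ, hψ0, hψξ⟩ := exists_psi h h' heq.symm
  have hw₀' := mem_ball_self (x := w₀') h'.pos
  have hev : ∀ᶠ w in 𝓝 w₀, w ∈ ball w₀ r ∧ AnalyticAt ℂ ψ w ∧ ξ' (ψ w) = ξ w ∧
      ψ w ∈ ball w₀' r' :=
    (isOpen_ball.eventually_mem (mem_ball_self h.pos)).and (hψ.eventually_analyticAt.and
      (hψξ.and (hψ.continuousAt.eventually_mem (by rw [hψ0]; exact isOpen_ball.mem_nhds hw₀'))))
  obtain ⟨r₁, hr₁, hball⟩ := Metric.eventually_nhds_iff_ball.1 hev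
  refine ⟨r₁, hr₁, fun w hw => (hball w hw).1, fun w => ψ w 0, fun w hw =>
    (analyticAt_pi_iff.1 (hball w hw).2.1) 0, fun w hw => ?_⟩
  obtain ⟨-, -, h3, h4⟩ := hball w hw
  rw [← h3]
  exact h'.mem _ h4

/-- A connected smooth hypersurface `E` which is not contained in the smooth hypersurface `G` is
nowhere locally contained in `G`. -/
theorem not_locally_sub {E G : Set Y} (hE : IsHyp E) (hEc : IsPreconnected E) (hG : IsHyp G)
    (hGcl : IsClosed G) (hne : ¬ E ⊆ G) {y : Y} (hy : y ∈ E) :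
    ¬ ∀ᶠ y' in 𝓝 y, y' ∈ E → y' ∈ G := by
  intro hy0
  have hconn : PreconnectedSpace E := isPreconnected_iff_preconnectedSpace.1 hEc
  set U : Set E := {y | ∀ᶠ y' in 𝓝 (y : Y), y' ∈ E → y' ∈ G} with hU
  have hUo : IsOpen U := by
    have h1 : IsOpen {y : Y | ∀ᶠ y' in 𝓝 y, y' ∈ E → y' ∈ G} := by
      rw [isOpen_iff_mem_nhds]
      intro z hz
      exact eventually_eventually_nhds.2 hz
    exact h1.preimage continuous_subtype_val
  have hUcl : IsClosed U := by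
    rw [← closure_subset_iff_isClosed]
    rintro ⟨z, hzE⟩ hz
    have key : ∀ N ∈ 𝓝 z, ∃ z' ∈ N, z' ∈ E ∧ ∀ᶠ y' in 𝓝 z', y' ∈ E → y' ∈ G := by
      intro N hN
      obtain ⟨⟨z', hz'E⟩, h1, h2⟩ := mem_closure_iff_nhds.1 hz (Subtype.val ⁻¹' N)
        (continuous_subtype_val.continuousAt hN)
      exact ⟨z', h1, hz'E, h2⟩
    have hzG : z ∈ G := by
      rw [← hGcl.closure_eq, mem_closure_iff_nhds]
      intro N hN
      obtain ⟨z', h1, h2, h3⟩ := key N hN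
      exact ⟨z', h1, h3.self_of_nhds h2⟩
    obtain ⟨ξ, w₀, r, hpar, rfl⟩ := hE z hzE
    obtain ⟨r₁, hr₁, hs, g, hg, hgG⟩ := exists_eqn hG hpar hzG
    have hN : ξ '' ball w₀ r₁ ∈ 𝓝 (ξ w₀) :=
      (hpar.openMap _ hs isOpen_ball).mem_nhds ⟨w₀, mem_ball_self hr₁, rfl⟩
    have hz0 : ∀ w ∈ ball w₀ r₁, w 0 = 0 → g w = 0 := by
      intro w₁ hw₁ hw₁0
      by_contra hgw
      obtain ⟨_, ⟨w', hw', rfl⟩, h2, h3⟩ := key _ hN
      have hw'0 : w' 0 = 0 := (hpar.mem w' (hs hw')).1 h2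
      obtain ⟨w, ⟨k1, k2⟩, k3, k4⟩ := ((freq_ne hpar.zero hg hw₁ hw₁0 hw' hw'0 hgw).and_eventually
        (((hpar.cont w' (hs hw')).eventually h3).and (isOpen_ball.mem_nhds hw'))).exists
      exact k2 ((hgG w k4).1 (k3 ((hpar.mem w (hs k4)).2 k1)))
    show ∀ᶠ y' in 𝓝 (ξ w₀), y' ∈ E → y' ∈ G
    filter_upwards [hN] with y' hy' hy'E
    obtain ⟨w, hw, rfl⟩ := hy'
    exact (hgG w hw).2 (hz0 w hw ((hpar.mem w (hs hw)).1 hy'E))
  have huniv : U = univ := IsClopen.eq_univ ⟨hUcl, hUo⟩ ⟨⟨y, hy⟩, hy0⟩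
  refine hne fun z hz => ?_
  have h1 : (⟨z, hz⟩ : E) ∈ U := huniv ▸ mem_univ _
  exact Eventually.self_of_nhds h1 hz

/-- the intersection of two different smooth connected hypersurfaces is thin -/
theorem dimLe_inter {V : CSp} [Nonempty V.pt] {vV : Y → V.pt} (hvV : IsOpenEmb V univ vV)
    {E G : Set Y} (hE : IsHyp E) (hEc : IsPreconnected E) (hG : IsHyp G) (hGcl : IsClosed G)
    (hne : ¬ E ⊆ G) : DimLe V 2 (vV '' (E ∩ G)) := by
  apply dimLe_of_local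
  rintro _ ⟨y, ⟨hyE, hyG⟩, rfl⟩
  obtain ⟨ξ, w₀, r, hpar, rfl⟩ := hE y hyE
  obtain ⟨r₁, hr₁, hs, g, hg, hgG⟩ := exists_eqn hG hpar hyG
  have hex : ∃ w ∈ ball w₀ r₁, w 0 = 0 ∧ g w ≠ 0 := by
    by_contra hcon
    push Not at hcon
    refine not_locally_sub hE hEc hG hGcl hne hyE ?_
    filter_upwards [(hpar.openMap _ hs isOpen_ball).mem_nhds ⟨w₀, mem_ball_self hr₁, rfl⟩]
      with y' hy' hy'E
    obtain ⟨w, hw, rfl⟩ := hy'
    exact (hgG w hw).2 (hcon w hw ((hpar.mem w (hs hw)).1 hy'E))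
  refine ⟨vV '' (ξ '' ball w₀ r₁), hvV.isOpenMap _ (subset_univ _)
      (hpar.openMap _ hs isOpen_ball), ⟨_, ⟨w₀, mem_ball_self hr₁, rfl⟩, rfl⟩, ?_⟩
  refine (dimLe_zero hvV hpar hs hg hex).mono ?_
  rintro _ ⟨⟨_, ⟨w, hw, rfl⟩, rfl⟩, y, ⟨hy1, hy2⟩, hyw⟩
  have hyw' : y = ξ w := hvV.inj (mem_univ _) (mem_univ _) hyw
  subst hyw'
  exact ⟨w, ⟨hw, (hpar.mem w (hs hw)).1 hy1, (hgG w hw).1 hy2⟩, rfl⟩

/-- the common open subset is dense in a connected smooth hypersurface which is not exceptional -/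
theorem hyp_dense [T2Space Y] [CompactSpace Y] [Nonempty Y] {V : CSp} {vV : Y → V.pt}
    (hvV : IsOpenEmb V univ vV) {n : ℕ} {G : Fin n → Set Y} (hG : ∀ l, IsHyp (G l))
    (hGcl : ∀ l, IsClosed (G l)) {E : Set Y} (hE : IsHyp E) (hEc : IsPreconnected E)
    (hne : ∀ l, ¬ E ⊆ G l) {O : Set Y} (hO : IsOpen O)
    (hthin : DimLe V 2 (vV '' ((⋃ l, G l)ᶜ \ O))) :
    DimLe V 2 (vV '' (E \ O)) ∧ E ⊆ closure (E ∩ O) ∧ IsPreconnected (E ∩ O) := by
  have hneV : Nonempty V.pt := ⟨vV (Classical.arbitrary Y)⟩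
  have h1 : DimLe V 2 (⋃ l, vV '' (E ∩ G l)) :=
    dimLe_iUnion fun l => dimLe_inter hvV hE hEc (hG l) (hGcl l) (hne l)
  have h2 : DimLe V 2 (vV '' (E \ O)) := by
    refine (h1.union hthin).mono ?_
    rintro _ ⟨y, ⟨hyE, hyO⟩, rfl⟩
    by_cases hy : y ∈ ⋃ l, G l
    · obtain ⟨l, hl⟩ := mem_iUnion.1 hy
      exact Or.inl (mem_iUnion.2 ⟨l, y, ⟨hyE, hl⟩, rfl⟩)
    · exact Or.inr ⟨y, ⟨hy, hyO⟩, rfl⟩
  refine ⟨h2, ?_⟩
  refine set_conn H884.stConn hvV hE hEc inter_subset_left ?_ ?_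
  · have h3 : E \ (E ∩ O) = E \ O := by
      ext y; simp
    rw [h3]; exact h2
  · intro y hy
    exact ⟨O, hO, hy.2, fun z hz => ⟨hz.2, hz.1⟩⟩

end Vale.Agent.P277.H335.RR
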