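import Vale.Agent.P277.H335.HypB
import Vale.Agent.P277.H29.Fac4

/-!
# P277, T3: the order of the Jacobian of a map centred in a smooth hypersurface
-/

open scoped Manifold ContDiff Topology
open Vale.Agent.P272.K Vale.Agent.P285.H281.FD Vale.Agent.P267.H175 Set Metric Filter

noncomputable section

namespace Vale.Agent.P277.H335.RR

open Vale.Agent.P277 Vale.Agent.P277.T2 Vale.Agent.P277.H335 Vale.Agent.P277.H615

/-- the Jacobian of a local inverse -/
theorem det_ne_zero_of_inv {Ψ : OpenPartialHomeomorph (Cm 4) (Cm 4)} {x : Cm 4}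
    (hx : x ∈ Ψ.source) (hΨ : AnalyticAt ℂ Ψ x) (hΨ' : AnalyticAt ℂ Ψ.symm (Ψ x)) :
    (fderiv ℂ Ψ x).det ≠ 0 := by
  have h5 : (fun z => Ψ.symm (Ψ z)) =ᶠ[𝓝 x] fun z => z := by
    filter_upwards [Ψ.open_source.mem_nhds hx] with z hz
    exact Ψ.left_inv hz
  have h6 := H19.det_fderiv_comp (F := Ψ) (G := Ψ.symm) (w := x)
    hΨ'.differentiableAt hΨ.differentiableAt
  rw [h5.fderiv_eq] at h6
  have h7 : (fderiv ℂ (fun z : Cm 4 => z) x) = ContinuousLinearMap.id ℂ (Cm 4) := fderiv_fun_id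
  rw [h7, H19.det_id] at h6
  exact right_ne_zero_of_mul (h6 ▸ one_ne_zero)

/-- replacing the first coordinate by `w 0` -/
theorem exists_cons_inv {F : Cm 4 → Cm 4} {w₂ : Cm 4} (hF : AnalyticAt ℂ F w₂)
    (hdet : (Matrix.of fun i j : Fin 3 => fderiv ℂ F w₂ (Pi.single j.succ 1) i.succ).det ≠ 0) :
    ∃ θ : OpenPartialHomeomorph (Cm 4) (Cm 4),
      (θ : Cm 4 → Cm 4) = (fun w => Fin.cons (w 0) fun i : Fin 3 => F w i.succ) ∧
      w₂ ∈ θ.source := by
  set K : Cm 4 → Cm 4 := fun w => Fin.cons (w 0) fun i : Fin 3 => F w i.succ with hK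
  have hKa : AnalyticAt ℂ K w₂ := by
    rw [analyticAt_pi_iff]
    intro j
    refine Fin.cases ?_ (fun j => ?_) j
    · exact (ContinuousLinearMap.proj (R := ℂ) (φ := fun _ : Fin 4 => ℂ) 0).analyticAt w₂
    · simp only [Fin.cons_succ]
      exact (analyticAt_pi_iff.1 hF) j.succ
  have hKd : ∀ (v : Cm 4) (j : Fin 4), fderiv ℂ K w₂ v j = fderiv ℂ (fun w => K w j) w₂ v := by
    intro v j
    rw [fderiv_apply hKa.differentiableAt]
    rfl
  have hFd : ∀ (v : Cm 4) (j : Fin 4), fderiv ℂ F w₂ v j = fderiv ℂ (fun w => F w j) w₂ v := by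
    intro v j
    rw [fderiv_apply hF.differentiableAt]
    rfl
  have hinj : Function.Injective (fderiv ℂ K w₂) := by
    rw [injective_iff_map_eq_zero]
    intro v hv
    have h0 : v 0 = 0 := by
      have h1 := congrFun hv 0
      rw [hKd v 0] at h1
      have h2 : (fun w => K w 0) = fun w : Cm 4 => w 0 := by
        funext w; simp [hK]
      rw [h2] at h1
      have h3 : fderiv ℂ (fun w : Cm 4 => w 0) w₂ =
          ContinuousLinearMap.proj (R := ℂ) (φ := fun _ : Fin 4 => ℂ) 0 :=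
        (ContinuousLinearMap.proj (R := ℂ) (φ := fun _ : Fin 4 => ℂ) 0).fderiv
      rw [h3] at h1
      exact h1
    have hs : ∀ i : Fin 3, fderiv ℂ F w₂ v i.succ = 0 := by
      intro i
      have h1 := congrFun hv i.succ
      rw [hKd v i.succ] at h1
      have h2 : (fun w => K w i.succ) = fun w : Cm 4 => F w i.succ := by
        funext w; simp [hK]
      rw [h2, ← hFd] at h1
      exact h1
    have hv2 : v = ∑ j : Fin 3, v j.succ • (Pi.single j.succ (1 : ℂ) : Cm 4) := by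
      have h2 : v = ∑ j, v j • (Pi.single j (1 : ℂ) : Cm 4) := by
        funext k
        simp [Finset.sum_apply, Pi.single_apply]
      conv_lhs => rw [h2]
      rw [Fin.sum_univ_succ, h0, zero_smul, zero_add]
    have hmul : (Matrix.of fun i j : Fin 3 => fderiv ℂ F w₂ (Pi.single j.succ 1) i.succ).mulVec
        (fun j : Fin 3 => v j.succ) = 0 := by
      funext i
      have h1 := hs i
      rw [hv2, map_sum] at h1
      simp only [map_smul, Finset.sum_apply, Pi.smul_apply, smul_eq_mul] at h1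
      simp only [Matrix.mulVec, dotProduct, Matrix.of_apply, Pi.zero_apply]
      rw [← h1]
      exact Finset.sum_congr rfl fun j _ => mul_comm _ _
    have hz := Matrix.eq_zero_of_mulVec_eq_zero hdet hmul
    funext j
    refine Fin.cases ?_ (fun j => ?_) j
    · exact h0
    · exact congrFun hz j
  obtain ⟨θ, hθ, hθs, -, -⟩ := H73.exists_localInv hKa hinj
  exact ⟨θ, hθ, hθs⟩

variable {Y : Type} [TopologicalSpace Y] [ChartedSpace (Cm 4) Y]
  {H : Type} [TopologicalSpace H] [ChartedSpace (Cm 3) H]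

/-- The order of the Jacobian of a wedge of `Y` centred in a smooth hypersurface, but not dominating
it. -/
theorem order_le_jac {ι : H → Y} {E : Bd Y} {s : E.ι → Y → ℂ}
    (h : T3.IsBd ι E s) {O : Set Y} (hEo : ∀ μ, IsOpen (E.U μ))
    (hd : range ι ⊆ closure (range ι ∩ O)) {γ : Cm 4 → Y} {w₂ : Cm 4}
    (h0 : w₂ 0 = 0) (hγ : ContinuousAt γ w₂) {e : Chart 4 Y} (he : At e (γ w₂))
    (hγa : AnalyticAt ℂ (fun w => e (γ w)) w₂) (hO : ∀ᶠ w in 𝓝 w₂, w 0 = 0 → γ w ∉ O)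
    {μ : E.ι} (hμ : γ w₂ ∈ E.U μ) {g J : ℕ} {u u' : Cm 4 → ℂ}
    (hu : AnalyticAt ℂ u w₂) (hu0 : u w₂ ≠ 0) (hu' : AnalyticAt ℂ u' w₂) (hu'0 : u' w₂ ≠ 0)
    (hs : ∀ᶠ w in 𝓝 w₂, s μ (γ w) = w 0 ^ g * u w)
    (hJ : ∀ᶠ w in 𝓝 w₂, (fderiv ℂ (fun w => e (γ w)) w).det = w 0 ^ J * u' w) : g ≤ J := by
  rcases Nat.eq_zero_or_pos g with rfl | hg
  · exact Nat.zero_le _
  have hmem : γ w₂ ∈ range ι := by
    refine (h.zero μ _ hμ).1 ?_
    rw [hs.self_of_nhds, h0, zero_pow hg.ne', zero_mul]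
  obtain ⟨Ψ, h1, h2, h3, h4⟩ := exists_coord h hμ hmem he
  set F : Cm 4 → Cm 4 := fun w => Ψ (e (γ w)) with hF
  have hFa : AnalyticAt ℂ F w₂ :=
    AnalyticAt.fun_comp (g := Ψ) (f := fun w => e (γ w)) (h2 _ h1) hγa
  have hsrc : ∀ᶠ w in 𝓝 w₂, γ w ∈ e.source := hγ.eventually_mem (e.open_source.mem_nhds he.2)
  have hsrc2 : ∀ᶠ w in 𝓝 w₂, e (γ w) ∈ Ψ.source :=
    hγa.continuousAt.eventually_mem (Ψ.open_source.mem_nhds h1)
  have hF0 : ∀ᶠ w in 𝓝 w₂, F w 0 = w 0 ^ g * u w := by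
    filter_upwards [hs, hsrc] with w g1 g2
    simp only [hF]
    rw [h4, e.left_inv g2, g1]
  have hdetΨ : AnalyticAt ℂ (fun w => (fderiv ℂ Ψ (e (γ w))).det) w₂ :=
    AnalyticAt.fun_comp (g := fun z => (fderiv ℂ Ψ z).det) (f := fun w => e (γ w))
      (H19.analyticAt_det (h2 _ h1)) hγa
  have hFJ : ∀ᶠ w in 𝓝 w₂, (fderiv ℂ F w).det =
      w 0 ^ J * ((fderiv ℂ Ψ (e (γ w))).det * u' w) := by
    filter_upwards [hJ, hsrc2, hγa.eventually_analyticAt] with w g1 g2 g3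
    have h5 := H19.det_fderiv_comp (F := fun w => e (γ w)) (G := Ψ) (w := w)
      (h2 _ g2).differentiableAt g3.differentiableAt
    simp only [hF]
    rw [h5, g1]
    ring
  have hne : (fderiv ℂ Ψ (e (γ w₂))).det * u' w₂ ≠ 0 :=
    mul_ne_zero (det_ne_zero_of_inv h1 (h2 _ h1) (h3 _ (Ψ.map_source h1))) hu'0
  obtain ⟨k1, k2, -⟩ := H29.stFac F w₂ hFa h0 g J hg u (fun w => (fderiv ℂ Ψ (e (γ w))).det * u' w)
    hu hu0 (hdetΨ.mul hu') hne hF0 hFJ
  by_contra hlt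
  obtain ⟨θ, hθ, hθs⟩ := exists_cons_inv hFa (k2 (by omega))
  have hFw0 : F w₂ 0 = 0 := by
    rw [hF0.self_of_nhds, h0, zero_pow hg.ne', zero_mul]
  have hθw : θ w₂ = F w₂ := by
    rw [hθ]
    funext j
    refine Fin.cases ?_ (fun j => ?_) j
    · simp [h0, hFw0]
    · simp
  -- the neighbouring points
  have c1 : Tendsto θ.symm (𝓝 (F w₂)) (𝓝 w₂) := by
    have h5 := θ.continuousAt_symm (θ.map_source hθs)
    rw [ContinuousAt, θ.left_inv hθs, hθw] at h5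
    exact h5
  have c2 : Tendsto (fun y => Ψ (e y)) (𝓝 (γ w₂)) (𝓝 (F w₂)) :=
    ContinuousAt.comp (g := Ψ) (Ψ.continuousAt h1) (e.continuousAt he.2)
  have c3 : ∀ᶠ y in 𝓝 (γ w₂), Ψ (e y) ∈ θ.target :=
    c2.eventually_mem (θ.open_target.mem_nhds (hθw ▸ θ.map_source hθs))
  have c4 := (c1.comp c2).eventually (hO.and (hF0.and (hsrc.and hsrc2)))
  have c5 : ∀ᶠ y in 𝓝 (γ w₂), y ∈ e.source ∧ e y ∈ Ψ.source ∧ y ∈ E.U μ :=
    (e.open_source.eventually_mem he.2).and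
      (((e.continuousAt he.2).eventually_mem (Ψ.open_source.mem_nhds h1)).and
        ((hEo μ).eventually_mem hμ))
  obtain ⟨y', ⟨y1, y2, y3⟩, y4, y5⟩ := mem_closure_iff_nhds.1 (hd hmem) _ (c3.and (c4.and c5))
  obtain ⟨⟨m1, m2, m3, m4⟩, n1, n2, n3⟩ := (⟨y2, y3⟩ : _ ∧ _)
  set w' : Cm 4 := θ.symm (Ψ (e y')) with hw'
  have e1 : θ w' = Ψ (e y') := θ.right_inv y1
  have e2 : Ψ (e y') 0 = 0 := by
    rw [h4, e.left_inv n1]
    exact (h.zero μ y' n3).2 y4
  have e3 : w' 0 = 0 := by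
    have h5 := congrFun e1 0
    rw [hθ, e2] at h5
    simpa using h5
  have e4 : F w' = Ψ (e y') := by
    funext j
    refine Fin.cases ?_ (fun j => ?_) j
    · rw [e2]
      have h5 : F w' 0 = w' 0 ^ g * u w' := m2
      rw [h5, e3, zero_pow hg.ne', zero_mul]
    · have h5 := congrFun e1 j.succ
      rw [hθ] at h5
      simpa using h5
  have e5 : e (γ w') = e y' := Ψ.injOn m4 n2 e4
  have e6 : γ w' = y' := e.injOn m3 n1 e5
  refine m1 e3 ?_
  show γ w' ∈ O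
  rw [e6]; exact y5

end Vale.Agent.P277.H335.RR
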