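import Vale.Agent.P277.H335.Tower
import Vale.Agent.P277.H73.IFT
import Vale.Agent.P277.H622.B3

/-!
# P277, task TC: the Jacobian of the lift vanishes along the exceptional divisor
-/

open scoped Manifold ContDiff Topology
open Vale.Agent.P272.K Vale.Agent.P285.H281.FD Vale.Agent.P267.H175 Set Filter

noncomputable section

namespace Vale.Agent.P277.H335

open Vale.Agent.P277

variable {Y : Type} [TopologicalSpace Y] [ChartedSpace (Cm 4) Y]

theorem exists_mem_of_det_ne_zero {X₀ : CSp} {v₀ : Y → X₀.pt} (hv₀ : IsOpenEmb X₀ univ v₀)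
    {O : Set Y} (h0 : DimLe X₀ 2 (v₀ '' O)ᶜ) {W : Set (Cm 4)} (hW : IsOpen W) {w : Cm 4}
    (hw : w ∈ W) (hw0 : w 0 = 0) {γ₀ : Cm 4 → Y} {e : Chart 4 Y} (he : ∀ w ∈ W, At e (γ₀ w))
    (ha : ∀ w ∈ W, AnalyticAt ℂ (fun w => e (γ₀ w)) w)
    (hdet : (fderiv ℂ (fun w => e (γ₀ w)) w).det ≠ 0) : ∃ z ∈ W, z 0 = 0 ∧ γ₀ z ∈ O := by
  by_contra hcon
  push Not at hcon
  have hinj : Function.Injective (fderiv ℂ (fun w => e (γ₀ w)) w) := by
    have h1 : LinearMap.det (fderiv ℂ (fun w => e (γ₀ w)) w : Cm 4 →ₗ[ℂ] Cm 4) ≠ 0 := hdet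
    exact (LinearMap.equivOfDetNeZero _ h1).injective
  obtain ⟨θ, hθ, hwθ, -, hθs⟩ := H73.exists_localInv (ha w hw) hinj
  obtain ⟨Ω, g, hΩ, hg, hcov⟩ := h0
  have hee : ∀ y : Y, v₀ y ∈ v₀ '' univ := fun y => ⟨y, mem_univ _, rfl⟩
  set I : X₀.pt → Y := hv₀.inv (γ₀ w) with hI
  have hIv : ∀ y, I (v₀ y) = y := fun y => hv₀.inv_apply _ (mem_univ y)
  have heat : e ∈ atlas (Cm 4) Y := (he w hw).1
  -- analytic parametrisations
  let E : ℕ → Cm 2 → Cm 4 := fun k p => θ.symm (e (I (g k p)))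
  let Ω' : ℕ → Set (Cm 2) := fun k => {p | p ∈ Ω k ∧ g k p ∈ v₀ '' univ ∧ I (g k p) ∈ e.source ∧
    e (I (g k p)) ∈ θ.target}
  have hIc : ∀ k p, p ∈ Ω' k → ContinuousAt (fun p => I (g k p)) p := by
    rintro k p ⟨hp, ⟨y, -, hy⟩, -, -⟩
    have h1 : ContinuousAt I (g k p) := by
      rw [← hy]; exact hv₀.inv_continuousAt _ (mem_univ y)
    exact ContinuousAt.comp (g := I) h1 (hg k p hp).1
  have hΩ' : ∀ k, IsOpen (Ω' k) := by
    intro k
    rw [isOpen_iff_eventually]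
    rintro p hp
    have h1 := hIc k p hp
    obtain ⟨hp1, hp2, hp3, hp4⟩ := hp
    have h2 : ContinuousAt (fun p => e (I (g k p))) p :=
      ContinuousAt.comp (g := e) (e.continuousAt hp3) h1
    exact ((hΩ k).eventually_mem hp1).and (((hg k p hp1).1.eventually_mem
      (hv₀.isOpen_image.mem_nhds hp2)).and ((h1.eventually_mem (e.open_source.mem_nhds hp3)).and
      (h2.eventually_mem (θ.open_target.mem_nhds hp4))))
  have hE : ∀ k, ∀ p ∈ Ω' k, AnalyticAt ℂ (E k) p := by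
    rintro k p ⟨hp1, ⟨y, -, hy⟩, hp3, hp4⟩
    have hIy : I (g k p) = y := by rw [← hy, hIv]
    have h1 : AnalyticAt ℂ (fun p => e (I (g k p))) p := by
      rw [analyticAt_pi_iff]
      intro a
      have hya : At e y := ⟨heat, hIy ▸ hp3⟩
      have h2 : X₀.Hol (fun x => e (I x) a) (g k p) := by
        rw [← hy]; exact hv₀.hol_chart (γ₀ w) (mem_univ y) hya a
      exact (hg k p hp1).analyticAt h2
    exact AnalyticAt.fun_comp (g := θ.symm) (hθs _ hp4) h1
  -- the open set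
  let U : Set (Cm 4) := {z | Function.update z 0 0 ∈ W ∩ θ.source}
  have hUo : IsOpen U := by
    have h1 : Continuous fun z : Cm 4 => Function.update z 0 (0 : ℂ) :=
      continuous_id.update 0 continuous_const
    exact (hW.inter θ.open_source).preimage h1
  have hupd : Function.update w 0 (0 : ℂ) = w := by
    rw [← hw0]; exact Function.update_eq_self _ _
  have hwU : w ∈ U := by
    show Function.update w 0 (0 : ℂ) ∈ W ∩ θ.source
    rw [hupd]; exact ⟨hw, hwθ⟩
  have hdense := H622.dense_compl_iUnion (E := fun _ => Cm 2 × ℂ) (fun k => by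
      rw [Module.finrank_prod, finrank_Cm, Complex.finrank_real_complex]; norm_num)
    (fun k q => E k q.1 + Pi.single 0 q.2) (fun k => Ω' k ×ˢ (univ : Set ℂ))
    (fun k => (hΩ' k).prod isOpen_univ) (fun k => by
      have h1 : ContDiffOn ℝ 1 (E k) (Ω' k) := H622.contDiffOn_real (hE k)
      have h2 : ContDiffOn ℝ 1 (fun q : Cm 2 × ℂ => E k q.1) (Ω' k ×ˢ (univ : Set ℂ)) :=
        h1.comp contDiff_fst.contDiffOn fun q hq => hq.1
      have h3 : ContDiff ℝ 1 (fun q : Cm 2 × ℂ => (Pi.single 0 q.2 : Cm 4)) := by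
        rw [contDiff_pi]
        intro i
        by_cases hi : i = 0
        · subst hi
          simp only [Pi.single_eq_same]
          exact contDiff_snd
        · simp only [Pi.single_eq_of_ne hi]
          exact contDiff_const
      exact h2.add h3.contDiffOn)
  obtain ⟨z, hzU, hz⟩ := hdense.inter_open_nonempty U hUo ⟨w, hwU⟩
  apply hz
  have hz0 : (Function.update z 0 (0 : ℂ) : Cm 4) 0 = 0 := Function.update_self _ _ _
  have h1 := hcon _ hzU.1 hz0
  have h2 : v₀ (γ₀ (Function.update z 0 0)) ∈ (v₀ '' O)ᶜ := by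
    rintro ⟨y, hy, hyz⟩
    exact h1 (hv₀.inj (mem_univ _) (mem_univ _) hyz ▸ hy)
  obtain ⟨k, p, hp, hpz⟩ := mem_iUnion.1 (hcov h2)
  have h3 : I (g k p) = γ₀ (Function.update z 0 0) := by rw [hpz, hIv]
  have h4 : e (I (g k p)) = θ (Function.update z 0 0) := by rw [h3, hθ]
  refine mem_iUnion.2 ⟨k, (p, z 0), ⟨⟨hp, ?_, ?_, ?_⟩, mem_univ _⟩, ?_⟩
  · rw [hpz]; exact hee _
  · rw [h3]; exact (he _ hzU.1).2
  · rw [h4]; exact θ.map_source hzU.2
  · show θ.symm (e (I (g k p))) + Pi.single 0 (z 0) = z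
    rw [h4, θ.left_inv hzU.2]
    ext i
    by_cases hi : i = 0
    · subst hi; simp
    · simp [hi]

end Vale.Agent.P277.H335
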