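import Vale.Agent.P277.Stmts3
import Vale.Agent.P277.A.Emb

/-!
# P277, task TC: lifting wedges (second form of StTB)
-/

open scoped Manifold ContDiff Topology
open Vale.Agent.P272.K Vale.Agent.P285.H281.FD Vale.Agent.P267.H175 Set Filter

noncomputable section

namespace Vale.Agent.P277.H335

open Vale.Agent.P277

/-- An open subset of `W` inherits the density condition. -/
theorem subset_closure_of_open {W W' : Set (Cm 4)} {D : Set (Cm 4)} (hW' : IsOpen W')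
    (hW'W : W' ⊆ W) (hd : W ⊆ closure {w | w ∈ W ∧ w ∈ D}) : W' ⊆ closure {w | w ∈ W' ∧ w ∈ D} := by
  intro w hw
  rw [mem_closure_iff_nhds]
  intro t ht
  obtain ⟨z, hz1, hz2⟩ := mem_closure_iff_nhds.1 (hd (hW'W hw)) (t ∩ W')
    (inter_mem ht (hW'.mem_nhds hw))
  exact ⟨z, hz1.1, hz1.2, hz2.2⟩

/-- Continuous maps which agree on a dense set. -/
theorem eq_of_dense {T : Type} [TopologicalSpace T] [T2Space T] {γ γ₂ : Cm 4 → T} {W : Set (Cm 4)}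
    {D : Set (Cm 4)} {w : Cm 4} (hw : w ∈ closure {w | w ∈ W ∧ w ∈ D}) (h1 : ContinuousAt γ w)
    (h2 : ContinuousAt γ₂ w) (h : ∀ z ∈ W, z ∈ D → γ z = γ₂ z) : γ w = γ₂ w := by
  by_contra hne
  obtain ⟨U, V, hU, hV, hxU, hxV, hUV⟩ := t2_separation hne
  obtain ⟨z, hz1, hz2⟩ := mem_closure_iff_nhds.1 hw (γ ⁻¹' U ∩ γ₂ ⁻¹' V)
    (inter_mem (h1 (hU.mem_nhds hxU)) (h2 (hV.mem_nhds hxV)))
  exact disjoint_left.1 hUV hz1.1 (by rw [h z hz2.1 hz2.2]; exact hz1.2)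

theorem lift (hTB : StTB) {X Z X' : CSp} {f : X.pt → Z.pt} {f' : X'.pt → Z.pt} {A : Set Z.pt}
    {L : Bd X.pt} {L' : Bd X'.pt} (h : IsFlip X Z X' f f' A L L') (hA : A = Amin f)
    {t : L.ι → L'.ι → Z.pt → ℂ} (ht : IsIso f f' A L L' t) {W : Set (Cm 4)} (hW : IsOpen W)
    {w₀ : Cm 4} (hw₀ : w₀ ∈ W) (hw₀' : w₀ 0 = 0) {γ' : Cm 4 → X'.pt}
    (hγ' : ∀ w ∈ W, HolAt X' γ' w) (hd : W ⊆ closure {w | w ∈ W ∧ f' (γ' w) ∉ A})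
    (b : L'.ι) (hb : ∀ w ∈ W, γ' w ∈ L'.U b) :
    ∃ w₁ ∈ W, w₁ 0 = 0 ∧ ∃ (W₁ : Set (Cm 4)) (γ : Cm 4 → X.pt) (k : ℕ) (a : L.ι) (H : Cm 4 → ℂ),
      IsOpen W₁ ∧ w₁ ∈ W₁ ∧ W₁ ⊆ W ∧
      (∀ w ∈ W₁, HolAt X γ w ∧ f (γ w) = f' (γ' w) ∧ γ w ∈ L.U a ∧ AnalyticAt ℂ H w) ∧ 1 ≤ k ∧
      (∀ w ∈ W₁, f (γ w) ∉ A → H w * t a b (f (γ w)) ^ k = 1) ∧
      ((∀ w ∈ W, w 0 = 0 → f' (γ' w) ∈ A) → ∀ w ∈ W₁, w 0 = 0 → H w = 0) := by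
  obtain ⟨w₁, hw₁W, hw₁0, W₁, γ, k, hW₁, hw₁, hW₁W, hγ, -, -⟩ :=
    hTB X Z X' f f' A L L' h hA t ht W hW w₀ hw₀ hw₀' γ' hγ' hd
  obtain ⟨a, ha⟩ := h.lb.cover (γ w₁)
  have hW₂ : IsOpen (W₁ ∩ γ ⁻¹' L.U a) := by
    have hc : ContinuousOn γ W₁ := fun w hw => (hγ w hw).1.1.continuousWithinAt
    exact hc.isOpen_inter_preimage hW₁ (h.lb.isOpen a)
  have hW₂W : W₁ ∩ γ ⁻¹' L.U a ⊆ W := fun w hw => hW₁W hw.1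
  obtain ⟨w₂, hw₂, hw₂0, W₃, γ₂, k₂, hW₃, hw₂', hW₃W, hγ₂, hk₂, hH⟩ :=
    hTB X Z X' f f' A L L' h hA t ht (W₁ ∩ γ ⁻¹' L.U a) hW₂ w₁ ⟨hw₁, ha⟩ hw₁0 γ'
      (fun w hw => hγ' w (hW₂W hw)) (subset_closure_of_open (D := {w | f' (γ' w) ∉ A}) hW₂ hW₂W hd)
  have hdense : W₃ ⊆ closure {w | w ∈ W₃ ∧ w ∈ {w | f' (γ' w) ∉ A}} :=
    subset_closure_of_open hW₃ (hW₃W.trans hW₂W) hd
  have heq : ∀ w ∈ W₃, γ w = γ₂ w := by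
    intro w hw
    refine eq_of_dense (hdense hw) (hγ w (hW₃W hw).1).1.1 (hγ₂ w hw).1.1 fun z hz hzD => ?_
    have h1 : f (γ z) = f' (γ' z) := (hγ z (hW₃W hz).1).2
    have h2 : f (γ₂ z) = f' (γ' z) := (hγ₂ z hz).2
    refine h.small.inj _ _ ?_ ?_
    · rw [h2]; exact hzD
    · rw [h1, h2]
  have hU : ∀ w ∈ W₃, γ₂ w ∈ L.U a := fun w hw => heq w hw ▸ (hW₃W hw).2
  obtain ⟨H, hHa, hHt, hH0⟩ := hH a b hU fun w hw => hb w (hW₂W (hW₃W hw))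
  exact ⟨w₂, hW₂W hw₂, hw₂0, W₃, γ₂, k₂, a, H, hW₃, hw₂', hW₃W.trans hW₂W,
    fun w hw => ⟨(hγ₂ w hw).1, (hγ₂ w hw).2, hU w hw, hHa w hw⟩, hk₂, hHt,
    fun h0 => hH0 fun w hw hw0 => h0 w (hW₂W hw) hw0⟩

end Vale.Agent.P277.H335
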