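import Vale.Agent.P277.H619.Wdg

/-!
# P277: the top form defined by four complex linear forms
-/

set_option maxSynthPendingDepth 3

open scoped Manifold ContDiff Topology
open Vale.Agent.P272.K Vale.Agent.P285.H281.FD Vale.Agent.P267.H175 Set
open Vale.Agent.P267.H928.Int ContinuousAlternatingMap

noncomputable section

namespace Vale.Agent.P277.H335

open Vale.Agent.P277.H60

/-- `Re l₀ ∧ Im l₀ ∧ ⋯ ∧ Re l₃ ∧ Im l₃` -/
def e8 {E : Type} [NormedAddCommGroup E] [NormedSpace ℝ E] (l : Fin 4 → E →L[ℝ] ℂ) :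
    E [⋀^Fin 8]→L[ℝ] ℝ :=
  let r := fun i => Complex.reCLM ∘L l i
  let m := fun i => Complex.imCLM ∘L l i
  wedge1 (r 0) (wedge1 (m 0) (wedge1 (r 1) (wedge1 (m 1) (wedge1 (r 2) (wedge1 (m 2)
    (wedge1 (r 3) (wedge1 (m 3) (H619.one0 : E [⋀^Fin 0]→L[ℝ] ℝ))))))))

theorem wedge1_comp' {E E' : Type} [NormedAddCommGroup E] [NormedSpace ℝ E] [NormedAddCommGroup E']
    [NormedSpace ℝ E'] {n : ℕ} (l : E →L[ℝ] ℝ) (a : E [⋀^Fin n]→L[ℝ] ℝ) (T : E' →L[ℝ] E) :
    wedge1 (l ∘L T) (a.compContinuousLinearMap T) = (wedge1 l a).compContinuousLinearMap T := by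
  rw [wedge1, wedge1, alt_comp]
  congr 1

theorem one0_comp {E E' : Type} [NormedAddCommGroup E] [NormedSpace ℝ E] [NormedAddCommGroup E']
    [NormedSpace ℝ E'] (T : E' →L[ℝ] E) :
    (H619.one0 : E' [⋀^Fin 0]→L[ℝ] ℝ) = (H619.one0 : E [⋀^Fin 0]→L[ℝ] ℝ).compContinuousLinearMap T :=
  rfl

theorem e8_comp {E E' : Type} [NormedAddCommGroup E] [NormedSpace ℝ E] [NormedAddCommGroup E']
    [NormedSpace ℝ E'] (l : Fin 4 → E →L[ℝ] ℂ) (T : E' →L[ℝ] E) :
    e8 (fun i => l i ∘L T) = (e8 l).compContinuousLinearMap T := by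
  simp only [e8, ← ContinuousLinearMap.comp_assoc, one0_comp T, wedge1_comp']

theorem stdB_apply (k : Fin (4 * 2)) :
    stdB (k : Fin 8) = Pi.single (finProdFinEquiv.symm k).1
      (Complex.basisOneI (finProdFinEquiv.symm k).2) := by
  rw [stdB]
  refine (Module.Basis.reindex_apply _ _ _).trans ?_
  simp [Pi.basis_apply]

theorem stdB_eq (k : Fin 8) : stdB k = Pi.single (Fin.divNat (m := 4) (n := 2) k)
    (Complex.basisOneI (Fin.modNat (m := 4) (n := 2) k)) := by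
  exact stdB_apply k

/-- the coordinates -/
def crd (i : Fin 4) : Cm 4 →L[ℂ] ℂ := ContinuousLinearMap.proj i

theorem crd_apply (i : Fin 4) (k : Fin 8) : crd i (stdB k) =
    if k.val = 2 * i.val then 1 else if k.val = 2 * i.val + 1 then Complex.I else 0 := by
  rw [stdB_eq]
  show (Pi.single (Fin.divNat (m := 4) (n := 2) k)
    (Complex.basisOneI (Fin.modNat (m := 4) (n := 2) k)) : Cm 4) i = _
  rw [Pi.single_apply, Complex.coe_basisOneI]
  have h1 : (i = Fin.divNat (m := 4) (n := 2) k) ↔ i.val = k.val / 2 := Fin.ext_iff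
  have h2 : (Fin.modNat (m := 4) (n := 2) k).val = k.val % 2 := rfl
  split_ifs with a b c
  · have : Fin.modNat (m := 4) (n := 2) k = 0 := Fin.ext (by rw [h2]; simp; omega)
    rw [this]
    rfl
  · have : Fin.modNat (m := 4) (n := 2) k = 1 := Fin.ext (by rw [h2]; simp; omega)
    rw [this]
    rfl
  · rw [h1] at a
    omega
  · rw [h1] at a
    omega
  · rw [h1] at a
    omega
  · rfl

theorem re_crd (i : Fin 4) (k : Fin 8) :
    (Complex.reCLM ∘L (crd i).restrictScalars ℝ) (stdB k) = if k.val = 2 * i.val then 1 else 0 := by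
  show (crd i (stdB k)).re = _
  rw [crd_apply]
  split_ifs <;> simp

theorem im_crd (i : Fin 4) (k : Fin 8) :
    (Complex.imCLM ∘L (crd i).restrictScalars ℝ) (stdB k) =
      if k.val = 2 * i.val + 1 then 1 else 0 := by
  show (crd i (stdB k)).im = _
  rw [crd_apply]
  split_ifs <;> first | omega | simp

/-- product of linear forms -/
def WL {E : Type} [NormedAddCommGroup E] [NormedSpace ℝ E] :
    (n : ℕ) → (Fin n → E →L[ℝ] ℝ) → E [⋀^Fin n]→L[ℝ] ℝ
  | 0, _ => H619.one0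
  | n + 1, l => wedge1 (l 0) (WL n fun i => l i.succ)

theorem WL_dual {E : Type} [NormedAddCommGroup E] [NormedSpace ℝ E] : ∀ (n : ℕ)
    (l : Fin n → E →L[ℝ] ℝ) (v : Fin n → E), (∀ i j, l i (v j) = if i = j then 1 else 0) →
    WL n l v = 1
  | 0, _, _, _ => rfl
  | n + 1, l, v, h => by
    rw [WL, wedge1_apply_dual _ _ _ (by rw [h]; simp) (fun i => by
      rw [h, if_neg (Fin.succ_ne_zero i).symm])]
    refine WL_dual n _ _ fun i j => ?_
    rw [h]
    simp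

theorem e8_eq {E : Type} [NormedAddCommGroup E] [NormedSpace ℝ E] (l : Fin 4 → E →L[ℝ] ℂ) :
    e8 l = WL 8 ![Complex.reCLM ∘L l 0, Complex.imCLM ∘L l 0, Complex.reCLM ∘L l 1,
      Complex.imCLM ∘L l 1, Complex.reCLM ∘L l 2, Complex.imCLM ∘L l 2, Complex.reCLM ∘L l 3,
      Complex.imCLM ∘L l 3] := rfl

theorem iff_aux (k : ℕ) (hk : k < 8) (j : Fin 8) : j.val = k ↔ (⟨k, hk⟩ : Fin 8) = j := by
  rw [Fin.ext_iff]
  exact eq_comm

theorem e8_crd : e8 (fun i => (crd i).restrictScalars ℝ) stdB = 1 := by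
  rw [e8_eq]
  refine WL_dual 8 _ _ fun i j => ?_
  fin_cases i
  · exact (re_crd 0 j).trans (if_congr (iff_aux 0 (by norm_num) j) rfl rfl)
  · exact (im_crd 0 j).trans (if_congr (iff_aux 1 (by norm_num) j) rfl rfl)
  · exact (re_crd 1 j).trans (if_congr (iff_aux 2 (by norm_num) j) rfl rfl)
  · exact (im_crd 1 j).trans (if_congr (iff_aux 3 (by norm_num) j) rfl rfl)
  · exact (re_crd 2 j).trans (if_congr (iff_aux 4 (by norm_num) j) rfl rfl)
  · exact (im_crd 2 j).trans (if_congr (iff_aux 5 (by norm_num) j) rfl rfl)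
  · exact (re_crd 3 j).trans (if_congr (iff_aux 6 (by norm_num) j) rfl rfl)
  · exact (im_crd 3 j).trans (if_congr (iff_aux 7 (by norm_num) j) rfl rfl)

theorem e8_gen {E : Type} [NormedAddCommGroup E] [NormedSpace ℝ E] (l l' : Fin 4 → E →L[ℝ] ℂ)
    (T : E →L[ℝ] E) (h : ∀ i, l i = l' i ∘L T) (b : Module.Basis (Fin 8) ℝ E) (v : Fin 8 → E)
    (hv : (b : Fin 8 → E) = v) (hv' : e8 l' v = 1) : e8 l v = T.det := by
  subst hv
  rw [show l = fun i => l' i ∘L T from funext h, e8_comp, top_comp b, hv', smul_eq_mul, mul_one]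

theorem det_pi (l : Fin 4 → Cm 4 →L[ℂ] ℂ) :
    LinearMap.det ((ContinuousLinearMap.pi l : Cm 4 →L[ℂ] Cm 4) : Cm 4 →ₗ[ℂ] Cm 4) =
      (Matrix.of fun i j => l i (Pi.single j 1)).det := by
  refine (LinearMap.det_toMatrix (Pi.basisFun ℂ (Fin 4)) _).symm.trans (congrArg Matrix.det ?_)
  ext i j
  rw [LinearMap.toMatrix_apply, Matrix.of_apply, Pi.basisFun_apply, Pi.basisFun_repr]
  rfl

theorem e8_stdB_gen (l : Fin 4 → Cm 4 →L[ℂ] ℂ) (L : Fin 4 → Cm 4 →L[ℝ] ℂ)
    (hL : ∀ i, L i = (l i).restrictScalars ℝ) : e8 L stdB =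
    ‖(Matrix.of fun i j => l i (Pi.single j 1)).det‖ ^ 2 := by
  refine (e8_gen L (fun i => (crd i).restrictScalars ℝ)
    ((ContinuousLinearMap.pi l : Cm 4 →L[ℂ] Cm 4).restrictScalars ℝ) (fun i => hL i) stdB stdB
    rfl e8_crd).trans ?_
  rw [det_real, Complex.normSq_eq_norm_sq, det_pi]

theorem e8_stdB (l : Fin 4 → Cm 4 →L[ℂ] ℂ) : e8 (fun i => (l i).restrictScalars ℝ) stdB =
    ‖(Matrix.of fun i j => l i (Pi.single j 1)).det‖ ^ 2 :=
  e8_stdB_gen l _ fun _ => rfl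

end Vale.Agent.P277.H335
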