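import Vale.Agent.P277.H60.Wedge

/-!
# P277: local calculus of the Fubini-Study form of a tuple of functions
-/

set_option maxSynthPendingDepth 3

open scoped ContDiff Topology
open ContinuousAlternatingMap Vale.Agent.P267.H928.Int Vale.Agent.P267.H175
open Vale.Agent.P277.H60

noncomputable section

namespace Vale.Agent.P277.H335

variable {E : Type*} [NormedAddCommGroup E] [NormedSpace ℝ E]

/-- The 1-form `(∑ |F_m|²)⁻¹ ∑ (Re F_m d Im F_m - Im F_m d Re F_m)`. -/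
def al {n : ℕ} (F : Fin n → E → ℂ) (z : E) : E →L[ℝ] ℝ :=
  (∑ m, ‖F m z‖ ^ 2)⁻¹ • ∑ m, ((F m z).re • fderiv ℝ (fun w => (F m w).im) z -
    (F m z).im • fderiv ℝ (fun w => (F m w).re) z)

/-- the form `θ = a db - b da + p dq - q dp` -/
def th (a b p q : E → ℝ) (z : E) : E →L[ℝ] ℝ :=
  a z • fderiv ℝ b z - b z • fderiv ℝ a z + (p z • fderiv ℝ q z - q z • fderiv ℝ p z)

theorem fderiv_smul_fderiv {a b : E → ℝ} {x : E} (ha : ContDiffAt ℝ ∞ a x)
    (hb : ContDiffAt ℝ ∞ b x) :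
    fderiv ℝ (fun z => a z • fderiv ℝ b z) x =
      a x • fderiv ℝ (fderiv ℝ b) x + (fderiv ℝ a x).smulRight (fderiv ℝ b x) := by
  have h1 : DifferentiableAt ℝ a x := ha.differentiableAt (by simp)
  have h2 : DifferentiableAt ℝ (fderiv ℝ b) x :=
    (hb.fderiv_right (m := ∞) (by simp)).differentiableAt (by simp)
  rw [fderiv_fun_smul h1 h2]

theorem symm2 {b : E → ℝ} {x : E} (hb : ContDiffAt ℝ ∞ b x) (u w : E) :
    fderiv ℝ (fderiv ℝ b) x u w = fderiv ℝ (fderiv ℝ b) x w u := by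
  have h : IsSymmSndFDerivAt ℝ b x := hb.isSymmSndFDerivAt (by
    rw [minSmoothness_of_isRCLikeNormedField]
    exact WithTop.coe_le_coe.mpr le_top)
  exact h.eq u w

/-- The radial formula. -/
theorem rad_formula {n : ℕ} {a b p q : E → ℝ} {x : E} (ha : ContDiffAt ℝ ∞ a x)
    (hb : ContDiffAt ℝ ∞ b x) (hp : ContDiffAt ℝ ∞ p x) (hq : ContDiffAt ℝ ∞ q x) {h : ℝ → ℝ}
    (hh : DifferentiableAt ℝ h (a x ^ 2 + b x ^ 2 + p x ^ 2 + q x ^ 2))
    (β : E [⋀^Fin n]→L[ℝ] ℝ) :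
    let t : E → ℝ := fun z => a z ^ 2 + b z ^ 2 + p z ^ 2 + q z ^ 2
    let B := fderiv ℝ (fun z => h (t z) • th a b p q z) x
    W2 B (W2 B β) = (8 * (h (t x) * (h (t x) + t x * deriv h (t x)))) •
      wedge1 (fderiv ℝ a x) (wedge1 (fderiv ℝ b x) (wedge1 (fderiv ℝ p x)
        (wedge1 (fderiv ℝ q x) β))) := by
  intro t B
  have ha' : DifferentiableAt ℝ a x := ha.differentiableAt (by simp)
  have hb' : DifferentiableAt ℝ b x := hb.differentiableAt (by simp)
  have hp' : DifferentiableAt ℝ p x := hp.differentiableAt (by simp)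
  have hq' : DifferentiableAt ℝ q x := hq.differentiableAt (by simp)
  have ht : HasFDerivAt t ((2 * a x) • fderiv ℝ a x + (2 * b x) • fderiv ℝ b x +
      (2 * p x) • fderiv ℝ p x + (2 * q x) • fderiv ℝ q x) x := by
    have h1 := ((ha'.hasFDerivAt.pow 2).add (hb'.hasFDerivAt.pow 2)).add (hp'.hasFDerivAt.pow 2)
    have h2 := h1.add (hq'.hasFDerivAt.pow 2)
    refine h2.congr_fderiv ?_
    simp
  have hs : ∀ {b : E → ℝ}, ContDiffAt ℝ ∞ b x → DifferentiableAt ℝ (fderiv ℝ b) x := fun hb =>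
    (hb.fderiv_right (m := ∞) (by simp)).differentiableAt (by simp)
  have hth : HasFDerivAt (th a b p q)
      ((a x • fderiv ℝ (fderiv ℝ b) x + (fderiv ℝ a x).smulRight (fderiv ℝ b x)) -
        (b x • fderiv ℝ (fderiv ℝ a) x + (fderiv ℝ b x).smulRight (fderiv ℝ a x)) +
        ((p x • fderiv ℝ (fderiv ℝ q) x + (fderiv ℝ p x).smulRight (fderiv ℝ q x)) -
        (q x • fderiv ℝ (fderiv ℝ p) x + (fderiv ℝ q x).smulRight (fderiv ℝ p x)))) x := by
    have e1 := ha'.hasFDerivAt.smul (hs hb).hasFDerivAt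
    have e2 := hb'.hasFDerivAt.smul (hs ha).hasFDerivAt
    have e3 := hp'.hasFDerivAt.smul (hs hq).hasFDerivAt
    have e4 := hq'.hasFDerivAt.smul (hs hp).hasFDerivAt
    exact (e1.sub e2).add (e3.sub e4)
  have hht : HasFDerivAt (fun z => h (t z)) (deriv h (t x) • ((2 * a x) • fderiv ℝ a x +
      (2 * b x) • fderiv ℝ b x + (2 * p x) • fderiv ℝ p x + (2 * q x) • fderiv ℝ q x)) x :=
    hh.hasDerivAt.comp_hasFDerivAt x ht
  have hB : B = h (t x) • ((a x • fderiv ℝ (fderiv ℝ b) x +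
        (fderiv ℝ a x).smulRight (fderiv ℝ b x)) -
        (b x • fderiv ℝ (fderiv ℝ a) x + (fderiv ℝ b x).smulRight (fderiv ℝ a x)) +
        ((p x • fderiv ℝ (fderiv ℝ q) x + (fderiv ℝ p x).smulRight (fderiv ℝ q x)) -
        (q x • fderiv ℝ (fderiv ℝ p) x + (fderiv ℝ q x).smulRight (fderiv ℝ p x)))) +
      (deriv h (t x) • ((2 * a x) • fderiv ℝ a x +
      (2 * b x) • fderiv ℝ b x + (2 * p x) • fderiv ℝ p x + (2 * q x) • fderiv ℝ q x)).smulRight
        (th a b p q x) := (hht.smul hth).fderiv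
  have sa := symm2 ha
  have sb := symm2 hb
  have sp := symm2 hp
  have sq := symm2 hq
  generalize fderiv ℝ (fderiv ℝ a) x = Da at *
  generalize fderiv ℝ (fderiv ℝ b) x = Db at *
  generalize fderiv ℝ (fderiv ℝ p) x = Dp at *
  generalize fderiv ℝ (fderiv ℝ q) x = Dq at *
  set H := h (t x)
  set K := deriv h (t x)
  have key : ∀ {m : ℕ} (γ : E [⋀^Fin m]→L[ℝ] ℝ), W2 B γ =
      W2 (pfB (2 * K * (a x ^ 2 + b x ^ 2) + 2 * H) (2 * K * (p x * b x - a x * q x))
        (2 * K * (a x * p x + q x * b x)) (2 * K * (-(b x * q x) - p x * a x))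
        (2 * K * (b x * p x - q x * a x)) (2 * K * (p x ^ 2 + q x ^ 2) + 2 * H)
        (fderiv ℝ a x) (fderiv ℝ b x) (fderiv ℝ p x) (fderiv ℝ q x)) γ := by
    intro m γ
    refine W2_congr (fun u w => ?_) γ
    rw [hB]
    simp only [pfB, th, _root_.add_apply, _root_.sub_apply, _root_.smul_apply,
      ContinuousLinearMap.smulRight_apply, smul_eq_mul]
    rw [sa w u, sb w u, sp w u, sq w u]
    ring
  have ht0 : t x = a x ^ 2 + b x ^ 2 + p x ^ 2 + q x ^ 2 := rfl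
  rw [key, key, W2_pfB_sq, ht0]
  congr 1
  ring

end Vale.Agent.P277.H335
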