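import Vale.Agent.P277.H335.RAD

/-!
# P277: the 1-form of a tuple: smoothness, frame independence, naturality
-/

set_option maxSynthPendingDepth 3

open scoped ContDiff Topology
open ContinuousAlternatingMap Vale.Agent.P267.H928.Int Vale.Agent.P267.H175
open Vale.Agent.P277.H60

noncomputable section

namespace Vale.Agent.P277.H335

variable {E : Type*} [NormedAddCommGroup E] [NormedSpace ℝ E]

theorem contDiffAt_re {f : E → ℂ} {x : E} (hf : ContDiffAt ℝ ∞ f x) :
    ContDiffAt ℝ ∞ (fun w => (f w).re) x := Complex.reCLM.contDiff.contDiffAt.comp x hf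

theorem contDiffAt_im {f : E → ℂ} {x : E} (hf : ContDiffAt ℝ ∞ f x) :
    ContDiffAt ℝ ∞ (fun w => (f w).im) x := Complex.imCLM.contDiff.contDiffAt.comp x hf

theorem contDiffAt_fd {f : E → ℝ} {x : E} (hf : ContDiffAt ℝ ∞ f x) :
    ContDiffAt ℝ ∞ (fderiv ℝ f) x := hf.fderiv_right (m := ∞) (by simp)

theorem sum_ne {n : ℕ} {F : Fin n → E → ℂ} {z : E} (h : ∃ m, F m z ≠ 0) :
    ∑ m, ‖F m z‖ ^ 2 ≠ 0 := by
  obtain ⟨m, hm⟩ := h
  have h1 : 0 < ‖F m z‖ ^ 2 := by positivity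
  have h2 : ‖F m z‖ ^ 2 ≤ ∑ m, ‖F m z‖ ^ 2 :=
    Finset.single_le_sum (f := fun m => ‖F m z‖ ^ 2) (fun _ _ => by positivity) (Finset.mem_univ m)
  exact (h1.trans_le h2).ne'

theorem norm_sq_eq (w : ℂ) : ‖w‖ ^ 2 = w.re ^ 2 + w.im ^ 2 := by
  rw [← Complex.normSq_eq_norm_sq, Complex.normSq_apply]
  ring

/-- (1) smoothness -/
theorem contDiffAt_al {n : ℕ} {F : Fin n → E → ℂ} {x : E} (hF : ∀ m, ContDiffAt ℝ ∞ (F m) x)
    (h : ∃ m, F m x ≠ 0) : ContDiffAt ℝ ∞ (al F) x := by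
  have h1 : ContDiffAt ℝ ∞ (fun z => (∑ m, ‖F m z‖ ^ 2)⁻¹) x := by
    refine ContDiffAt.inv ?_ (sum_ne h)
    refine ContDiffAt.sum fun m _ => ?_
    simp only [norm_sq_eq]
    exact ((contDiffAt_re (hF m)).pow 2).add ((contDiffAt_im (hF m)).pow 2)
  have h2 : ContDiffAt ℝ ∞ (fun z => ∑ m, ((F m z).re • fderiv ℝ (fun w => (F m w).im) z -
      (F m z).im • fderiv ℝ (fun w => (F m w).re) z)) x := by
    refine ContDiffAt.sum fun m _ => ?_
    exact ((contDiffAt_re (hF m)).smul (contDiffAt_fd (contDiffAt_im (hF m)))).sub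
      ((contDiffAt_im (hF m)).smul (contDiffAt_fd (contDiffAt_re (hF m))))
  exact h1.smul h2

/-- `al` depends only on the germs -/
theorem al_congr {n : ℕ} {F F' : Fin n → E → ℂ} {x : E} (h : ∀ m, F m =ᶠ[𝓝 x] F' m) :
    al F =ᶠ[𝓝 x] al F' := by
  have h1 : ∀ᶠ z in 𝓝 x, ∀ m, F m =ᶠ[𝓝 z] F' m :=
    Filter.eventually_all.2 fun m => (h m).eventuallyEq_nhds
  filter_upwards [h1] with z hz
  rw [al, al]
  have h2 : ∀ m, F m z = F' m z := fun m => (hz m).eq_of_nhds
  have h3 : ∀ m, fderiv ℝ (fun w => (F m w).re) z = fderiv ℝ (fun w => (F' m w).re) z := fun m =>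
    Filter.EventuallyEq.fderiv_eq ((hz m).fun_comp Complex.re)
  have h4 : ∀ m, fderiv ℝ (fun w => (F m w).im) z = fderiv ℝ (fun w => (F' m w).im) z := fun m =>
    Filter.EventuallyEq.fderiv_eq ((hz m).fun_comp Complex.im)
  simp only [h2, h3, h4]

/-- (2) change of frame -/
theorem al_mul {n : ℕ} {F : Fin n → E → ℂ} {g : E → ℂ} {z : E}
    (hF : ∀ m, DifferentiableAt ℝ (F m) z) (hg : DifferentiableAt ℝ g z) (h : ∃ m, F m z ≠ 0)
    (hg0 : g z ≠ 0) :
    al (fun m w => g w * F m w) z = al F z + (‖g z‖ ^ 2)⁻¹ • ((g z).re •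
      fderiv ℝ (fun w => (g w).im) z - (g z).im • fderiv ℝ (fun w => (g w).re) z) := by
  have dre : ∀ {f : E → ℂ}, DifferentiableAt ℝ f z → DifferentiableAt ℝ (fun w => (f w).re) z :=
    fun hf => Complex.reCLM.differentiableAt.comp z hf
  have dim : ∀ {f : E → ℂ}, DifferentiableAt ℝ f z → DifferentiableAt ℝ (fun w => (f w).im) z :=
    fun hf => Complex.imCLM.differentiableAt.comp z hf
  have h1 : ∀ m, fderiv ℝ (fun w => (g w * F m w).re) z =
      (g z).re • fderiv ℝ (fun w => (F m w).re) z + (F m z).re • fderiv ℝ (fun w => (g w).re) z -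
      ((g z).im • fderiv ℝ (fun w => (F m w).im) z +
        (F m z).im • fderiv ℝ (fun w => (g w).im) z) := by
    intro m
    have := ((dre hg).hasFDerivAt.mul (dre (hF m)).hasFDerivAt).sub
      ((dim hg).hasFDerivAt.mul (dim (hF m)).hasFDerivAt)
    exact this.fderiv
  have h2 : ∀ m, fderiv ℝ (fun w => (g w * F m w).im) z =
      (g z).re • fderiv ℝ (fun w => (F m w).im) z + (F m z).im • fderiv ℝ (fun w => (g w).re) z +
      ((g z).im • fderiv ℝ (fun w => (F m w).re) z +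
        (F m z).re • fderiv ℝ (fun w => (g w).im) z) := by
    intro m
    have := ((dre hg).hasFDerivAt.mul (dim (hF m)).hasFDerivAt).add
      ((dim hg).hasFDerivAt.mul (dre (hF m)).hasFDerivAt)
    exact this.fderiv
  have hS := sum_ne h
  have hG : ‖g z‖ ^ 2 ≠ 0 := by positivity
  rw [al, al]
  have h3 : ∀ m, ((g z * F m z).re • fderiv ℝ (fun w => (g w * F m w).im) z -
      (g z * F m z).im • fderiv ℝ (fun w => (g w * F m w).re) z) =
      ‖g z‖ ^ 2 • ((F m z).re • fderiv ℝ (fun w => (F m w).im) z -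
        (F m z).im • fderiv ℝ (fun w => (F m w).re) z) +
      ‖F m z‖ ^ 2 • ((g z).re • fderiv ℝ (fun w => (g w).im) z -
        (g z).im • fderiv ℝ (fun w => (g w).re) z) := by
    intro m
    rw [h1, h2, norm_sq_eq, norm_sq_eq, Complex.mul_re, Complex.mul_im]
    module
  simp only [h3, norm_mul, mul_pow]
  rw [← Finset.mul_sum, Finset.sum_add_distrib, ← Finset.smul_sum, ← Finset.sum_smul, smul_add,
    smul_smul, smul_smul, mul_inv]
  congr 2
  · field_simp
  · field_simp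

/-- the 1-form `d arg g` has symmetric derivative -/
theorem dlog_symm {g : E → ℂ} {x : E} (hg : ContDiffAt ℝ ∞ g x) (hg0 : g x ≠ 0) (u w : E) :
    fderiv ℝ (fun z => (‖g z‖ ^ 2)⁻¹ • ((g z).re • fderiv ℝ (fun w => (g w).im) z -
      (g z).im • fderiv ℝ (fun w => (g w).re) z)) x u w =
    fderiv ℝ (fun z => (‖g z‖ ^ 2)⁻¹ • ((g z).re • fderiv ℝ (fun w => (g w).im) z -
      (g z).im • fderiv ℝ (fun w => (g w).re) z)) x w u := by
  set c : ℂ := (g x)⁻¹ with hc
  have hc0 : c ≠ 0 := inv_ne_zero hg0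
  set L : E → ℝ := fun z => (Complex.log (c * g z)).im with hL
  have hs : c * g x ∈ Complex.slitPlane := by
    rw [hc, inv_mul_cancel₀ hg0]
    exact Complex.one_mem_slitPlane
  have hcg : ContDiffAt ℝ ∞ (fun z => c * g z) x := contDiffAt_const.mul hg
  have hsm : ContDiffAt ℝ ∞ (fun z => Complex.log (c * g z)) x := by
    have h1 : ContDiffAt ℝ ∞ Complex.log (c * g x) := by
      have : ContDiffAt ℂ ∞ Complex.log (c * g x) := Complex.contDiffAt_log hs
      exact this.restrict_scalars ℝ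
    exact h1.comp x hcg
  have hLs : ContDiffAt ℝ ∞ L x := contDiffAt_im hsm
  have hev : (fun z => (‖g z‖ ^ 2)⁻¹ • ((g z).re • fderiv ℝ (fun w => (g w).im) z -
      (g z).im • fderiv ℝ (fun w => (g w).re) z)) =ᶠ[𝓝 x] fderiv ℝ L := by
    have e1 : ∀ᶠ z in 𝓝 x, c * g z ∈ Complex.slitPlane :=
      hcg.continuousAt.eventually_mem (Complex.isOpen_slitPlane.mem_nhds hs)
    have e2 : ∀ᶠ z in 𝓝 x, DifferentiableAt ℝ g z :=
      ((hg.of_le (m := 1) (by simp)).eventually (by simp)).mono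
        fun y h => h.differentiableAt (by simp)
    have e3 : ∀ᶠ z in 𝓝 x, g z ≠ 0 := hg.continuousAt.eventually_ne hg0
    filter_upwards [e1, e2, e3] with z h1 h2 h3
    have d1 : HasFDerivAt (fun w => Complex.log (c * g w))
        (((c * g z)⁻¹ • (ContinuousLinearMap.id ℝ ℂ)).comp (c • fderiv ℝ g z)) z := by
      have a1 : HasDerivAt Complex.log (c * g z)⁻¹ (c * g z) := Complex.hasDerivAt_log h1
      have a2 : HasFDerivAt (fun w => c * g w) (c • fderiv ℝ g z) z := h2.hasFDerivAt.const_mul c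
      have a3 : HasFDerivAt Complex.log ((c * g z)⁻¹ • (ContinuousLinearMap.id ℝ ℂ)) (c * g z) := by
        refine (a1.hasFDerivAt.restrictScalars ℝ).congr_fderiv ?_
        ext u
        simp [mul_comm]
      exact a3.comp z a2
    have d2 : HasFDerivAt L (Complex.imCLM ∘L (((c * g z)⁻¹ •
        (ContinuousLinearMap.id ℝ ℂ)).comp (c • fderiv ℝ g z))) z :=
      Complex.imCLM.hasFDerivAt.comp z d1
    have d3 : fderiv ℝ (fun w => (g w).re) z = Complex.reCLM ∘L fderiv ℝ g z :=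
      (Complex.reCLM.hasFDerivAt.comp z h2.hasFDerivAt).fderiv
    have d4 : fderiv ℝ (fun w => (g w).im) z = Complex.imCLM ∘L fderiv ℝ g z :=
      (Complex.imCLM.hasFDerivAt.comp z h2.hasFDerivAt).fderiv
    rw [d2.fderiv, d3, d4]
    ext u
    simp only [_root_.smul_apply, _root_.sub_apply, ContinuousLinearMap.comp_apply,
      ContinuousLinearMap.id_apply, Complex.imCLM_apply, Complex.reCLM_apply, smul_eq_mul]
    have h5 : (c * g z)⁻¹ * (c * fderiv ℝ g z u) = (g z)⁻¹ * fderiv ℝ g z u := by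
      field_simp
    rw [h5, Complex.mul_im, Complex.inv_re, Complex.inv_im, Complex.normSq_eq_norm_sq]
    ring
  rw [hev.fderiv_eq]
  exact symm2 hLs u w

/-- (2) frame independence of `ω = dα`. -/
theorem W2_al_mul {n k : ℕ} {F : Fin n → E → ℂ} {g : E → ℂ} {x : E}
    (hF : ∀ m, ContDiffAt ℝ ∞ (F m) x) (hg : ContDiffAt ℝ ∞ g x) (h : ∃ m, F m x ≠ 0)
    (hg0 : g x ≠ 0) (β : E [⋀^Fin k]→L[ℝ] ℝ) :
    W2 (fderiv ℝ (al (fun m w => g w * F m w)) x) β = W2 (fderiv ℝ (al F) x) β := by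
  have hd : ∀ {f : E → ℂ}, ContDiffAt ℝ ∞ f x → ∀ᶠ z in 𝓝 x, DifferentiableAt ℝ f z :=
    fun hf => ((hf.of_le (m := 1) (by simp)).eventually (by simp)).mono
        fun y h => h.differentiableAt (by simp)
  have hev : al (fun m w => g w * F m w) =ᶠ[𝓝 x] fun z => al F z + (‖g z‖ ^ 2)⁻¹ • ((g z).re •
      fderiv ℝ (fun w => (g w).im) z - (g z).im • fderiv ℝ (fun w => (g w).re) z) := by
    obtain ⟨m₀, hm₀⟩ := h
    filter_upwards [Filter.eventually_all.2 fun m => hd (hF m), hd hg,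
      hg.continuousAt.eventually_ne hg0, (hF m₀).continuousAt.eventually_ne hm₀] with z h1 h2 h3 h4
    exact al_mul h1 h2 ⟨m₀, h4⟩ h3
  have hs : DifferentiableAt ℝ (fun z => (‖g z‖ ^ 2)⁻¹ • ((g z).re •
      fderiv ℝ (fun w => (g w).im) z - (g z).im • fderiv ℝ (fun w => (g w).re) z)) x := by
    have : ContDiffAt ℝ ∞ (al ![g]) x := contDiffAt_al (by simp [hg]) ⟨0, by simpa using hg0⟩
    refine (this.differentiableAt (by simp)).congr_of_eventuallyEq ?_
    filter_upwards with z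
    simp [al]
  rw [hev.fderiv_eq, fderiv_fun_add ((contDiffAt_al hF h).differentiableAt (by simp)) hs, W2_add]
  rw [W2_symm (dlog_symm hg hg0) β, add_zero]

end Vale.Agent.P277.H335
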