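import Vale.Agent.P277.H371.Sharp
import Vale.Agent.P277.H371.Reg
import Vale.Agent.P277.Stmts12

/-!
# P277, REG core: `H371.contra` with real orders
-/

open scoped Manifold ContDiff ComplexOrder Topology
open Vale.Agent.P272.K Vale.Agent.P285.H281.FD Vale.Agent.P267.H175 Set Metric Filter

noncomputable section

namespace Vale.Agent.P277.H335.RC

open Vale.Agent.P277.TX Vale.Agent.P277.H19 Vale.Agent.P277.H371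

section
variable {Y : Type} [TopologicalSpace Y] [ChartedSpace (Cm 4) Y] {X : CSp} {O : Set Y}
  {v : Y → X.pt} {V : Set X.pt} {G : X.pt → Cm 4} {d : ℕ} {L : Bd X.pt} {M : Bd Y} {m Q K : ℕ}
  {T : L.ι → ((((Bd.can 4 Y).pow m).mul M).pow Q).ι → Y → ℂ} {i₀ : L.ι} {φ : Cm 4 → X.pt}
  {w₁ : Cm 4} {γ : Cm 4 → Y} {e : Chart 4 Y} {μ : M.ι} {s : ℕ}
variable [IsManifold 𝓘(ℂ, Cm 4) ω Y]

/-- lower bound for the weight along the wedge -/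
theorem Lam_geR (hM : IsLB 4 M)
    (hv : IsOpenEmb X O v) (hG : ∀ x ∈ V, ∀ i, X.Hol (fun y => G y i) x)
    (hL : IsLBx X L) (hT : IsIsoY O v L ((((Bd.can 4 Y).pow m).mul M).pow Q) T)
    (hVL : V ⊆ L.U i₀) {ψ : M.ι → Y → ℝ} (hψ : IsMet 4 M ψ) {idx : Y → M.ι}
    (hidx : ∀ y, y ∈ M.U (idx y))
    (h : NLift O v L M m Q T i₀ 0 φ w₁ γ e μ (fun _ => 1)) (hs : 1 ≤ s)
    (hφ : ∀ᶠ w in 𝓝 w₁, ContinuousAt φ w ∧ φ w ∈ V ∧ G (φ w) = pw s w) {α : ℝ} {j : ℕ}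
    (hFb : ∃ C : ℝ, ∀ᶠ w in 𝓝 w₁, w 0 ≠ 0 → φ w ∈ v '' O →
      ‖T i₀ (e, μ) (γ w) ^ K‖ ≤ C * ‖w 0‖ ^ α)
    (hJb : ∃ C : ℝ, ∀ᶠ w in 𝓝 w₁, ‖(fderiv ℂ (fun w => e (γ w)) w).det‖ ≤ C * ‖w 0‖ ^ j) :
    ∃ C : ℝ, ∀ᶠ w in 𝓝 w₁, w 0 ≠ 0 → φ w ∈ v '' O →
      (2 * α + 2 * ((m * Q * K : ℕ) : ℝ) * (j + 1 - 2 * s)) * Real.log (1 / ‖w 0‖) - C ≤
        Lam T v G i₀ K ψ idx (γ w) := by
  obtain ⟨CF, hCF⟩ := hFb
  obtain ⟨CJ, hCJ⟩ := hJb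
  have hψb : ∀ᶠ w in 𝓝 w₁, ψ μ (γ w₁) - 1 < ψ μ (γ w) := by
    have h1 : ContinuousAt (fun w => ψ μ (e.symm (e (γ w)))) w₁ :=
      ContinuousAt.comp (g := fun z => ψ μ (e.symm z)) (f := fun w => e (γ w))
        (hψ.smooth μ e _ h.at' h.mem).continuousAt h.an.continuousAt
    have h2 : ContinuousAt (fun w => ψ μ (γ w)) w₁ := by
      refine h1.congr ?_
      filter_upwards [h.cont.eventually_mem (e.open_source.mem_nhds h.at'.2)] with w hw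
      rw [e.left_inv hw]
    exact h2.eventually_const_lt (by linarith)
  set A : ℝ := ((m * Q * K : ℕ) : ℝ) with hA
  refine ⟨2 * (Real.log (|CF| + 1) + A * Real.log (|CJ| + 1)) -
    ((Q * K : ℕ) : ℝ) * (ψ μ (γ w₁) - 1), ?_⟩
  filter_upwards [h.jac hv hG hφ, hψb, hCF, hCJ,
    h.cont.eventually_mem ((hM.isOpen μ).mem_nhds h.mem)] with w d1 d2 d3' d4 d8 hw hwO
  have d3 := d3' hw hwO
  obtain ⟨g1, g2, g3, g4, g5, g6, g7⟩ := d1 hwO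
  set Jw : ℂ := (fderiv ℂ (fun w => e (γ w)) w).det with hJw
  have hdet := congrArg Matrix.det g7
  rw [Matrix.det_mul, det_jmat_pw hs, det_jmat g6.differentiableAt, ← hJw] at hdet
  have hs0 : (s : ℂ) ≠ 0 := by exact_mod_cast (Nat.one_le_iff_ne_zero.1 hs)
  have hrhs : (s : ℂ) * w 0 ^ (2 * s - 1) ≠ 0 := mul_ne_zero hs0 (pow_ne_zero _ hw)
  have hJG : (jacG v G e (γ w)).det ≠ 0 := left_ne_zero_of_mul (hdet ▸ hrhs)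
  have hJ10 : Jw ≠ 0 := right_ne_zero_of_mul (hdet ▸ hrhs)
  have hT0 : T i₀ (e, μ) (γ w) ≠ 0 := (hT.holo _ g1 i₀ (e, μ) e g4 (hVL g3) ⟨g4, d8⟩).2
  obtain ⟨Fw, hFw⟩ : ∃ F : ℂ, F = T i₀ (e, μ) (γ w) ^ K := ⟨_, rfl⟩
  rw [← hFw] at d3
  have hF0 : Fw ≠ 0 := by rw [hFw]; exact pow_ne_zero _ hT0
  have ht : 0 < ‖w 0‖ := norm_pos_iff.2 hw
  have hinv : ‖(jacG v G e (γ w)).det⁻¹‖ * ((s : ℝ) * ‖w 0‖ ^ (2 * s - 1)) = ‖Jw‖ := by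
    have h1 : (jacG v G e (γ w)).det⁻¹ * ((s : ℂ) * w 0 ^ (2 * s - 1)) = Jw := by
      rw [← hdet]
      field_simp
    have h2 := congrArg norm h1
    rwa [norm_mul, norm_mul, norm_pow, Complex.norm_natCast] at h2
  have hdi : 0 < ‖(jacG v G e (γ w)).det⁻¹‖ := norm_pos_iff.2 (inv_ne_zero hJG)
  have hsr : (1 : ℝ) ≤ s := by exact_mod_cast hs
  have hlogd : Real.log ‖(jacG v G e (γ w)).det⁻¹‖ = Real.log ‖Jw‖ - Real.log s -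
      (2 * s - 1) * Real.log ‖w 0‖ := by
    have h1 := congrArg Real.log hinv
    rw [Real.log_mul hdi.ne' (by positivity), Real.log_mul (by positivity) (by positivity),
      Real.log_pow] at h1
    have h2 : ((2 * s - 1 : ℕ) : ℝ) = 2 * s - 1 := by
      rw [Nat.cast_sub (by omega)]; push_cast; ring
    rw [h2] at h1
    linear_combination h1
  rw [Lam_eq hM hv hG hL hT hψ hidx g1 g3 (hVL g3) g4 hJG d8,
    nY_eq hM hv hG hL hT g1 g3 (hVL g3) g4 d8, ← hFw]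
  have hlog : Real.log (‖Fw * (jacG v G e (γ w)).det⁻¹ ^ (m * Q * K)‖ ^ 2) =
      2 * (Real.log ‖Fw‖ + A * Real.log ‖(jacG v G e (γ w)).det⁻¹‖) := by
    rw [norm_mul, norm_pow, Real.log_pow, Real.log_mul
      (norm_ne_zero_iff.2 hF0) (pow_ne_zero _ hdi.ne'), Real.log_pow]
    rw [← hA]
    push_cast
    ring
  rw [hlog, hlogd, one_div, Real.log_inv]
  have hA0 : 0 ≤ A := Nat.cast_nonneg _
  have e1 : Real.log ‖Fw‖ ≤ Real.log (|CF| + 1) + α * Real.log ‖w 0‖ := by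
    have h1 : ‖Fw‖ ≤ (|CF| + 1) * ‖w 0‖ ^ α :=
      d3.trans (mul_le_mul_of_nonneg_right (by linarith [le_abs_self CF]) (by positivity))
    have h2 := Real.log_le_log (norm_pos_iff.2 hF0) h1
    rwa [Real.log_mul (by positivity) (Real.rpow_pos_of_pos ht α).ne', Real.log_rpow ht] at h2
  have e2 : Real.log ‖Jw‖ ≤ Real.log (|CJ| + 1) + j * Real.log ‖w 0‖ := by
    have h1 : ‖Jw‖ ≤ (|CJ| + 1) * ‖w 0‖ ^ j :=
      d4.trans (mul_le_mul_of_nonneg_right (by linarith [le_abs_self CJ]) (by positivity))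
    have h2 := Real.log_le_log (norm_pos_iff.2 hJ10) h1
    rwa [Real.log_mul (by positivity) (by positivity), Real.log_pow] at h2
  have e3 : 0 ≤ Real.log s := Real.log_nonneg hsr
  have e4 : A * Real.log ‖Jw‖ ≤ A * (Real.log (|CJ| + 1) + j * Real.log ‖w 0‖) := by gcongr
  have e5 : 0 ≤ A * Real.log s := mul_nonneg hA0 e3
  have e6 : ((Q * K : ℕ) : ℝ) * (ψ μ (γ w₁) - 1) ≤ ((Q * K : ℕ) : ℝ) * ψ μ (γ w) := by gcongr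
  nlinarith

end

section
variable {Y : Type} [TopologicalSpace Y] [T2Space Y] [CompactSpace Y] [ChartedSpace (Cm 4) Y]
  [IsManifold 𝓘(ℂ, Cm 4) ω Y] {X : CSp} {O : Set Y}
  {v : Y → X.pt} {V : Set X.pt} {G : X.pt → Cm 4} {c : Cm 4} {r : ℝ} {d : ℕ} {lam : X.pt → ℂ}
  {θ : Cm 4 → ℂ} {L : Bd X.pt} {M : Bd Y} {m Q K : ℕ}
  {T : L.ι → ((((Bd.can 4 Y).pow m).mul M).pow Q).ι → Y → ℂ} {i₀ : L.ι}
  {χ : Chart 4 Y → Cm 4 → Matrix (Fin 4) (Fin 4) ℂ}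
  {N : ℕ} {s : Fin d → ℕ} {φ : Fin d → Cm 4 → X.pt} {w₁ : Cm 4} {γ : Fin d → Cm 4 → Y}
  {e : Fin d → Chart 4 Y} {μ : Fin d → M.ι} {α : Fin d → ℝ} {j : Fin d → ℕ}

/-- lower bound for `φ` at the wedge -/
theorem phi_geR (hM : IsLB 4 M) (hv : IsOpenEmb X O v)
    (hc : IsCov X V G c r d lam θ) {a : Fin d → X.pt → ℂ} {b : Cm 4 → ℂ}
    (hb : ∀ z ∈ ball c r, ContinuousAt b z ∧ b z ≠ 0)
    (hgen : ∀ l : Fin d, Gen V G c r a b (fun x => lam x ^ (l : ℕ)))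
    {κ : Cm 4 → ℂ} (hκ : ∀ z ∈ ball c r, θ z ≠ 0 → ∀ x : Fin d → X.pt, Enum V G z x →
      κ z = (Matrix.of fun i k => a i (x k)).det ^ 2)
    (hL : IsLBx X L) (hT : IsIsoY O v L ((((Bd.can 4 Y).pow m).mul M).pow Q) T)
    (hVL : V ⊆ L.U i₀) (h0 : w₁ 0 = 0) (hw₁ : bl w₁ ∈ ball c r)
    (hθ : ∀ᶠ w in 𝓝 w₁, w 0 ≠ 0 → θ (bl w) ≠ 0) (hN : 1 ≤ N)
    (hs : ∀ k, 1 ≤ s k ∧ s k ∣ N)
    (hφ : ∀ k, ∀ᶠ w in 𝓝 w₁, ContinuousAt (φ k) w ∧ φ k w ∈ V ∧ G (φ k w) = pw (s k) w)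
    (hE : ∀ᶠ w in 𝓝 w₁, w 0 ≠ 0 → Enum V G ![w 0 ^ N, w 1 * w 0 ^ N, w 2, w 3]
      (fun k => φ k ![w 0 ^ (N / s k), w 1, w 2, w 3]))
    (hlift : ∀ k, NLift O v L M m Q T i₀ 0 (φ k) w₁ (γ k) (e k) (μ k) (fun _ => 1))
    (hFb : ∀ k, ∃ C : ℝ, ∀ᶠ w in 𝓝 w₁, w 0 ≠ 0 → φ k w ∈ v '' O →
      ‖T i₀ (e k, μ k) (γ k w) ^ K‖ ≤ C * ‖w 0‖ ^ α k)
    (hJb : ∀ k, ∃ C : ℝ, ∀ᶠ w in 𝓝 w₁,
      ‖(fderiv ℂ (fun w => e k (γ k w)) w).det‖ ≤ C * ‖w 0‖ ^ j k)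
    {p : ℝ} (hκb : ∃ C : ℝ, 0 < C ∧ ∀ᶠ w in 𝓝 w₁, w 0 ≠ 0 → θ (bl w) ≠ 0 →
      ‖κ (bl w)‖ ≤ C * ‖w 0‖ ^ p)
    {ψ : M.ι → Y → ℝ} (hψ : IsMet 4 M ψ) {idx : Y → M.ι} (hidx : ∀ y, y ∈ M.U (idx y)) :
    ∃ C : ℝ, ∀ᶠ w in 𝓝 w₁, w 0 ≠ 0 → (∀ x ∈ V, G x = bl w → x ∈ v '' O) →
      ((∑ k, (2 * α k + 2 * ((m * Q * K : ℕ) : ℝ) * (j k + 1 - 2 * s k)) / s k) +
        2 * ((m * Q * K : ℕ) : ℝ) * p) * Real.log (1 / ‖w 0‖) - C ≤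
          phi O v V G (Lam T v G i₀ K ψ idx) ((m * Q * K : ℕ) : ℝ) κ (bl w) := by
  choose C hC using fun k => Lam_geR (α := α k) (j := j k) hM hv hc.holo hL hT hVL hψ hidx
    (hlift k) (hs k).1 (hφ k) (hFb k) (hJb k)
  obtain ⟨Cκ, hCκ0, hCκ⟩ := hκb
  set A : ℝ := ((m * Q * K : ℕ) : ℝ) with hA
  have hA0 : 0 ≤ A := Nat.cast_nonneg _
  refine ⟨(∑ k, C k) + 2 * A * Real.log Cκ, ?_⟩
  filter_upwards [wedge_pts hN hs h0 hE fun k => (hC k).and ((hlift k).jac hv hc.holo (hφ k)),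
    hθ, hCκ, continuous_bl.continuousAt.eventually (isOpen_ball.mem_nhds hw₁)]
    with w d1 d2 d3 d4 hw hO
  obtain ⟨u, hu, hen⟩ := d1 hw
  have hφO : ∀ k, φ k (u k) ∈ v '' O := fun k => by
    obtain ⟨g1, g2⟩ := (hen.2 (φ k (u k))).1 ⟨k, rfl⟩
    exact hO _ g1 g2
  have hy : ∀ k, γ k (u k) ∈ O ∧ v (γ k (u k)) = φ k (u k) := fun k => by
    obtain ⟨g1, g2, -⟩ := (hu k).2.2.2 (hφO k)
    exact ⟨g1, g2⟩
  have hen' : Enum V G (bl w) (fun k => v (γ k (u k))) := by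
    have h1 : (fun k => v (γ k (u k))) = fun k => φ k (u k) := funext fun k => (hy k).2
    rw [h1]; exact hen
  rw [phi, finsum_enum hv (fun k => (hy k).1) hen']
  have ht : 0 < ‖w 0‖ := norm_pos_iff.2 hw
  have h1 : ∀ k, (2 * α k + 2 * A * (j k + 1 - 2 * s k)) / s k * Real.log (1 / ‖w 0‖) - C k ≤
      Lam T v G i₀ K ψ idx (γ k (u k)) := by
    intro k
    have h2 := (hu k).2.2.1 (hu k).2.1 (hφO k)
    have h3 : Real.log (1 / ‖u k 0‖) = Real.log (1 / ‖w 0‖) / s k := by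
      have hsk : (s k : ℝ) ≠ 0 := by exact_mod_cast (Nat.one_le_iff_ne_zero.1 (hs k).1)
      have h4 : ‖w 0‖ = ‖u k 0‖ ^ s k := by rw [← norm_pow, (hu k).1]
      rw [one_div, one_div, Real.log_inv, Real.log_inv, h4, Real.log_pow]
      field_simp
    rw [h3] at h2
    refine le_trans (le_of_eq ?_) h2
    ring
  have hκ0 : κ (bl w) ≠ 0 := kappa_ne_zero hc hgen hκ d4 (d2 hw) (hb _ d4).2
  have h5 := Real.log_le_log (norm_pos_iff.2 hκ0) (d3 hw (d2 hw))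
  rw [Real.log_mul hCκ0.ne' (Real.rpow_pos_of_pos ht p).ne', Real.log_rpow ht] at h5
  have h6 : Real.log (‖κ (bl w)‖ ^ 2) = 2 * Real.log ‖κ (bl w)‖ := by
    rw [Real.log_pow]; push_cast; ring
  have h7 : A * Real.log ‖κ (bl w)‖ ≤ A * (Real.log Cκ + p * Real.log ‖w 0‖) :=
    mul_le_mul_of_nonneg_left h5 hA0
  have h8 := Finset.sum_le_sum (s := Finset.univ) fun k _ => h1 k
  rw [Finset.sum_sub_distrib, ← Finset.sum_mul] at h8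
  have h9 : Real.log (1 / ‖w 0‖) = -Real.log ‖w 0‖ := by rw [one_div, Real.log_inv]
  rw [h6]
  rw [h9] at h8 ⊢
  nlinarith

/-- all wedges lift, with vanishing orders `α k` and `j k` of the frame and of the Jacobian:
then the sum of the discrepancies is not positive. -/
theorem contraR (hTHIN : StThin) (hBR : StBr) (hPUSH : StPush) (hCORE : StCoreX)
    (hχ : IsKahler χ) (hM : IsLB 4 M) (hNef : Nef χ M) (hv : IsOpenEmb X O v)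
    (hO : DimLe X 2 (v '' O)ᶜ)
    (hc : IsCov X V G c r d lam θ) {n : ℕ} {ζ : Fin n → X.pt → ℂ} (hζ : IsCoord X V ζ)
    {a : Fin d → X.pt → ℂ} {b : Cm 4 → ℂ}
    (hb : ∀ z ∈ ball c r, ContinuousAt b z ∧ b z ≠ 0)
    (hgen : ∀ l : Fin d, Gen V G c r a b (fun x => lam x ^ (l : ℕ)))
    (hgenζ : ∀ l : Fin d, ∀ f : Fin (l : ℕ) → Fin n, Gen V G c r a b (fun x => ∏ t, ζ (f t) x))
    {κ : Cm 4 → ℂ} (hκa : ∀ z ∈ ball c r, AnalyticAt ℂ κ z)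
    (hκ : ∀ z ∈ ball c r, θ z ≠ 0 → ∀ x : Fin d → X.pt, Enum V G z x →
      κ z = (Matrix.of fun i k => a i (x k)).det ^ 2)
    (hL : IsLBx X L) (hT : IsIsoY O v L ((((Bd.can 4 Y).pow m).mul M).pow Q) T)
    (hVL : V ⊆ L.U i₀) (hA : 1 ≤ m * Q * K) (h0 : w₁ 0 = 0) (hw₁ : bl w₁ ∈ ball c r)
    (hθ : ∀ᶠ w in 𝓝 w₁, w 0 ≠ 0 → θ (bl w) ≠ 0) (hN : 1 ≤ N)
    (hs : ∀ k, 1 ≤ s k ∧ s k ∣ N)
    (hφ : ∀ k, ∀ᶠ w in 𝓝 w₁, ContinuousAt (φ k) w ∧ φ k w ∈ V ∧ G (φ k w) = pw (s k) w)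
    (hE : ∀ᶠ w in 𝓝 w₁, w 0 ≠ 0 → Enum V G ![w 0 ^ N, w 1 * w 0 ^ N, w 2, w 3]
      (fun k => φ k ![w 0 ^ (N / s k), w 1, w 2, w 3]))
    (hlift : ∀ k, NLift O v L M m Q T i₀ 0 (φ k) w₁ (γ k) (e k) (μ k) (fun _ => 1))
    (hFb : ∀ k, ∃ C : ℝ, ∀ᶠ w in 𝓝 w₁, w 0 ≠ 0 → φ k w ∈ v '' O →
      ‖T i₀ (e k, μ k) (γ k w) ^ K‖ ≤ C * ‖w 0‖ ^ α k)
    (hJb : ∀ k, ∃ C : ℝ, ∀ᶠ w in 𝓝 w₁,
      ‖(fderiv ℂ (fun w => e k (γ k w)) w).det‖ ≤ C * ‖w 0‖ ^ j k)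
    {p : ℝ} (hκb : ∃ C : ℝ, 0 < C ∧ ∀ᶠ w in 𝓝 w₁, w 0 ≠ 0 → θ (bl w) ≠ 0 →
      ‖κ (bl w)‖ ≤ C * ‖w 0‖ ^ p) :
    (∑ k, (2 * α k + 2 * ((m * Q * K : ℕ) : ℝ) * (j k + 1 - 2 * s k)) / s k) +
        2 * ((m * Q * K : ℕ) : ℝ) * p ≤ 0 := by
  by_contra hpos
  push Not at hpos
  have hthin := hTHIN Y X O v hv hO V G c r d lam θ hc
  set E : Set (Cm 4) := G '' {x | x ∈ V ∧ ¬ ∃ y ∈ O, v y = x ∧ RankGe3 v G y} with hEdef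
  obtain ⟨p1, p2, p3⟩ := hPUSH Y χ hχ X O v hv V G c r d lam θ hc (G '' (V \ v '' O)) rfl
  have hsub : G '' (V \ v '' O) ⊆ E := by
    rintro _ ⟨x, ⟨hx, hx'⟩, rfl⟩
    refine ⟨x, ⟨hx, ?_⟩, rfl⟩
    rintro ⟨y, hy, hyx, -⟩
    exact hx' ⟨y, hy, hyx⟩
  have hsub' : ball c r \ E ⊆ ball c r \ G '' (V \ v '' O) := fun z hz =>
    ⟨hz.1, fun h => hz.2 (hsub h)⟩
  have hOE : ∀ z, z ∉ E → ∀ x ∈ V, G x = z → x ∈ v '' O := by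
    intro z hz x hx hxz
    by_contra hcon
    refine hz ⟨x, ⟨hx, ?_⟩, hxz⟩
    rintro ⟨y, hy, hyx, -⟩
    exact hcon ⟨y, hy, hyx⟩
  have hQK : 0 < Q * K := by
    rcases Nat.eq_zero_or_pos (Q * K) with h | h
    · rw [mul_assoc, h, mul_zero] at hA
      omega
    · exact h
  refine hCORE c r hc.pos θ hc.an hc.ne E hthin (pushH χ O v V G)
    (fun z hz hθz => p1 z (hsub' hz) hθz) (fun z hz => p2 z (hsub' hz))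
    (fun a ha hac has i j k => p3 a ha hac (has.trans hsub') i j k) w₁ h0 hw₁ ?_ hθ _ hpos ?_
  · obtain ⟨C, hC⟩ := pushH_le hχ hv hc.holo h0 hN hs hφ hE hlift
    refine ⟨C, ?_⟩
    filter_upwards [hC] with w h1 hw hwE _
    exact h1 hw (hOE _ hwE)
  · intro δ hδ
    obtain ⟨ψ, hψ, hcurv⟩ := hNef (δ / ((Q * K : ℕ) : ℝ)) (by positivity)
    choose idx hidx using hM.cover
    refine ⟨phi O v V G (Lam T v G i₀ K ψ idx) ((m * Q * K : ℕ) : ℝ) κ, ?_, ?_, ?_⟩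
    · intro z hz hθz
      obtain ⟨D, ρ, hzD, hDs, hbr⟩ := exists_br hv hc hz.1 hθz (hOE z hz.2)
      have h1 := hbr.phi_psh (K := K) hχ hM hv hc.holo hL hT hVL hψ hcurv hidx
        ((m * Q * K : ℕ) : ℝ) (κ := κ) (fun w hw => ⟨hκa w (hDs hw).1,
          kappa_ne_zero hc hgen hκ (hDs hw).1 (hDs hw).2 (hb _ (hDs hw).1).2⟩) hzD
      have h2 : (((Q * K : ℕ) : ℝ) * (δ / ((Q * K : ℕ) : ℝ)) : ℝ) = δ := by
        have : ((Q * K : ℕ) : ℝ) ≠ 0 := by exact_mod_cast hQK.ne'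
        field_simp
      rw [h2] at h1
      exact h1
    · exact locBd hBR hM hv hc hL hT hVL hA hζ hb hgenζ hκ hψ hidx
    · obtain ⟨C, hC⟩ := phi_geR hM hv hc hb hgen hκ hL hT hVL h0 hw₁ hθ hN hs hφ hE hlift hFb hJb
        hκb hψ hidx
      refine ⟨C, ?_⟩
      filter_upwards [hC] with w h1 hw hwE
      exact h1 hw (hOE _ hwE)

end

end Vale.Agent.P277.H335.RC
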