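import Vale.Agent.P277.H335.TowerV
import Vale.Agent.P277.Stmts13

/-!
# P277, T3: sections of line bundles on `Y` along a tower of flips
-/

open scoped Manifold ContDiff Topology
open Vale.Agent.P272.K Vale.Agent.P285.H281.FD Vale.Agent.P267.H175 Set Metric Filter

noncomputable section

namespace Vale.Agent.P277.H335.RR

open Vale.Agent.P277 Vale.Agent.P277.T2 Vale.Agent.P277.H335 Vale.Agent.P277.H615

variable {Y : Type}

/-- the section `sg ^ Q` of `N ^ Q` on `O` extends to a section of `L ^ P` on `X` -/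
def SecRel {X : CSp} (L : Bd X.pt) (N : Bd Y) (O : Set Y) (v : Y → X.pt) (P Q : ℕ)
    (T : L.ι → N.ι → Y → ℂ) (sg : N.ι → Y → ℂ) : Prop :=
  ∃ h : L.ι → X.pt → ℂ, IsSecx X univ (L.pow P) h ∧
    ∀ y ∈ O, ∀ a b, v y ∈ L.U a → y ∈ N.U b → T a b y * h a (v y) = sg b y ^ Q

theorem SecRel.step {X Z X' : CSp} {f : X.pt → Z.pt} {f' : X'.pt → Z.pt} {A : Set Z.pt}
    {L : Bd X.pt} {L' : Bd X'.pt} {N : Bd Y} {O : Set Y} {v : Y → X.pt} {P Q : ℕ}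
    {T : L.ι → N.ι → Y → ℂ} {sg : N.ι → Y → ℂ} {s : L.ι → L'.ι → Z.pt → ℂ} {p q : ℕ}
    (hX' : IsNormal 4 X') (hsm : IsSmall X Z f A) (hsm' : IsSmall X' Z f' A)
    (hlb : IsLBx X L) (hlb' : IsLBx X' L') (hs : IsIso f f' A (L.pow p) (L'.pow q) s)
    {a : X.pt → L.ι} (ha : ∀ x, x ∈ L.U (a x)) (h : SecRel L N O v P Q T sg) :
    SecRel L' N {y | y ∈ O ∧ f (v y) ∉ A} (fun y => hsm'.sec (f (v y))) (q * P) (Q * p)
      (stT v f P p T s a) sg := by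
  obtain ⟨h, hh, hrel⟩ := h
  have hPp := IsLBx.pow hlb' (q * P)
  let x₀ : X'.pt → X.pt := fun x' => hsm.sec (f' x')
  let F : L'.ι → X'.pt → ℂ := fun b x' =>
    h (a (x₀ x')) (x₀ x') ^ p * s (a (x₀ x')) b (f' x') ^ P
  have hfx : ∀ x', f (x₀ x') = f' x' := fun x' => hsm.sec_eq _
  -- independence of the frame of `L`
  have hind : ∀ x' b a₁, f' x' ∉ A → x' ∈ L'.U b → x₀ x' ∈ L.U a₁ →
      F b x' = h a₁ (x₀ x') ^ p * s a₁ b (f' x') ^ P := by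
    intro x' b a₁ hx' hb ha₁
    have h1 : h a₁ (x₀ x') = L.g a₁ (a (x₀ x')) (x₀ x') ^ P * h (a (x₀ x')) (x₀ x') :=
      hh.change a₁ (a (x₀ x')) (x₀ x') (mem_univ _) ha₁ (ha _)
    have h2 : s (a (x₀ x')) b (f (x₀ x')) = L.g a₁ (a (x₀ x')) (x₀ x') ^ p *
        s a₁ b (f (x₀ x')) * L'.g b b x' ^ q :=
      hs.change (x₀ x') x' a₁ (a (x₀ x')) b b (by rw [hfx]; exact hx') (hfx x').symm ha₁ (ha _)
        hb hb
    have h3 : L'.g b b x' = 1 := IsLBx.one hlb' hb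
    rw [h3, one_pow, mul_one, hfx] at h2
    show h (a (x₀ x')) (x₀ x') ^ p * s (a (x₀ x')) b (f' x') ^ P = _
    rw [h1, h2]
    ring
  have hFhol : ∀ b, ∀ x' ∈ L'.U b \ f' ⁻¹' A, X'.Hol (F b) x' := by
    rintro b x' ⟨hb, hx'⟩
    have hx' : f' x' ∉ A := hx'
    set a₁ := a (x₀ x') with ha₁
    have h1 : X'.Hol (fun z => h a₁ (x₀ z)) x' :=
      hsm'.holo x' _ ((hsm.holMap_sec hx').2 (h a₁) (hh.holo a₁ _ (mem_univ _) (ha _)))
    have h2 : X'.Hol (fun z => s a₁ b (f' z)) x' := by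
      have h3 := (hs.holo (x₀ x') x' a₁ b (by rw [hfx]; exact hx') (hfx x').symm (ha _) hb).1
      rw [hfx] at h3
      exact hsm'.holo x' _ h3
    refine hol_congr (hol_mul (hol_pow h1 p) (hol_pow h2 P)) ?_
    have e1 : ∀ᶠ z in 𝓝 x', f' z ∉ A :=
      (hsm'.cont.continuousAt (x := x')).eventually_mem (hsm'.isClosed.isOpen_compl.mem_nhds hx')
    have e2 : ∀ᶠ z in 𝓝 x', x₀ z ∈ L.U a₁ := by
      have h4 : ContinuousAt x₀ x' :=
        ContinuousAt.comp (g := hsm.sec) (hsm.holMap_sec hx').1 hsm'.cont.continuousAt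
      exact h4.eventually_mem ((hlb.isOpen a₁).mem_nhds (ha _))
    have e3 : ∀ᶠ z in 𝓝 x', z ∈ L'.U b := (hlb'.isOpen b).mem_nhds hb
    filter_upwards [e1, e2, e3] with z z1 z2 z3
    exact hind z b a₁ z1 z3 z2
  choose h' hh'1 hh'2 using fun b => hX'.ext (L'.U b) (f' ⁻¹' A) (hlb'.isOpen b)
    ((IsAn.preimage (fun x => hsm'.holMap x) hsm'.an).mono (subset_univ _))
    (hsm'.dim.mono inter_subset_right) (F b) (hFhol b)
  have hd : Dense (f' ⁻¹' A)ᶜ := dense_pre hX' hsm'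
  refine ⟨h', ⟨fun b x' _ hb => hh'1 b x' hb, ?_⟩, ?_⟩
  · intro b b₁ x' _ hb hb₁
    have hbo : IsOpen (L'.U b ∩ L'.U b₁) := (hlb'.isOpen b).inter (hlb'.isOpen b₁)
    refine eqOn_of_dense hbo hd (hol_continuousOn fun z hz => hh'1 b z hz.1)
      (hol_continuousOn (g := fun x => (L'.pow (q * P)).g b b₁ x * h' b₁ x) fun z hz =>
        hol_mul (hPp.holo b b₁ z hz.1 hz.2) (hh'1 b₁ z hz.2)) ?_ x' ⟨hb, hb₁⟩
    intro z hz hzA
    have hzA : f' z ∉ A := hzA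
    rw [hh'2 b z ⟨hz.1, hzA⟩, hh'2 b₁ z ⟨hz.2, hzA⟩]
    have h2 : s (a (x₀ z)) b (f (x₀ z)) = L.g (a (x₀ z)) (a (x₀ z)) (x₀ z) ^ p *
        s (a (x₀ z)) b₁ (f (x₀ z)) * L'.g b b₁ z ^ q :=
      hs.change (x₀ z) z _ _ b₁ b (by rw [hfx]; exact hzA) (hfx z).symm (ha _) (ha _) hz.2 hz.1
    have h3 : L.g (a (x₀ z)) (a (x₀ z)) (x₀ z) = 1 := IsLBx.one hlb (ha _)
    rw [h3, one_pow, one_mul, hfx] at h2
    show h (a (x₀ z)) (x₀ z) ^ p * s (a (x₀ z)) b (f' z) ^ P =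
      L'.g b b₁ z ^ (q * P) * (h (a (x₀ z)) (x₀ z) ^ p * s (a (x₀ z)) b₁ (f' z) ^ P)
    rw [h2]
    ring
  · rintro y ⟨hy, hyA⟩ b c hb hc
    set x' : X'.pt := hsm'.sec (f (v y)) with hx'
    have hfx' : f' x' = f (v y) := hsm'.sec_eq _
    have hx₀ : x₀ x' = v y := by
      show hsm.sec (f' x') = v y
      rw [hfx', hsm.sec_apply hyA]
    have hb : x' ∈ L'.U b := hb
    have h1 : h' b x' = F b x' := hh'2 b x' ⟨hb, by
      show f' x' ∉ A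
      rw [hfx']; exact hyA⟩
    have h2 : F b x' = h (a (v y)) (v y) ^ p * s (a (v y)) b (f (v y)) ^ P := by
      rw [hind x' b (a (v y)) (by rw [hfx']; exact hyA) hb (by rw [hx₀]; exact ha _), hx₀, hfx']
    have h3 := hrel y hy (a (v y)) c (ha _) hc
    have h4 : s (a (v y)) b (f (v y)) ≠ 0 :=
      (hs.holo (v y) x' (a (v y)) b hyA hfx' (ha _) hb).2
    show T (a (v y)) c y ^ p / s (a (v y)) b (f (v y)) ^ P * h' b x' = sg c y ^ (Q * p)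
    rw [h1, h2, pow_mul, ← h3, mul_pow]
    have h5 := pow_ne_zero P h4
    field_simp

end Vale.Agent.P277.H335.RR
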