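import Vale.Agent.P277.H615.R.BaseV
import Vale.Agent.P277.H615.Regc

/-!
# P277, real coefficients: the towers of a sequence of flips
-/

open scoped Manifold ContDiff Topology
open Vale.Agent.P272.K Vale.Agent.P285.H281.FD Vale.Agent.P267.H175 Set Metric Filter

noncomputable section

namespace Vale.Agent.P277.H335.RR

open Vale.Agent.P277 Vale.Agent.P277.T2 Vale.Agent.P277.H335 Vale.Agent.P277.H615

variable {Y : Type} [TopologicalSpace Y] [T2Space Y] [CompactSpace Y] [ChartedSpace (Cm 4) Y]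
  [IsManifold 𝓘(ℂ, Cm 4) ω Y]

/-- The towers on `X 0` and on all `X (j + 1)`, `j < N`, for a family of line bundles `NB e`. -/
theorem exists_towerV (hL0 : StL0) {k : ℕ} (hk : 1 ≤ k) {NB : Fin k → Bd Y}
    (hNo : ∀ e c, IsOpen ((NB e).U c)) (hNc : ∀ e y, ∃ c, y ∈ (NB e).U c) {ρ : Fin k → ℝ}
    {N : ℕ} (hN : 1 ≤ N) {W : CSp} {X Z : ℕ → CSp} (hX0 : IsNormal 4 (X 0)) {r : ℕ}
    {v : Y → W.pt} {p : W.pt → (X 0).pt} {P : Bd W.pt} {G : Fin r → Set Y}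
    (hR : T2.IsRes v p P G) {f : ∀ j, (X j).pt → (Z j).pt}
    {f' : ∀ j, (X (j + 1)).pt → (Z j).pt} {A : ∀ j, Set (Z j).pt}
    {L : ∀ j, Fin k → Bd (X j).pt} {c : ℕ → Fin k → ℕ} (hc : ∀ j e, 1 ≤ c j e)
    (hn : ∃ n t, IsCmpV (fun y => p (v y)) (L 0) (fun e => (NB e).pow (c 0 e)) G n t ∧
        ∀ l, 0 ≤ ∑ e, ρ e * n e l / c 0 e)
    (hflip : ∀ j < N, IsFlipR (X j) (Z j) (X (j + 1)) (f j) (f' j) (A j) (L j) (L (j + 1)) (c j)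
      (c (j + 1)) ρ) :
    (∃ (P' Q' : Fin k → ℕ) (T : ∀ e, (L 0 e).ι → (NB e).ι → Y → ℂ),
      TwV v (⋃ l, G l) NB (X 0) (L 0) (c 0) (⋃ l, G l)ᶜ (fun y => p (v y)) P' Q' T ρ ∅) ∧
    ∀ j < N, ∃ (O : Set Y) (v' : Y → (X (j + 1)).pt) (P' Q' : Fin k → ℕ)
      (T : ∀ e, (L (j + 1) e).ι → (NB e).ι → Y → ℂ),
      TwV v (⋃ l, G l) NB (X (j + 1)) (L (j + 1)) (c (j + 1)) O v' P' Q' T ρ
        (f' j ⁻¹' Amin (f j)) ∧ f' j ⁻¹' Amin (f j) ⊆ (v' '' O)ᶜ := by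
  have hneX : Nonempty (X 0).pt := by
    have h1 := (hflip 0 hN).ninj
    rw [Function.Injective] at h1
    push Not at h1
    obtain ⟨x, -⟩ := h1
    exact ⟨x⟩
  have hneW : Nonempty W.pt := by
    obtain ⟨x⟩ := hneX
    obtain ⟨w, -⟩ := hR.psurj x
    exact ⟨w⟩
  have h0 : ∃ (P' Q' : Fin k → ℕ) (T : ∀ e, (L 0 e).ι → (NB e).ι → Y → ℂ),
      TwV v (⋃ l, G l) NB (X 0) (L 0) (c 0) (⋃ l, G l)ᶜ (fun y => p (v y)) P' Q' T ρ ∅ := by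
    obtain ⟨n, t, ht, hn⟩ := hn
    exact ⟨_, _, _, TwV.base hL0 hX0 hR hneW hNo hNc (hflip 0 hN).lb (hc 0) ht hn⟩
  refine ⟨h0, ?_⟩
  have hst : ∀ j < N, (∃ (O : Set Y) (v' : Y → (X j).pt) (P' Q' : Fin k → ℕ)
      (T : ∀ e, (L j e).ι → (NB e).ι → Y → ℂ) (S : Set (X j).pt),
        TwV v (⋃ l, G l) NB (X j) (L j) (c j) O v' P' Q' T ρ S) →
      ∃ (O : Set Y) (v' : Y → (X (j + 1)).pt) (P' Q' : Fin k → ℕ)
        (T : ∀ e, (L (j + 1) e).ι → (NB e).ι → Y → ℂ),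
      TwV v (⋃ l, G l) NB (X (j + 1)) (L (j + 1)) (c (j + 1)) O v' P' Q' T ρ
        (f' j ⁻¹' Amin (f j)) ∧ f' j ⁻¹' Amin (f j) ⊆ (v' '' O)ᶜ := by
    rintro j hj ⟨O, v', P', Q', T, S, hTw⟩
    obtain ⟨pp, qq, s, d, a, hd, hcpq, hf, hda⟩ := exists_flipD (hflip j hj) (hc j)
    choose b hb using fun e => (hf.lb e).cover
    have hb' : ∀ e x, x ∈ (L j e).U (b e x) := hb
    refine ⟨_, _, _, _, _, hTw.step hk hNo hR.emb hf hd hcpq hda hb', ?_⟩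
    rintro x' hx' ⟨y, hy, rfl⟩
    have h1 : f' j (hf.small'.sec (f j (v' y))) ∈ Amin (f j) := hx'
    rw [hf.small'.sec_eq] at h1
    exact hy.2 h1
  intro j
  induction j with
  | zero =>
    intro hj
    obtain ⟨P', Q', T, h⟩ := h0
    exact hst 0 hj ⟨_, _, P', Q', T, _, h⟩
  | succ j ih =>
    intro hj
    obtain ⟨O, v', P', Q', T, h, -⟩ := ih (by omega)
    exact hst (j + 1) hj ⟨_, _, P', Q', T, _, h⟩

end Vale.Agent.P277.H335.RR
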